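import Vale.Agent.P353.AN.B.Stmt

/-! # P353, all `N`, block B: algebra at a frozen point and the quadratic form `qf` -/

open MeasureTheory Filter Topology Matrix
open scoped ContDiff

namespace Vale.Agent.P353.Z

section AQ

variable {dm : ℕ} {κ : ℝ} {D : Fin 9 → Matrix (Fin dm) (Fin dm) ℝ}
  {Om : Matrix (Fin dm) (Fin dm) ℝ}

private theorem aq_inv_mul (h : Frz D) : (D 8)⁻¹ * D 8 = 1 :=
  Matrix.nonsing_inv_mul _ (isUnit_iff_ne_zero.2 h.inv)

private theorem aq_mul_inv (h : Frz D) : D 8 * (D 8)⁻¹ = 1 :=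
  Matrix.mul_nonsing_inv _ (isUnit_iff_ne_zero.2 h.inv)

private theorem aq_comm_inv (h : Frz D) (i : Fin 9) : (D 8)⁻¹ * D i = D i * (D 8)⁻¹ := by
  calc (D 8)⁻¹ * D i = (D 8)⁻¹ * D i * (D 8 * (D 8)⁻¹) := by rw [aq_mul_inv h, mul_one]
    _ = (D 8)⁻¹ * (D i * D 8) * (D 8)⁻¹ := by simp only [mul_assoc]
    _ = (D 8)⁻¹ * D 8 * D i * (D 8)⁻¹ := by rw [h.comm i 8]; simp only [mul_assoc]
    _ = D i * (D 8)⁻¹ := by rw [aq_inv_mul h, one_mul]

private theorem aq_inv_anti (h : Frz D) : ((D 8)⁻¹)ᵀ = -(D 8)⁻¹ := by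
  have h1 : ((D 8)⁻¹)ᵀ * (D 8)ᵀ = 1 := by
    rw [← Matrix.transpose_mul, aq_mul_inv h, Matrix.transpose_one]
  rw [h.anti 8, mul_neg] at h1
  calc ((D 8)⁻¹)ᵀ = ((D 8)⁻¹)ᵀ * (D 8 * (D 8)⁻¹) := by rw [aq_mul_inv h, mul_one]
    _ = -(-(((D 8)⁻¹)ᵀ * D 8)) * (D 8)⁻¹ := by rw [neg_neg, mul_assoc]
    _ = -(D 8)⁻¹ := by rw [h1, neg_mul, one_mul]

private theorem aq_tI_symm (h : Frz D) (i : Fin 9) : (tI D i)ᵀ = tI D i := by
  unfold tI
  rw [Matrix.transpose_mul, h.anti i, aq_inv_anti h, neg_mul_neg, aq_comm_inv h]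

private theorem aq_tI_comm (h : Frz D) (i j : Fin 9) : tI D i * tI D j = tI D j * tI D i := by
  unfold tI
  calc (D 8)⁻¹ * D i * ((D 8)⁻¹ * D j) = (D 8)⁻¹ * (D i * (D 8)⁻¹) * D j := by
        simp only [mul_assoc]
    _ = (D 8)⁻¹ * ((D 8)⁻¹ * D i) * D j := by rw [aq_comm_inv h i]
    _ = (D 8)⁻¹ * (D 8)⁻¹ * (D i * D j) := by simp only [mul_assoc]
    _ = (D 8)⁻¹ * (D 8)⁻¹ * (D j * D i) := by rw [h.comm i j]
    _ = (D 8)⁻¹ * ((D 8)⁻¹ * D j) * D i := by simp only [mul_assoc]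
    _ = (D 8)⁻¹ * (D j * (D 8)⁻¹) * D i := by rw [aq_comm_inv h j]
    _ = (D 8)⁻¹ * D j * ((D 8)⁻¹ * D i) := by simp only [mul_assoc]

private theorem aq_tI_last (h : Frz D) : tI D 8 = 1 := aq_inv_mul h

private theorem aq_D_eq (h : Frz D) (i : Fin 9) : D i = D 8 * tI D i := by
  unfold tI
  rw [← mul_assoc, aq_mul_inv h, one_mul]

private theorem aq_comm_sum {M : Matrix (Fin dm) (Fin dm) ℝ} (hM : ∀ i, M * D i = D i * M) :
    M * (∑ i, D i * D i) = (∑ i, D i * D i) * M := by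
  rw [Finset.mul_sum, Finset.sum_mul]
  refine Finset.sum_congr rfl fun i _ => ?_
  rw [← mul_assoc, hM i, mul_assoc, hM i, mul_assoc]

private theorem aq_tI_D (h : Frz D) (i j : Fin 9) : tI D i * D j = D j * tI D i := by
  unfold tI
  rw [mul_assoc, h.comm i j, ← mul_assoc, aq_comm_inv h j, mul_assoc]

private theorem aq_tI_Om (h : Frz D) (hO : IsOm κ D Om) (i : Fin 9) :
    tI D i * Om = Om * tI D i := hO.comm _ (aq_comm_sum (aq_tI_D h i))

private theorem aq_D_Om (h : Frz D) (hO : IsOm κ D Om) (i : Fin 9) : D i * Om = Om * D i :=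
  hO.comm _ (aq_comm_sum fun j => h.comm i j)

/-- symmetric matrices move across the dot product -/
private theorem aq_dot {A : Matrix (Fin dm) (Fin dm) ℝ} (hA : Aᵀ = A) (v w : Fin dm → ℝ) :
    v ⬝ᵥ (A *ᵥ w) = (A *ᵥ v) ⬝ᵥ w := by
  rw [Matrix.dotProduct_mulVec, ← Matrix.mulVec_transpose, hA]

private theorem aq_t2_det (h : Frz D) : (t2 D).det ≠ 0 := by
  intro h0
  obtain ⟨v, hv, h1⟩ := Matrix.exists_mulVec_eq_zero_iff.2 h0
  have h2 : ∑ i, (tI D i *ᵥ v) ⬝ᵥ (tI D i *ᵥ v) = 0 := by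
    have h3 : v ⬝ᵥ (t2 D *ᵥ v) = ∑ i, (tI D i *ᵥ v) ⬝ᵥ (tI D i *ᵥ v) := by
      unfold t2
      rw [Matrix.sum_mulVec, dotProduct_sum]
      refine Finset.sum_congr rfl fun i _ => ?_
      rw [← Matrix.mulVec_mulVec, aq_dot (aq_tI_symm h i)]
    rw [← h3, h1, dotProduct_zero]
  have h3 := (Finset.sum_eq_zero_iff_of_nonneg fun i _ =>
    (Finset.sum_nonneg fun _ _ => mul_self_nonneg _ : 0 ≤ (tI D i *ᵥ v) ⬝ᵥ (tI D i *ᵥ v))).1 h2 8 (Finset.mem_univ _)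
  rw [aq_tI_last h, Matrix.one_mulVec] at h3
  exact hv (dotProduct_self_eq_zero.1 h3)

private theorem aq_sum_tI_VV (h : Frz D) (w : Wsp dm) : ∑ i, tI D i *ᵥ VV D w i = 0 := by
  unfold VV
  simp only [Matrix.mulVec_sub, Finset.sum_sub_distrib, Matrix.mulVec_mulVec]
  rw [← Matrix.sum_mulVec]
  change _ - t2 D *ᵥ sV D w = 0
  unfold sV
  rw [Matrix.mulVec_mulVec, Matrix.mul_nonsing_inv _ (isUnit_iff_ne_zero.2 (aq_t2_det h)),
    Matrix.one_mulVec, sub_self]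

private theorem aq_wt_last (w : Wsp dm) : wt w 8 = 0 := by
  funext B
  show wt w (Fin.last 8) B = 0
  unfold wt
  rw [Fin.lastCases_last]

private theorem aq_wt_cast (w : Wsp dm) (j : Fin 8) : wt w j.castSucc = fun B => w (j, B) := by
  funext B
  unfold wt
  rw [Fin.lastCases_castSucc]

private theorem aq_VV_last (h : Frz D) (w : Wsp dm) : VV D w 8 = -sV D w := by
  unfold VV
  rw [aq_wt_last, aq_tI_last h, Matrix.one_mulVec, zero_sub]

private theorem aq_wt_eq (h : Frz D) (w : Wsp dm) (i : Fin 9) :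
    wt w i = VV D w i - tI D i *ᵥ VV D w 8 := by
  rw [aq_VV_last h, Matrix.mulVec_neg, sub_neg_eq_add]
  unfold VV
  rw [sub_add_cancel]

end AQ

theorem alg : AlgStmt := by
  intro dm κ D Om _ h hO
  refine ⟨aq_tI_symm h, aq_tI_comm h, aq_tI_last h, aq_tI_Om h hO, aq_D_Om h hO, aq_t2_det h,
    aq_D_eq h, aq_sum_tI_VV h, fun w => ?_, fun w i j => ?_, fun w j => aq_wt_eq h w _⟩
  · have h1 : ∑ i, D i *ᵥ VV D w i = D 8 *ᵥ ∑ i, tI D i *ᵥ VV D w i := by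
      rw [Matrix.mulVec_sum]
      refine Finset.sum_congr rfl fun i _ => ?_
      rw [Matrix.mulVec_mulVec, ← aq_D_eq h]
    rw [h1, aq_sum_tI_VV h, Matrix.mulVec_zero]
  · unfold VV
    rw [Matrix.mulVec_sub, Matrix.mulVec_sub, Matrix.mulVec_mulVec, Matrix.mulVec_mulVec]
    have h1 : D i * tI D j = D j * tI D i := by
      rw [aq_D_eq h i, mul_assoc, aq_tI_comm h i j, ← mul_assoc, ← aq_D_eq h]
    rw [h1]
    abel

section QF

variable {dm : ℕ} {κ : ℝ} {D : Fin 9 → Matrix (Fin dm) (Fin dm) ℝ}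
  {Om : Matrix (Fin dm) (Fin dm) ℝ}

private theorem aq_wt_add (v w : Wsp dm) (i : Fin 9) : wt (v + w) i = wt v i + wt w i := by
  induction i using Fin.lastCases with
  | last =>
    have h : ∀ w : Wsp dm, wt w (Fin.last 8) = 0 := aq_wt_last
    rw [h, h, h, add_zero]
  | cast j =>
    rw [aq_wt_cast, aq_wt_cast, aq_wt_cast]
    rfl

private theorem aq_wt_smul (c : ℝ) (w : Wsp dm) (i : Fin 9) : wt (c • w) i = c • wt w i := by
  induction i using Fin.lastCases with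
  | last =>
    have h : ∀ w : Wsp dm, wt w (Fin.last 8) = 0 := aq_wt_last
    rw [h, h, smul_zero]
  | cast j =>
    rw [aq_wt_cast, aq_wt_cast]
    rfl

private theorem aq_VV_add (v w : Wsp dm) (i : Fin 9) : VV D (v + w) i = VV D v i + VV D w i := by
  unfold VV sV
  simp only [aq_wt_add, Matrix.mulVec_add, Finset.sum_add_distrib]
  abel

private theorem aq_VV_smul (c : ℝ) (w : Wsp dm) (i : Fin 9) : VV D (c • w) i = c • VV D w i := by
  unfold VV sV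
  simp only [aq_wt_smul, Matrix.mulVec_smul, ← Finset.smul_sum, smul_sub]

/-- the linear map `w ↦ Ω V` -/
private noncomputable def aqM (D : Fin 9 → Matrix (Fin dm) (Fin dm) ℝ)
    (Om : Matrix (Fin dm) (Fin dm) ℝ) : Wsp dm →ₗ[ℝ] Wsp dm where
  toFun w := WithLp.toLp 2 fun p => (Om *ᵥ VV D w p.1.castSucc) p.2
  map_add' v w := by
    ext p
    simp only [aq_VV_add, Matrix.mulVec_add, PiLp.add_apply, Pi.add_apply]
  map_smul' c w := by
    ext p
    simp only [aq_VV_smul, Matrix.mulVec_smul, PiLp.smul_apply, Pi.smul_apply, RingHom.id_apply]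

private theorem aqM_inner (h : Frz D) (hO : IsOm κ D Om) (v w : Wsp dm) :
    inner ℝ (aqM D Om v) w = ∑ i, (Om *ᵥ VV D v i) ⬝ᵥ VV D w i := by
  have h1 : inner ℝ (aqM D Om v) w = ∑ i : Fin 9, (Om *ᵥ VV D v i) ⬝ᵥ wt w i := by
    rw [Fin.sum_univ_castSucc]
    have e : (Fin.last 8 : Fin 9) = 8 := rfl
    rw [e, aq_wt_last, dotProduct_zero, add_zero, PiLp.inner_apply,
      Fintype.sum_prod_type]
    refine Finset.sum_congr rfl fun j _ => ?_
    rw [aq_wt_cast]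
    refine Finset.sum_congr rfl fun B _ => ?_
    simp only [RCLike.inner_apply, conj_trivial]
    exact mul_comm _ _
  rw [h1]
  have h2 : ∑ i : Fin 9, (Om *ᵥ VV D v i) ⬝ᵥ wt w i =
      ∑ i : Fin 9, (Om *ᵥ VV D v i) ⬝ᵥ VV D w i -
        ∑ i : Fin 9, (Om *ᵥ VV D v i) ⬝ᵥ (tI D i *ᵥ VV D w 8) := by
    rw [← Finset.sum_sub_distrib]
    refine Finset.sum_congr rfl fun i _ => ?_
    rw [aq_wt_eq h w i, dotProduct_sub]
  have h3 : ∑ i : Fin 9, (Om *ᵥ VV D v i) ⬝ᵥ (tI D i *ᵥ VV D w 8) = 0 := by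
    have h4 : ∑ i : Fin 9, (Om *ᵥ VV D v i) ⬝ᵥ (tI D i *ᵥ VV D w 8) =
        (Om *ᵥ ∑ i, tI D i *ᵥ VV D v i) ⬝ᵥ VV D w 8 := by
      rw [Matrix.mulVec_sum, sum_dotProduct]
      refine Finset.sum_congr rfl fun i _ => ?_
      rw [aq_dot (aq_tI_symm h i), Matrix.mulVec_mulVec, Matrix.mulVec_mulVec, aq_tI_Om h hO]
    rw [h4, aq_sum_tI_VV h, Matrix.mulVec_zero, zero_dotProduct]
  rw [h2, h3, sub_zero]

private theorem aq_pos (h : Frz D) (hO : IsOm κ D Om) {w : Wsp dm} (hw : w ≠ 0) :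
    0 < ∑ i, VV D w i ⬝ᵥ (Om *ᵥ VV D w i) := by
  have hnn : ∀ v : Fin dm → ℝ, 0 ≤ v ⬝ᵥ (Om *ᵥ v) := fun v => by
    by_cases hv : v = 0
    · rw [hv, zero_dotProduct]
    · exact (hO.pos v hv).le
  by_contra hcon
  have h1 : ∑ i, VV D w i ⬝ᵥ (Om *ᵥ VV D w i) = 0 :=
    le_antisymm (not_lt.1 hcon) (Finset.sum_nonneg fun i _ => hnn _)
  have h2 : ∀ i, VV D w i = 0 := by
    intro i
    have h3 := (Finset.sum_eq_zero_iff_of_nonneg fun i _ => hnn (VV D w i)).1 h1 i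
      (Finset.mem_univ _)
    by_contra hne
    exact (hO.pos _ hne).ne' h3
  apply hw
  ext ⟨j, B⟩
  have h3 := aq_wt_eq h w j.castSucc
  rw [h2, h2, Matrix.mulVec_zero, sub_zero, aq_wt_cast] at h3
  exact congrFun h3 B

theorem qfS : QFStmt := by
  intro dm κ D Om _ h hO
  set M : Wsp dm →L[ℝ] Wsp dm := LinearMap.toContinuousLinearMap (aqM D Om) with hM
  have hMi : ∀ v w, inner ℝ (M v) w = ∑ i, (Om *ᵥ VV D v i) ⬝ᵥ VV D w i := aqM_inner h hO
  have hsym : ∀ v w, inner ℝ (M v) w = inner ℝ v (M w) := by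
    intro v w
    rw [real_inner_comm (M w) v, hMi, hMi]
    refine Finset.sum_congr rfl fun i _ => ?_
    rw [← aq_dot hO.symm, dotProduct_comm]
  have hqf : ∀ w, qf D Om w = inner ℝ w (M w) := by
    intro w
    rw [← hsym, hMi]
    unfold qf
    refine Finset.sum_congr rfl fun i _ => ?_
    rw [dotProduct_comm]
  refine ⟨M, hsym, hqf, fun w j B => rfl, ?_⟩
  have hpos : ∀ w : Wsp dm, w ≠ 0 → 0 < inner ℝ w (M w) := fun w hw => by
    rw [← hqf]
    exact aq_pos h hO hw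
  rcases subsingleton_or_nontrivial (Wsp dm) with hs | hs
  · refine ⟨1, one_pos, fun w => ?_⟩
    rw [Subsingleton.elim w 0]
    simp
  · obtain ⟨w0, hw0, hmin⟩ := (isCompact_sphere (0 : Wsp dm) 1).exists_isMinOn
      (NormedSpace.sphere_nonempty.2 zero_le_one)
      (f := fun w => inner ℝ w (M w)) (continuous_id.inner M.continuous).continuousOn
    have hw0' : w0 ≠ 0 := by
      rintro rfl
      simp at hw0
    refine ⟨inner ℝ w0 (M w0), hpos w0 hw0', fun w => ?_⟩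
    by_cases hw : w = 0
    · rw [hw]
      simp
    have hn : 0 < ‖w‖ := norm_pos_iff.2 hw
    have h1 := hmin (show ‖w‖⁻¹ • w ∈ Metric.sphere (0 : Wsp dm) 1 by
      rw [mem_sphere_zero_iff_norm, norm_smul, norm_inv, norm_norm, inv_mul_cancel₀ hn.ne'])
    simp only [Set.mem_ofPred_eq, map_smul, inner_smul_left, inner_smul_right, conj_trivial] at h1
    calc inner ℝ w0 (M w0) * ‖w‖ ^ 2 ≤ ‖w‖⁻¹ * (‖w‖⁻¹ * inner ℝ w (M w)) * ‖w‖ ^ 2 :=
          mul_le_mul_of_nonneg_right h1 (by positivity)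
      _ = inner ℝ w (M w) := by
          field_simp

end QF

end Vale.Agent.P353.Z
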