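import Vale.Agent.P353.AN.B.Stmt

/-! # P353, all `N`, block B: coercivity at the frozen point -/

open MeasureTheory Filter Topology Matrix
open scoped ContDiff

namespace Vale.Agent.P353.Z

variable {d dh dm : ℕ} {F : Type*} [NormedAddCommGroup F] [InnerProductSpace ℂ F]

namespace CoF

lemma fderiv_nsq {f : Wsp dm → F} {w : Wsp dm} (hf : DifferentiableAt ℝ f w) (e : Wsp dm) :
    fderiv ℝ (fun w => ‖f w‖ ^ 2) w e = 2 * (inner ℂ (f w) (fderiv ℝ f w e)).re := by
  have h1 : DifferentiableAt ℝ (fun w => inner ℂ (f w) (f w)) w := hf.inner ℂ hf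
  have h2 := fderiv_inner_apply ℂ hf hf e
  have h3 : (fun w => ‖f w‖ ^ 2) = fun w => Complex.reCLM (inner ℂ (f w) (f w)) := by
    funext w
    rw [Complex.reCLM_apply, ← inner_self_eq_norm_sq (𝕜 := ℂ)]
    rfl
  have h4 : fderiv ℝ (fun w => Complex.reCLM (inner ℂ (f w) (f w))) w =
      Complex.reCLM.comp (fderiv ℝ (fun w => inner ℂ (f w) (f w)) w) :=
    (Complex.reCLM.hasFDerivAt.comp w h1.hasFDerivAt).fderiv
  rw [h3, h4, ContinuousLinearMap.comp_apply, h2, Complex.reCLM_apply, Complex.add_re]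
  have h5 : (inner ℂ (fderiv ℝ f w e) (f w) : ℂ).re = (inner ℂ (f w) (fderiv ℝ f w e) : ℂ).re := by
    rw [← inner_conj_symm, Complex.conj_re]
  rw [h5]
  ring

lemma FT.nsq_contDiff {f : Wsp dm → F} (hf : FT f) : ContDiff ℝ 1 fun w => ‖f w‖ ^ 2 :=
  (hf.1.norm_sq ℂ).of_le (by simp)

lemma FT.nsq_cs {f : Wsp dm → F} (hf : FT f) : HasCompactSupport fun w => ‖f w‖ ^ 2 :=
  hf.2.comp_left (g := fun v : F => ‖v‖ ^ 2) (by simp)

lemma FT.pf_cont {f : Wsp dm → F} (hf : FT f) (j : Fin 8) (B : Fin dm) : Continuous (pf j B f) := by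
  unfold pf
  exact (hf.1.continuous_fderiv (by simp)).clm_apply continuous_const

lemma FT.pf_cs {f : Wsp dm → F} (hf : FT f) (j : Fin 8) (B : Fin dm) :
    HasCompactSupport (pf j B f) :=
  hf.2.fderiv_apply (𝕜 := ℝ) (EuclideanSpace.single (j, B) (1 : ℝ) : Wsp dm)

/-- integration by parts against a linear function -/
lemma ibp {g : Wsp dm → ℝ} (hg : ContDiff ℝ 1 g) (hc : HasCompactSupport g)
    (ℓ : Wsp dm →L[ℝ] ℝ) (e : Wsp dm) :
    ∫ w, ℓ w * fderiv ℝ g w e = -(ℓ e * ∫ w, g w) := by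
  have hdc : Continuous fun w => fderiv ℝ g w e :=
    (hg.continuous_fderiv (by simp)).clm_apply continuous_const
  have hds : HasCompactSupport fun w => fderiv ℝ g w e := hc.fderiv_apply (𝕜 := ℝ) e
  have h := integral_mul_fderiv_eq_neg_fderiv_mul_of_integrable (μ := volume)
    (f := fun w : Wsp dm => ℓ w) (g := g) (v := e) ?_ ?_ ?_ ?_ ?_
  · rw [h]
    have h2 : ∀ w, fderiv ℝ (fun w : Wsp dm => ℓ w) w e = ℓ e := fun w => by
      rw [ℓ.fderiv]
    simp only [h2]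
    rw [integral_const_mul]
  · have h2 : ∀ w, fderiv ℝ (fun w : Wsp dm => ℓ w) w e = ℓ e := fun w => by
      rw [ℓ.fderiv]
    simp only [h2]
    exact (hg.continuous.integrable_of_hasCompactSupport hc).const_mul _
  · exact (ℓ.continuous.mul hdc).integrable_of_hasCompactSupport hds.mul_left
  · exact (ℓ.continuous.mul hg.continuous).integrable_of_hasCompactSupport hc.mul_left
  · exact fun w _ => ℓ.differentiableAt
  · exact fun w _ => (hg.differentiable (by simp)) w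

lemma pt (a v : F) (m : ℝ) :
    ‖a + (m : ℂ) • v‖ ^ 2 = ‖a‖ ^ 2 + m * (2 * (inner ℂ v a).re) + m ^ 2 * ‖v‖ ^ 2 := by
  rw [norm_add_sq (𝕜 := ℂ), inner_smul_right, norm_smul, mul_pow, Complex.norm_real,
    Real.norm_eq_abs, sq_abs]
  have h1 : (inner ℂ a v : ℂ).re = (inner ℂ v a : ℂ).re := by
    rw [← inner_conj_symm, Complex.conj_re]
  have h2 : RCLike.re ((m : ℂ) * inner ℂ a v) = m * (inner ℂ v a : ℂ).re := by
    rw [← h1]
    simp
  rw [h2]
  ring

omit [InnerProductSpace ℂ F] in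
lemma i0 {g : Wsp dm → F} (hg : Continuous g) (hc : HasCompactSupport g) :
    Integrable fun w => ‖g w‖ ^ 2 := by
  have h1 : Continuous fun w => ‖g w‖ ^ 2 := hg.norm.pow 2
  have h2 : HasCompactSupport fun w => ‖g w‖ ^ 2 :=
    hc.comp_left (g := fun v : F => ‖v‖ ^ 2) (by simp)
  exact h1.integrable_of_hasCompactSupport h2

lemma i1 {f : Wsp dm → F} (hf : FT f) (j : Fin 8) (B : Fin dm) :
    Integrable fun w => ‖pf j B f w‖ ^ 2 :=
  i0 (FT.pf_cont hf j B) (FT.pf_cs hf j B)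

lemma i2 {f : Wsp dm → F} (hf : FT f) (ℓ : Wsp dm →L[ℝ] ℝ) (e : Wsp dm) :
    Integrable fun w => ℓ w * fderiv ℝ (fun w => ‖f w‖ ^ 2) w e := by
  have h1 : Continuous fun w => fderiv ℝ (fun w => ‖f w‖ ^ 2) w e :=
    ((FT.nsq_contDiff hf).continuous_fderiv (by simp)).clm_apply continuous_const
  have h2 : HasCompactSupport fun w => fderiv ℝ (fun w => ‖f w‖ ^ 2) w e :=
    (FT.nsq_cs hf).fderiv_apply (𝕜 := ℝ) e
  exact (ℓ.continuous.mul h1).integrable_of_hasCompactSupport h2.mul_left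

lemma i3 {f : Wsp dm → F} (hf : FT f) {m : Wsp dm → ℝ} (hm : Continuous m) :
    Integrable fun w => m w * ‖f w‖ ^ 2 :=
  (hm.mul (FT.nsq_contDiff hf).continuous).integrable_of_hasCompactSupport
    (FT.nsq_cs hf).mul_left

lemma one_dir {f : Wsp dm → F} (hf : FT f) (j : Fin 8) (B : Fin dm) (ℓ : Wsp dm →L[ℝ] ℝ) :
    nsf (fun w => pf j B f w + ((ℓ w : ℝ) : ℂ) • f w) = nsf (pf j B f) +
      (∫ w, (ℓ w) ^ 2 * ‖f w‖ ^ 2) - ℓ (EuclideanSpace.single (j, B) 1) * nsf f := by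
  have hd : Differentiable ℝ f := hf.1.differentiable (by simp)
  have hpt : ∀ w, ‖pf j B f w + ((ℓ w : ℝ) : ℂ) • f w‖ ^ 2 = ‖pf j B f w‖ ^ 2 +
      ℓ w * fderiv ℝ (fun w => ‖f w‖ ^ 2) w (EuclideanSpace.single (j, B) 1) +
      (ℓ w) ^ 2 * ‖f w‖ ^ 2 := by
    intro w
    rw [pt, fderiv_nsq (hd w)]
    rfl
  have h3 : Integrable fun w => (ℓ w) ^ 2 * ‖f w‖ ^ 2 := i3 hf (ℓ.continuous.pow 2)
  have h12 : Integrable fun w => ‖pf j B f w‖ ^ 2 +
      ℓ w * fderiv ℝ (fun w => ‖f w‖ ^ 2) w (EuclideanSpace.single (j, B) 1) :=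
    (i1 hf j B).add (i2 hf ℓ _)
  have e1 : nsf (fun w => pf j B f w + ((ℓ w : ℝ) : ℂ) • f w) = ∫ w, ((‖pf j B f w‖ ^ 2 +
      ℓ w * fderiv ℝ (fun w => ‖f w‖ ^ 2) w (EuclideanSpace.single (j, B) 1)) +
      (ℓ w) ^ 2 * ‖f w‖ ^ 2) := integral_congr_ae (Eventually.of_forall hpt)
  rw [e1, integral_add h12 h3, integral_add (i1 hf j B) (i2 hf ℓ _),
    ibp (FT.nsq_contDiff hf) (FT.nsq_cs hf)]
  unfold nsf
  ring

end CoF

open CoF in
theorem coerF (S : Setup d F) (φ : Spl dh dm d) (hQF : QFStmt) (hEn : EnFStmt S φ)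
    (hLam : LamStmt S φ) : CoerFStmt S φ := by
  intro hfin D Om hD hOm
  obtain ⟨M, hM1, -, hM3, c, hc, hM4⟩ := hQF dm S.κ D Om S.κ_pos hD hOm
  obtain ⟨cL, hcL, hL⟩ := hLam hfin D Om hD hOm
  set τ : ℝ := ∑ j : Fin 8, ∑ B : Fin dm, M (EuclideanSpace.single (j, B) 1) (j, B) with hτ
  set c0 : ℝ := min 1 (c ^ 2) with hc0
  have hc0p : 0 < c0 := lt_min one_pos (by positivity)
  refine ⟨(2 + |τ|) / c0, by positivity, fun f hf => ?_⟩
  -- the bosonic part
  have h1 : ∑ j : Fin 8, ∑ B : Fin dm, nsf (fun w => pf j B f w + ((M w (j, B) : ℝ) : ℂ) • f w) ≤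
      2 * S.e1 φ D f := by
    have hE := hEn D Om hD hOm f hf
    have hN : 0 ≤ (∫ w, inner ℂ (f w) (S.NF φ D Om (f w))).re := by
      have hint : Integrable fun w => inner ℂ (f w) (S.NF φ D Om (f w)) := by
        have hcf : Continuous f := hf.1.continuous
        have h2 : Continuous fun w => inner ℂ (f w) (S.NF φ D Om (f w)) :=
          hcf.inner ((S.NF φ D Om).continuous.comp hcf)
        have h3 : HasCompactSupport fun w => inner ℂ (f w) (S.NF φ D Om (f w)) :=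
          hf.2.comp_left (g := fun v : F => inner ℂ v (S.NF φ D Om v)) (by simp)
        exact h2.integrable_of_hasCompactSupport h3
      have h4 : (∫ w, inner ℂ (f w) (S.NF φ D Om (f w))).re =
          ∫ w, (inner ℂ (f w) (S.NF φ D Om (f w))).re :=
        (integral_re hint).symm
      rw [h4]
      refine integral_nonneg fun w => ?_
      obtain ⟨v0, -, -, h5⟩ := hL (f w)
      exact le_trans (by positivity) h5
    have hdrop : ∑ j : Fin 8, ∑ B : Fin dm,
        nsf (fun w => pf j B f w + ((M w (j, B) : ℝ) : ℂ) • f w) ≤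
        ∑ i : Fin 9, ∑ B, nsf (fun w => dd D i B f w + (((Om *ᵥ VV D w i) B : ℝ) : ℂ) • f w) := by
      rw [Fin.sum_univ_castSucc (n := 8)]
      have e1 : ∀ (j : Fin 8) (B : Fin dm),
          nsf (fun w => pf j B f w + ((M w (j, B) : ℝ) : ℂ) • f w) =
          nsf (fun w => dd D j.castSucc B f w +
            (((Om *ᵥ VV D w j.castSucc) B : ℝ) : ℂ) • f w) := by
        intro j B
        congr 1
        funext w
        rw [hM3]
        simp [dd]
      simp only [e1]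
      refine le_add_of_nonneg_right (Finset.sum_nonneg fun B _ => ?_)
      exact integral_nonneg fun w => by positivity
    linarith
  have h2 : ∀ (j : Fin 8) (B : Fin dm),
      nsf (fun w => pf j B f w + ((M w (j, B) : ℝ) : ℂ) • f w) = nsf (pf j B f) +
        (∫ w, (M w (j, B)) ^ 2 * ‖f w‖ ^ 2) - M (EuclideanSpace.single (j, B) 1) (j, B) * nsf f :=
    fun j B => one_dir hf j B ((EuclideanSpace.proj (j, B)).comp M)
  simp only [h2, Finset.sum_sub_distrib, Finset.sum_add_distrib, ← Finset.sum_mul] at h1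
  have h3 : c ^ 2 * nsf (fun w => ((‖w‖ : ℝ) : ℂ) • f w) ≤
      ∑ j : Fin 8, ∑ B : Fin dm, ∫ w, (M w (j, B)) ^ 2 * ‖f w‖ ^ 2 := by
    have hcont : ∀ (j : Fin 8) (B : Fin dm), Continuous fun w => (M w (j, B)) ^ 2 := fun j B =>
      (((EuclideanSpace.proj (𝕜 := ℝ) (j, B)).comp M).continuous).pow 2
    have hi : ∀ (j : Fin 8) (B : Fin dm), Integrable fun w => (M w (j, B)) ^ 2 * ‖f w‖ ^ 2 :=
      fun j B => i3 hf (hcont j B)
    have e1 : ∑ j : Fin 8, ∑ B : Fin dm, ∫ w, (M w (j, B)) ^ 2 * ‖f w‖ ^ 2 =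
        ∫ w, ‖M w‖ ^ 2 * ‖f w‖ ^ 2 := by
      have e2 : ∀ w, ‖M w‖ ^ 2 * ‖f w‖ ^ 2 =
          ∑ j : Fin 8, ∑ B : Fin dm, (M w (j, B)) ^ 2 * ‖f w‖ ^ 2 := by
        intro w
        rw [EuclideanSpace.norm_sq_eq, Fintype.sum_prod_type, Finset.sum_mul]
        refine Finset.sum_congr rfl fun j _ => ?_
        rw [Finset.sum_mul]
        refine Finset.sum_congr rfl fun B _ => ?_
        rw [Real.norm_eq_abs, sq_abs]
      simp_rw [e2]
      rw [integral_finsetSum _ fun j _ => integrable_finsetSum _ fun B _ => hi j B]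
      refine Finset.sum_congr rfl fun j _ => ?_
      rw [integral_finsetSum _ fun B _ => hi j B]
    rw [e1]
    unfold nsf
    rw [← integral_const_mul]
    refine integral_mono ?_ (i3 hf (M.continuous.norm.pow 2)) fun w => ?_
    · have hcn : Continuous fun w : Wsp dm => ‖w‖ ^ 2 := continuous_norm.pow 2
      refine ((i3 hf hcn).const_mul (c ^ 2)).congr (Eventually.of_forall fun w => ?_)
      simp only [norm_smul, Complex.norm_real, norm_norm, mul_pow]
    · simp only [norm_smul, Complex.norm_real, norm_norm, mul_pow]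
      rw [← mul_assoc]
      refine mul_le_mul_of_nonneg_right ?_ (sq_nonneg _)
      rw [← mul_pow]
      refine pow_le_pow_left₀ (by positivity) ?_ 2
      rcases eq_or_lt_of_le (norm_nonneg w) with h | h
      · rw [← h, mul_zero]
        exact norm_nonneg _
      · have h5 := (hM4 w).trans (real_inner_le_norm w (M w))
        have h6 : ‖w‖ * (c * ‖w‖) ≤ ‖w‖ * ‖M w‖ := by
          calc ‖w‖ * (c * ‖w‖) = c * ‖w‖ ^ 2 := by ring
            _ ≤ _ := h5
        exact le_of_mul_le_mul_left h6 h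
  have hn1 : 0 ≤ nsf f := integral_nonneg fun w => by positivity
  have hn2 : 0 ≤ nsf (fun w => ((‖w‖ : ℝ) : ℂ) • f w) := integral_nonneg fun w => by positivity
  have hn3 : 0 ≤ ∑ j : Fin 8, ∑ B : Fin dm, nsf (pf j B f) :=
    Finset.sum_nonneg fun j _ => Finset.sum_nonneg fun B _ => integral_nonneg fun w => by positivity
  have hn4 : 0 ≤ S.e1 φ D f := by
    unfold Setup.e1
    refine mul_nonneg (by norm_num) (Finset.sum_nonneg fun β _ => ?_)
    exact integral_nonneg fun w => by positivity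
  set G := ∑ j : Fin 8, ∑ B : Fin dm, nsf (pf j B f)
  set X := nsf (fun w => ((‖w‖ : ℝ) : ℂ) • f w)
  have h7 : c0 * (G + X) ≤ (2 + |τ|) * (S.e1 φ D f + nsf f) := by
    have h8 : c0 * G ≤ G := mul_le_of_le_one_left hn3 (min_le_left _ _)
    have h9 : c0 * X ≤ c ^ 2 * X := mul_le_mul_of_nonneg_right (min_le_right _ _) hn2
    have h10 : τ * nsf f ≤ |τ| * nsf f := mul_le_mul_of_nonneg_right (le_abs_self τ) hn1
    have h11 : 0 ≤ |τ| * S.e1 φ D f := mul_nonneg (abs_nonneg _) hn4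
    have h12 : (2 + |τ|) * (S.e1 φ D f + nsf f) = 2 * S.e1 φ D f + |τ| * nsf f +
        (2 * nsf f + |τ| * S.e1 φ D f) := by ring
    linarith
  rw [div_mul_eq_mul_div, le_div_iff₀ hc0p]
  linarith

end Vale.Agent.P353.Z
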