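import Vale.Agent.P353.AN.B.EnC

/-! # P353, all `N`, block B: exact energy identity of the fibre oscillator (`EnFStmt`) -/

open MeasureTheory Filter Topology Matrix
open scoped ContDiff

namespace Vale.Agent.P353.Z.EnFib

variable {d dh dm : ℕ} {F : Type*} [NormedAddCommGroup F] [InnerProductSpace ℂ F]

lemma MA_im (S : Setup d F) (D : Fin 9 → Matrix (Fin dm) (Fin dm) ℝ) (x : Fin 9 → Fin dm → ℝ) (A : Fin dm)
    (α β : Fin 16) : (MA S D x A α β).im = 0 := by
  rw [MA, Matrix.smul_apply, Matrix.sum_apply]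
  simp only [Matrix.sum_apply, Matrix.smul_apply, smul_eq_mul]
  have h1 : (∑ i, ∑ j, ((LL S.κ D x A i j : ℝ) : ℂ) * S.g2 i j α β).im = 0 := by
    rw [Complex.im_sum]
    refine Finset.sum_eq_zero fun i _ => ?_
    rw [Complex.im_sum]
    refine Finset.sum_eq_zero fun j _ => ?_
    rw [Complex.mul_im, S.g2_im, Complex.ofReal_im]
    ring
  rw [Complex.mul_im, h1]
  norm_num

/-- one term of the symmetry of the supercharge -/
lemma symm_term {T : F →L[ℂ] F} (hT : ∀ v w : F, inner ℂ (T v) w = inner ℂ v (T w)) (e : Wsp dm)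
    {f g : Wsp dm → F} (hf : FT f) (hg : FT g) :
    ∫ w, inner ℂ ((-Complex.I) • T (dr e f w)) (g w) = ∫ w, inner ℂ (f w) ((-Complex.I) • T (dr e g w)) := by
  have h1 : ∀ w, inner ℂ ((-Complex.I) • T (dr e f w)) (g w) = Complex.I * inner ℂ (dr e f w) (T (g w)) := by
    intro w
    rw [inner_smul_left, hT]
    simp
  have h2 : ∀ w, inner ℂ (f w) ((-Complex.I) • T (dr e g w)) = -Complex.I * inner ℂ (f w) (dr e (fun w => T (g w)) w) := by
    intro w
    rw [inner_smul_right]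
    congr 2
    have h := ((T.restrictScalars ℝ).hasFDerivAt (x := g w)).comp w (ft_diff hg w).hasFDerivAt
    have h' : fderiv ℝ (fun w => T (g w)) w = (T.restrictScalars ℝ).comp (fderiv ℝ g w) := h.fderiv
    rw [dr, dr, h']
    rfl
  simp only [h1, h2]
  rw [integral_const_mul, integral_const_mul, ibp hf ((ft_clm T hg).1.of_le (by simp))]
  ring

lemma q1_symm (S : Setup d F) (φ : Spl dh dm d) (D : Fin 9 → Matrix (Fin dm) (Fin dm) ℝ) (β : Fin 16)
    {f g : Wsp dm → F} (hf : FT f) (hg : FT g) :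
    ∫ w, inner ℂ (S.q1 φ D β f w) (g w) = ∫ w, inner ℂ (f w) (S.q1 φ D β g w) := by
  have hv : ∀ (i : Fin 9) (B : Fin dm) (v w : F), inner ℂ (S.vec (S.g i) (φ (Sum.inr B)) β v) w =
      inner ℂ v (S.vec (S.g i) (φ (Sum.inr B)) β w) := fun i B => S.vec_symm _ (S.g_im _) _ _
  have hm : ∀ w, inner ℂ ((∑ B, S.vec (MA S D (wt w) B) (φ (Sum.inr B)) β) (f w)) (g w) =
      inner ℂ (f w) ((∑ B, S.vec (MA S D (wt w) B) (φ (Sum.inr B)) β) (g w)) := by
    intro w
    rw [_root_.sum_apply, _root_.sum_apply, sum_inner, inner_sum]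
    exact Finset.sum_congr rfl fun B _ => S.vec_symm _ (MA_im S D _ _) _ _ _ _
  have e1 : ∀ w, inner ℂ (S.q1 φ D β f w) (g w) =
      (∑ i, ∑ B, inner ℂ ((-Complex.I) • S.vec (S.g i) (φ (Sum.inr B)) β (dr (dv D i B) f w)) (g w)) +
      inner ℂ (f w) ((∑ B, S.vec (MA S D (wt w) B) (φ (Sum.inr B)) β) (g w)) := by
    intro w
    rw [q1_eq, inner_add_left, hm, Finset.smul_sum]
    simp only [Finset.smul_sum, sum_inner, dd_eq]
  have e2 : ∀ w, inner ℂ (f w) (S.q1 φ D β g w) =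
      (∑ i, ∑ B, inner ℂ (f w) ((-Complex.I) • S.vec (S.g i) (φ (Sum.inr B)) β (dr (dv D i B) g w))) +
      inner ℂ (f w) ((∑ B, S.vec (MA S D (wt w) B) (φ (Sum.inr B)) β) (g w)) := by
    intro w
    rw [q1_eq, inner_add_right, Finset.smul_sum]
    simp only [Finset.smul_sum, inner_sum, dd_eq]
  have i1 : ∀ i B, Integrable (fun w => inner ℂ ((-Complex.I) • S.vec (S.g i) (φ (Sum.inr B)) β
      (dr (dv D i B) f w)) (g w)) := fun i B =>
    ft_inner_int (ft_smul _ (ft_clm _ (FT.dr hf _))) hg.1.continuous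
  have i2 : ∀ i B, Integrable (fun w => inner ℂ (f w) ((-Complex.I) • S.vec (S.g i) (φ (Sum.inr B)) β
      (dr (dv D i B) g w))) := fun i B =>
    ft_inner_int hf (ft_smul _ (ft_clm _ (FT.dr hg _))).1.continuous
  have i3 : Integrable (fun w => inner ℂ (f w) ((∑ B, S.vec (MA S D (wt w) B) (φ (Sum.inr B)) β) (g w))) :=
    ft_inner_int hf (contDiff_clmW (contDiff_MA S φ D β) hg.1).continuous
  simp only [e1, e2]
  rw [integral_add (integrable_finsetSum _ fun i _ => integrable_finsetSum _ fun B _ => i1 i B) i3,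
    integral_add (integrable_finsetSum _ fun i _ => integrable_finsetSum _ fun B _ => i2 i B) i3]
  congr 1
  rw [integral_finsetSum _ fun i _ => integrable_finsetSum _ fun B _ => i1 i B,
    integral_finsetSum _ fun i _ => integrable_finsetSum _ fun B _ => i2 i B]
  refine Finset.sum_congr rfl fun i _ => ?_
  rw [integral_finsetSum _ fun B _ => i1 i B, integral_finsetSum _ fun B _ => i2 i B]
  exact Finset.sum_congr rfl fun B _ => symm_term (hv i B) _ hf hg

lemma Nc_trace (S : Setup d F) (D : Fin 9 → Matrix (Fin dm) (Fin dm) ℝ) (j k : Fin 9) (C B : Fin dm) :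
    (S.g j * (Nc S D k C B)ᵀ).trace = 0 := by
  rw [Nc, Matrix.transpose_sum, Finset.mul_sum, Matrix.trace_sum]
  refine Finset.sum_eq_zero fun i _ => ?_
  rw [Matrix.transpose_smul, Matrix.mul_smul, Matrix.trace_smul, U.En.trace_g_g2T, smul_zero]

/-- the square of the supercharges -/
lemma sum_qq (S : Setup d F) (φ : Spl dh dm d) {D : Fin 9 → Matrix (Fin dm) (Fin dm) ℝ}
    {Om : Matrix (Fin dm) (Fin dm) ℝ} (hA : AlgStmt) (hF : Frz D) (hO : IsOm S.κ D Om)
    {f : Wsp dm → F} (hf : FT f) (w : Wsp dm) :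
    ∑ β, S.q1 φ D β (S.q1 φ D β f) w = -((8 : ℂ) • ∑ i, ∑ A, dd D i A (dd D i A f) w) +
      (((8 * ∑ i, ∑ B, ((Om *ᵥ VV D w i) B) ^ 2 : ℝ) : ℂ)) • f w + U.En.KT (sm S φ) (Nc S D) (f w) := by
  have hA' := hA dm S.κ D Om S.κ_pos hF hO
  obtain ⟨a1, a2, a3, -, -, -, -, -, a9, a10, -⟩ := hA'
  have hu : ContDiff ℝ ∞ (fun x : Cfg dm => f (wl D x)) := hf.1.comp (wl D).contDiff
  have h := U.En.sum_QTQT (sm S φ) (Nc S D) (fun j k C B => Nc_trace S D j k C B) hu (ex w)
  have h1 : ∀ b, U.En.QT (sm S φ) (Nc S D) b (U.En.QT (sm S φ) (Nc S D) b fun x => f (wl D x)) (ex w) =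
      S.q1 φ D b (S.q1 φ D b f) w := by
    intro b
    rw [QT_eq S φ hA hF hO b hf, QT_eq S φ hA hF hO b (FT.q1 hf S φ D b)]
    beta_reduce
    rw [wl_ex]
  have h2 : ∀ i A, pd i A (pd i A fun x => f (wl D x)) (ex w) = dd D i A (dd D i A f) w := by
    intro i A
    rw [pd_comp a1 hf, pd_comp a1 (FT.dd hf D i A)]
    beta_reduce
    rw [wl_ex]
  simp only [h1, h2, wl_ex] at h
  rw [h]
  congr 2
  have h3 : ∀ A, (U.En.NX (Nc S D) (ex w) A * (U.En.NX (Nc S D) (ex w) A)ᵀ).trace =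
      ((8 * ∑ i, ∑ j, LL S.κ D (wt w) A i j ^ 2 : ℝ) : ℂ) := by
    intro A
    rw [NX_eq, xv_ex, MA]
    exact U.En.trace_R S (LL S.κ D (wt w) A) (LL_swap S.κ D (wt w) A)
  simp only [h3]
  rw [← Complex.ofReal_sum, show (1 / 2 : ℂ) = ((1 / 2 : ℝ) : ℂ) by norm_num, ← Complex.ofReal_mul]
  congr 2
  rw [← Finset.mul_sum]
  have h4 : ∑ A, ∑ i, ∑ j, LL S.κ D (wt w) A i j ^ 2 =
      ∑ A, ∑ i, ∑ j, (S.κ * ((D i *ᵥ VV D w j) A - (D j *ᵥ VV D w i) A)) ^ 2 := by
    refine Finset.sum_congr rfl fun A _ => Finset.sum_congr rfl fun i _ => Finset.sum_congr rfl fun j _ => ?_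
    have h5 := congrFun (a10 w i j) A
    rw [Pi.sub_apply, Pi.sub_apply] at h5
    rw [LL, h5]
  rw [h4, pot hF hO _ (a9 w)]
  ring

/-- `NF` and the constant term of the square -/
lemma KT_eq (S : Setup d F) (φ : Spl dh dm d) {D : Fin 9 → Matrix (Fin dm) (Fin dm) ℝ}
    {Om : Matrix (Fin dm) (Fin dm) ℝ} (hF : Frz D) (hO : Omᵀ = Om) :
    U.En.KT (sm S φ) (Nc S D) = (16 : ℂ) • S.NF φ D Om - ((64 * Om.trace : ℝ) : ℂ) • (1 : F →L[ℂ] F) := by
  -- the constant term
  have k1 : U.En.KT (sm S φ) (Nc S D) = (-8 * Complex.I) • ∑ A, ∑ B, ∑ i,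
      ((S.κ * D i A B : ℝ) : ℂ) • (sm S φ).bil (S.g i) A B := by
    have h1 : ∀ C A, ∑ j, (sm S φ).bil (S.g j * Nc S D j C A) C A =
        (8 : ℂ) • ∑ i, ((S.κ * D i C A : ℝ) : ℂ) • (sm S φ).bil (S.g i) C A := by
      intro C A
      rw [← (sm S φ).bil_sum]
      have h2 : ∑ j, S.g j * Nc S D j C A = ∑ i, ((S.κ * D i A C : ℝ) : ℂ) • (-((8 : ℂ) • S.g i)) := by
        simp only [Nc, Finset.mul_sum, Matrix.mul_smul]
        rw [Finset.sum_comm]
        refine Finset.sum_congr rfl fun i _ => ?_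
        rw [← Finset.smul_sum, U.En.sum_g_g2']
      rw [h2, (sm S φ).bil_sum, Finset.smul_sum]
      refine Finset.sum_congr rfl fun i _ => ?_
      have h3 : D i A C = -D i C A := by
        have := congrFun (congrFun (hF.anti i) C) A
        rwa [Matrix.transpose_apply, Matrix.neg_apply] at this
      rw [h3, (sm S φ).bil_smul, (sm S φ).bil_neg, (sm S φ).bil_smul, smul_neg, mul_neg, Complex.ofReal_neg,
        neg_smul, neg_neg, smul_comm]
    unfold U.En.KT
    have h4 : ∑ j, ∑ C, ∑ A, (sm S φ).bil ((sm S φ).g j * Nc S D j C A) C A =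
        ∑ C, ∑ A, (8 : ℂ) • ∑ i, ((S.κ * D i C A : ℝ) : ℂ) • (sm S φ).bil (S.g i) C A := by
      rw [Finset.sum_comm]
      refine Finset.sum_congr rfl fun C _ => ?_
      rw [Finset.sum_comm]
      exact Finset.sum_congr rfl fun A _ => h1 C A
    rw [h4]
    simp only [← Finset.smul_sum]
    rw [smul_smul]
    congr 1
    ring
  -- the fermionic energy
  have k2 : S.NF φ D Om = (1 / 2 : ℂ) • (∑ A, ∑ B, ((Om A B : ℝ) : ℂ) • (sm S φ).bil 1 A B) -
      (Complex.I / 2) • ∑ A, ∑ B, ∑ i, ((S.κ * D i A B : ℝ) : ℂ) • (sm S φ).bil (S.g i) A B := by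
    have h1 : ∀ (N : Matrix (Fin 16) (Fin 16) ℂ) (A B : Fin dm), (sm S φ).bil N A B =
        ∑ α, ∑ β, N α β • (S.th α (φ (Sum.inr A)) * S.th β (φ (Sum.inr B))) := by
      intro N A B
      simp only [CS.bil, CS.vec, Finset.mul_sum, mul_smul_comm]
      rfl
    have h2 : S.NF φ D Om = ∑ α, ∑ A, ∑ β, ∑ B, S.Lam D Om (α, A) (β, B) •
        (S.th α (φ (Sum.inr A)) * S.th β (φ (Sum.inr B))) := by
      simp only [Setup.NF, Setup.Lth, Finset.mul_sum, mul_smul_comm, Fintype.sum_prod_type]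
    have h3 : S.NF φ D Om = ∑ A, ∑ B, ∑ α, ∑ β, S.Lam D Om (α, A) (β, B) •
        (S.th α (φ (Sum.inr A)) * S.th β (φ (Sum.inr B))) := by
      rw [h2, Finset.sum_comm]
      refine Finset.sum_congr rfl fun A _ => ?_
      calc ∑ α, ∑ β, ∑ B, S.Lam D Om (α, A) (β, B) • (S.th α (φ (Sum.inr A)) * S.th β (φ (Sum.inr B)))
          = ∑ α, ∑ B, ∑ β, S.Lam D Om (α, A) (β, B) • (S.th α (φ (Sum.inr A)) * S.th β (φ (Sum.inr B))) :=
            Finset.sum_congr rfl fun α _ => Finset.sum_comm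
        _ = _ := Finset.sum_comm
    rw [h3]
    simp only [Finset.smul_sum, ← Finset.sum_sub_distrib]
    refine Finset.sum_congr rfl fun A _ => Finset.sum_congr rfl fun B _ => ?_
    rw [h1 1, Finset.smul_sum, Finset.smul_sum]
    simp only [h1, Finset.smul_sum]
    rw [Finset.sum_comm (s := Finset.univ) (t := Finset.univ) (γ := Fin 9), ← Finset.sum_sub_distrib]
    refine Finset.sum_congr rfl fun α _ => ?_
    rw [Finset.sum_comm (s := Finset.univ) (t := Finset.univ) (γ := Fin 9), ← Finset.sum_sub_distrib]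
    refine Finset.sum_congr rfl fun β _ => ?_
    simp only [smul_smul]
    rw [← Finset.sum_smul, ← sub_smul]
    congr 1
    simp only [Setup.Lam, Matrix.of_apply, Setup.PP, Matrix.one_apply]
    rw [mul_sub, Finset.mul_sum, Finset.mul_sum, Finset.mul_sum]
    congr 1
    · split_ifs <;> simp
    · refine Finset.sum_congr rfl fun i _ => ?_
      push_cast
      ring
  have k3 : ∑ A, ∑ B, ((Om A B : ℝ) : ℂ) • (sm S φ).bil 1 A B = ((8 * Om.trace : ℝ) : ℂ) • (1 : F →L[ℂ] F) := by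
    have h1 : ∑ A, ∑ B, ((Om A B : ℝ) : ℂ) • (sm S φ).bil 1 A B =
        (∑ A, ((Om A A : ℝ) : ℂ) • (16 : ℂ) • (1 : F →L[ℂ] F)) -
          ∑ A, ∑ B, ((Om A B : ℝ) : ℂ) • (sm S φ).bil 1 A B := by
      have h2 : ∀ A B, (sm S φ).bil 1 A B = (if A = B then (16 : ℂ) • (1 : F →L[ℂ] F) else 0) -
          (sm S φ).bil 1 B A := by
        intro A B
        have := (sm S φ).bil_swap 1 A B
        rwa [Matrix.transpose_one, CS.trace_one16] at this
      conv_lhs => rw [Finset.sum_congr rfl fun A _ => Finset.sum_congr rfl fun B _ => by rw [h2 A B]]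
      simp only [smul_sub, Finset.sum_sub_distrib, smul_ite, smul_zero, Finset.sum_ite_eq, Finset.mem_univ, if_true]
      congr 1
      rw [Finset.sum_comm]
      refine Finset.sum_congr rfl fun A _ => Finset.sum_congr rfl fun B _ => ?_
      have := congrFun (congrFun hO A) B
      rw [Matrix.transpose_apply] at this
      rw [this]
    have h2 : (2 : ℂ) • ∑ A, ∑ B, ((Om A B : ℝ) : ℂ) • (sm S φ).bil 1 A B =
        ∑ A, ((Om A A : ℝ) : ℂ) • (16 : ℂ) • (1 : F →L[ℂ] F) := by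
      rw [two_smul]
      nth_rewrite 1 [h1]
      abel
    have h3 : ∑ A, ∑ B, ((Om A B : ℝ) : ℂ) • (sm S φ).bil 1 A B =
        (1 / 2 : ℂ) • ∑ A, ((Om A A : ℝ) : ℂ) • (16 : ℂ) • (1 : F →L[ℂ] F) := by
      rw [← h2, smul_smul]
      norm_num
    rw [h3, ← Finset.sum_smul, smul_smul, smul_smul]
    congr 1
    rw [Matrix.trace]
    push_cast
    simp only [Matrix.diag]
    ring
  rw [k1, k2, k3]
  push_cast
  module

/-- **B-En** -/
theorem enF (S : Setup d F) (φ : Spl dh dm d) (hA : AlgStmt) : EnFStmt S φ := by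
  intro D Om hF hO f hf
  have hA' := hA dm S.κ D Om S.κ_pos hF hO
  -- the functions `(Ω V_i)_B`
  have hw : ∀ i C, ContDiff ℝ ∞ (fun w : Wsp dm => wt w i C) := by
    intro i C
    refine Fin.lastCases ?_ (fun j => ?_) i
    · simp only [wt_last]
      exact contDiff_const
    · simp only [wt_castSucc]
      exact (EuclideanSpace.proj (𝕜 := ℝ) (j, C) : Wsp dm →L[ℝ] ℝ).contDiff
  have hwl : ∀ i, ∀ (a b : Wsp dm), wt (a + b) i = wt a i + wt b i := by
    intro i a b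
    refine Fin.lastCases ?_ (fun j => ?_) i
    · rw [wt_last, wt_last, wt_last, add_zero]
    · funext B
      rw [Pi.add_apply, wt_castSucc, wt_castSucc, wt_castSucc]
      rfl
  have hwc : ∀ i, ∀ (c : ℝ) (a : Wsp dm), wt (c • a) i = c • wt a i := by
    intro i c a
    refine Fin.lastCases ?_ (fun j => ?_) i
    · rw [wt_last, wt_last, smul_zero]
    · funext B
      rw [Pi.smul_apply, wt_castSucc, wt_castSucc]
      rfl
  have hVl : ∀ i (a b : Wsp dm), VV D (a + b) i = VV D a i + VV D b i := by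
    intro i a b
    rw [VV, VV, VV, sV, sV, sV]
    simp only [hwl, Matrix.mulVec_add, Finset.sum_add_distrib]
    abel
  have hVc : ∀ i (c : ℝ) (a : Wsp dm), VV D (c • a) i = c • VV D a i := by
    intro i c a
    rw [VV, VV, sV, sV]
    simp only [hwc, Matrix.mulVec_smul, ← Finset.smul_sum, smul_sub]
  set Lm : Fin 9 → Fin dm → (Wsp dm →ₗ[ℝ] ℝ) := fun i B =>
    { toFun := fun w => (Om *ᵥ VV D w i) B
      map_add' := by
        intro a b
        rw [hVl, Matrix.mulVec_add, Pi.add_apply]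
      map_smul' := by
        intro c a
        rw [hVc, Matrix.mulVec_smul, Pi.smul_apply]
        rfl } with hLm
  have hLa : ∀ i B w, LinearMap.toContinuousLinearMap (Lm i B) w = (Om *ᵥ VV D w i) B := fun i B w => rfl
  have hLs : ∀ i B, ContDiff ℝ ∞ (fun w : Wsp dm => (Om *ᵥ VV D w i) B) := by
    intro i B
    exact (LinearMap.toContinuousLinearMap (Lm i B)).contDiff
  have hLd : ∀ i B w, fderiv ℝ (fun w : Wsp dm => (Om *ᵥ VV D w i) B) w (dv D i B) =
      (Om *ᵥ VV D (dv D i B) i) B := by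
    intro i B w
    have := (LinearMap.toContinuousLinearMap (Lm i B)).hasFDerivAt (x := w)
    have h' : fderiv ℝ (fun w : Wsp dm => (Om *ᵥ VV D w i) B) w = LinearMap.toContinuousLinearMap (Lm i B) :=
      this.fderiv
    rw [h']
    rfl
  -- the completed squares
  have hsq : ∀ i B, nsf (fun w => dd D i B f w + (((Om *ᵥ VV D w i) B : ℝ) : ℂ) • f w) =
      nsf (dd D i B f) + (∫ w, (Om *ᵥ VV D w i) B ^ 2 * ‖f w‖ ^ 2) - (Om *ᵥ VV D (dv D i B) i) B * nsf f := by
    intro i B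
    have h := nsf_sq hf (hLs i B) (dv D i B) _ (hLd i B)
    have hdd : Z.dd D i B f = dr (dv D i B) f := funext fun w => dd_eq D i B f w
    rw [hdd]
    exact h
  -- the energy
  have hE : ((∑ β, nsf (S.q1 φ D β f) : ℝ) : ℂ) =
      ∫ w, inner ℂ (f w) (∑ β, S.q1 φ D β (S.q1 φ D β f) w) := by
    push_cast
    simp only [inner_sum]
    rw [integral_finsetSum]
    · refine Finset.sum_congr rfl fun β _ => ?_
      rw [nsf_ofReal, q1_symm S φ D β hf (FT.q1 hf S φ D β)]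
    · intro β _
      exact ft_inner_int hf (FT.q1 (FT.q1 hf S φ D β) S φ D β).1.continuous
  have hpt : ∀ w, inner ℂ (f w) (∑ β, S.q1 φ D β (S.q1 φ D β f) w) =
      (-8 : ℂ) * (∑ i, ∑ B, inner ℂ (f w) (dd D i B (dd D i B f) w)) +
      (8 : ℂ) * (∑ i, ∑ B, (((Om *ᵥ VV D w i) B ^ 2 * ‖f w‖ ^ 2 : ℝ) : ℂ)) +
      ((16 : ℂ) * inner ℂ (f w) (S.NF φ D Om (f w)) - ((64 * Om.trace : ℝ) : ℂ) * inner ℂ (f w) (f w)) := by
    intro w
    rw [sum_qq S φ hA hF hO hf, KT_eq S φ hF hO.symm, inner_add_right, inner_add_right, inner_neg_right,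
      inner_smul_right, inner_smul_right]
    simp only [inner_sum]
    have h1 : inner ℂ (f w) (((16 : ℂ) • S.NF φ D Om - ((64 * Om.trace : ℝ) : ℂ) • (1 : F →L[ℂ] F)) (f w)) =
        (16 : ℂ) * inner ℂ (f w) (S.NF φ D Om (f w)) - ((64 * Om.trace : ℝ) : ℂ) * inner ℂ (f w) (f w) := by
      rw [_root_.sub_apply, _root_.smul_apply, _root_.smul_apply, one_apply_eq_self, inner_sub_right,
        inner_smul_right, inner_smul_right]
    rw [h1]
    congr 1
    congr 1
    · ring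
    · rw [inner_self_eq_norm_sq_to_K]
      have h2 : ∑ i, ∑ B, (((Om *ᵥ VV D w i) B ^ 2 * ‖f w‖ ^ 2 : ℝ) : ℂ) =
          ((∑ i, ∑ B, (Om *ᵥ VV D w i) B ^ 2 : ℝ) : ℂ) * ((‖f w‖ : ℝ) : ℂ) ^ 2 := by
        push_cast
        rw [Finset.sum_mul]
        exact Finset.sum_congr rfl fun i _ => by rw [Finset.sum_mul]
      rw [h2]
      push_cast
      simp only [Complex.coe_algebraMap]
      ring
  have j1 : ∀ i B, Integrable (fun w => inner ℂ (f w) (dd D i B (dd D i B f) w)) := fun i B =>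
    ft_inner_int hf (FT.dd (FT.dd hf D i B) D i B).1.continuous
  have j1' : Integrable (fun w => (-8 : ℂ) * (∑ i, ∑ B, inner ℂ (f w) (dd D i B (dd D i B f) w))) :=
    (integrable_finsetSum _ fun i _ => integrable_finsetSum _ fun B _ => j1 i B).const_mul _
  have j2 : ∀ i B, Integrable (fun w => (Om *ᵥ VV D w i) B ^ 2 * ‖f w‖ ^ 2) := fun i B =>
    ft_mul_int ((hLs i B).continuous.pow 2) hf
  have j2' : Integrable (fun w => (8 : ℂ) * (∑ i, ∑ B, (((Om *ᵥ VV D w i) B ^ 2 * ‖f w‖ ^ 2 : ℝ) : ℂ))) :=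
    (integrable_finsetSum _ fun i _ => integrable_finsetSum _ fun B _ => (j2 i B).ofReal).const_mul _
  have j3 : Integrable (fun w => (16 : ℂ) * inner ℂ (f w) (S.NF φ D Om (f w))) :=
    (ft_inner_int hf (ft_clm _ hf).1.continuous).const_mul _
  have j4 : Integrable (fun w => ((64 * Om.trace : ℝ) : ℂ) * inner ℂ (f w) (f w)) :=
    (ft_inner_int hf hf.1.continuous).const_mul _
  have j12 : Integrable (fun w => (-8 : ℂ) * (∑ i, ∑ B, inner ℂ (f w) (dd D i B (dd D i B f) w)) +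
      (8 : ℂ) * (∑ i, ∑ B, (((Om *ᵥ VV D w i) B ^ 2 * ‖f w‖ ^ 2 : ℝ) : ℂ))) := j1'.add j2'
  have j34 : Integrable (fun w => (16 : ℂ) * inner ℂ (f w) (S.NF φ D Om (f w)) -
      ((64 * Om.trace : ℝ) : ℂ) * inner ℂ (f w) (f w)) := j3.sub j4
  have hI : ((∑ β, nsf (S.q1 φ D β f) : ℝ) : ℂ) =
      ((8 * (∑ i, ∑ B, nsf (dd D i B f)) + 8 * (∑ i, ∑ B, ∫ w, (Om *ᵥ VV D w i) B ^ 2 * ‖f w‖ ^ 2) -
        64 * Om.trace * nsf f : ℝ) : ℂ) + 16 * ∫ w, inner ℂ (f w) (S.NF φ D Om (f w)) := by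
    rw [hE]
    simp only [hpt]
    rw [integral_add j12 j34, integral_add j1' j2', integral_sub j3 j4, integral_const_mul, integral_const_mul,
      integral_const_mul, integral_const_mul, ← nsf_ofReal,
      integral_finsetSum _ fun i _ => integrable_finsetSum _ fun B _ => j1 i B,
      integral_finsetSum _ fun i _ => integrable_finsetSum _ fun B _ => (j2 i B).ofReal]
    have h1 : ∀ i, ∫ w, ∑ B, inner ℂ (f w) (dd D i B (dd D i B f) w) = -∑ B, ((nsf (dd D i B f) : ℝ) : ℂ) := by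
      intro i
      rw [integral_finsetSum _ fun B _ => j1 i B, ← Finset.sum_neg_distrib]
      refine Finset.sum_congr rfl fun B _ => ?_
      have hdd : ∀ g : Wsp dm → F, Z.dd D i B g = dr (dv D i B) g := fun g => funext fun w => dd_eq D i B g w
      have h2 := ibp hf ((FT.dd hf D i B).1.of_le (by simp)) (dv D i B)
      rw [← hdd, ← hdd] at h2
      rw [nsf_ofReal, h2, neg_neg]
    have h2 : ∀ i, ∫ w, ∑ B, (((Om *ᵥ VV D w i) B ^ 2 * ‖f w‖ ^ 2 : ℝ) : ℂ) =
        ∑ B, ((∫ w, (Om *ᵥ VV D w i) B ^ 2 * ‖f w‖ ^ 2 : ℝ) : ℂ) := by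
      intro i
      rw [integral_finsetSum _ fun B _ => (j2 i B).ofReal]
      exact Finset.sum_congr rfl fun B _ => integral_complex_ofReal
    simp only [h1, h2]
    rw [Finset.sum_neg_distrib]
    push_cast
    ring
  have hre := congrArg Complex.re hI
  rw [Complex.ofReal_re, Complex.add_re, Complex.ofReal_re, show (16 : ℂ) = ((16 : ℝ) : ℂ) by norm_num,
    Complex.re_ofReal_mul] at hre
  have h8 := tr8 hA S.κ_pos hF hO
  have hs : ∑ i, ∑ B, nsf (fun w => dd D i B f w + (((Om *ᵥ VV D w i) B : ℝ) : ℂ) • f w) =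
      (∑ i, ∑ B, nsf (dd D i B f)) + (∑ i, ∑ B, ∫ w, (Om *ᵥ VV D w i) B ^ 2 * ‖f w‖ ^ 2) -
        8 * Om.trace * nsf f := by
    simp only [hsq, Finset.sum_add_distrib, Finset.sum_sub_distrib]
    simp only [← Finset.sum_mul]
    rw [h8]
  rw [hs, Setup.e1, hre]
  ring

end Vale.Agent.P353.Z.EnFib

namespace Vale.Agent.P353.Z

/-- **B-En** -/
theorem enF {d dh dm : ℕ} {F : Type*} [NormedAddCommGroup F] [InnerProductSpace ℂ F] (S : Setup d F)
    (φ : Spl dh dm d) (hA : AlgStmt) : EnFStmt S φ := EnFib.enF S φ hA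

end Vale.Agent.P353.Z
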