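import Vale.Agent.P353.AN.B.Stmt

/-! # P353, all `N`, block B: task F0 -/

namespace Vale.Agent.P353.Z

variable {d dh dm : ℕ} {F : Type*} [NormedAddCommGroup F] [InnerProductSpace ℂ F]

private lemma fzero_Lam_smul (S : Setup d F) (D : Fin 9 → Matrix (Fin dm) (Fin dm) ℝ)
    (Om : Matrix (Fin dm) (Fin dm) ℝ) (R : ℝ) (p q : Fin 16 × Fin dm) :
    S.Lam (fun i => R • D i) (R • Om) p q = (R : ℂ) * S.Lam D Om p q := by
  simp only [Setup.Lam, Setup.PP, Matrix.of_apply, Matrix.smul_apply, smul_eq_mul,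
    Complex.ofReal_mul]
  have h1 : ∑ i, S.g i p.1 q.1 * ((R : ℂ) * ((D i p.2 q.2 : ℝ) : ℂ)) =
      (R : ℂ) * ∑ i, S.g i p.1 q.1 * ((D i p.2 q.2 : ℝ) : ℂ) := by
    rw [Finset.mul_sum]
    exact Finset.sum_congr rfl fun i _ => by ring
  rw [h1]
  split_ifs <;> ring

private lemma fzero_Lth_smul (S : Setup d F) (φ : Spl dh dm d)
    (D : Fin 9 → Matrix (Fin dm) (Fin dm) ℝ)
    (Om : Matrix (Fin dm) (Fin dm) ℝ) (R : ℝ) (p : Fin 16 × Fin dm) :
    S.Lth φ (fun i => R • D i) (R • Om) p = (R : ℂ) • S.Lth φ D Om p := by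
  simp only [Setup.Lth, fzero_Lam_smul, Finset.smul_sum, smul_smul]

private lemma fzero_Lth_th (S : Setup d F) (φ : Spl dh dm d)
    (D : Fin 9 → Matrix (Fin dm) (Fin dm) ℝ)
    (Om : Matrix (Fin dm) (Fin dm) ℝ) (p : Fin 16 × Fin dm) (α : Fin 16) (A : Fin dh) (v : F) :
    S.Lth φ D Om p (S.th α (φ (Sum.inl A)) v) = -S.th α (φ (Sum.inl A)) (S.Lth φ D Om p v) := by
  have h0 : ∀ q : Fin 16 × Fin dm, S.th q.1 (φ (Sum.inr q.2)) (S.th α (φ (Sum.inl A)) v) =
      -S.th α (φ (Sum.inl A)) (S.th q.1 (φ (Sum.inr q.2)) v) := by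
    intro q
    have h := S.th_anti q.1 (φ (Sum.inr q.2)) α (φ (Sum.inl A))
    rw [if_neg (by simp)] at h
    have h2 := congrArg (fun T : F →L[ℂ] F => T v) h
    exact eq_neg_of_add_eq_zero_left h2
  have h1 : ∀ u : F, S.Lth φ D Om p u =
      ∑ q : Fin 16 × Fin dm, S.Lam D Om p q • S.th q.1 (φ (Sum.inr q.2)) u := by
    intro u
    simp only [Setup.Lth, _root_.sum_apply, _root_.smul_apply]
  rw [h1, h1, map_sum, ← Finset.sum_neg_distrib]
  exact Finset.sum_congr rfl fun q _ => by rw [h0, map_smul, smul_neg]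

theorem f0S (S : Setup d F) (φ : Spl dh dm d) : F0Stmt S φ := by
  intro D Om
  refine ⟨fun α A v hv p => ?_, fun R hR => ?_⟩
  · rw [fzero_Lth_th, hv p, map_zero, neg_zero]
  · ext v
    have hR' : (R : ℂ) ≠ 0 := by exact_mod_cast hR.ne'
    constructor
    · intro h p
      have h2 : S.Lth φ (fun i => R • D i) (R • Om) p v = 0 := h p
      rw [fzero_Lth_smul] at h2
      exact (smul_eq_zero.1 h2).resolve_left hR'
    · intro h p
      change S.Lth φ (fun i => R • D i) (R • Om) p v = 0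
      rw [fzero_Lth_smul]
      change (R : ℂ) • S.Lth φ D Om p v = 0
      rw [h p, smul_zero]

end Vale.Agent.P353.Z
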