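import Vale.Agent.P353.AN.B.Stmt

/-! # P353, all `N`, block B: `FibStmt` from `GapFStmt`, `CoerFStmt`, `PertFStmt`, `ScaleFStmt` -/

open MeasureTheory Filter Topology Matrix
open scoped ContDiff

namespace Vale.Agent.P353.Z

variable {d dh dm : ℕ} {F : Type*} [NormedAddCommGroup F] [InnerProductSpace ℂ F]

lemma fib_nsf_comp {E : Type*} [NormedAddCommGroup E] (g : Wsp dm → E) {r : ℝ} (hr : 0 < r) :
    nsf (fun w => g (r • w)) = (r ^ (8 * dm))⁻¹ * nsf g := by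
  unfold nsf
  have h := Measure.integral_comp_smul (volume : Measure (Wsp dm)) (fun w => ‖g w‖ ^ 2) r
  have hf : Module.finrank ℝ (Wsp dm) = 8 * dm := by
    rw [finrank_euclideanSpace, Fintype.card_prod, Fintype.card_fin, Fintype.card_fin]
  rw [hf] at h
  rw [h, smul_eq_mul, abs_of_nonneg (by positivity)]

lemma fib_nsf_smul (g : Wsp dm → F) (c : ℂ) :
    nsf (fun w => c • g w) = ‖c‖ ^ 2 * nsf g := by
  unfold nsf
  simp only [norm_smul, mul_pow]
  exact integral_const_mul _ _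

lemma fib_nsf_nonneg {E : Type*} [NormedAddCommGroup E] (g : Wsp dm → E) : 0 ≤ nsf g :=
  integral_nonneg fun w => by positivity

lemma fib_nsf_two {g h : Wsp dm → F} (hg : Continuous g) (hgs : HasCompactSupport g)
    (hh : Continuous h) (hhs : HasCompactSupport h) :
    nsf g ≤ 2 * nsf h + 2 * nsf (fun w => h w - g w) := by
  have key : ∀ k : Wsp dm → F, Continuous k → HasCompactSupport k →
      Integrable (fun w => ‖k w‖ ^ 2) := by
    intro k hk hks
    have c1 : Continuous fun w => ‖k w‖ ^ 2 := hk.norm.pow 2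
    have c2 : HasCompactSupport fun w => ‖k w‖ ^ 2 := by
      refine HasCompactSupport.intro hks fun w hw => ?_
      rw [image_eq_zero_of_notMem_tsupport hw, norm_zero]
      norm_num
    exact c1.integrable_of_hasCompactSupport c2
  have i1 := key h hh hhs
  have i2 := key (fun w => h w - g w) (hh.sub hg) (hhs.sub hgs)
  have i3 := key g hg hgs
  unfold nsf
  rw [← integral_const_mul, ← integral_const_mul, ← integral_add (i1.const_mul 2) (i2.const_mul 2)]
  refine integral_mono i3 ((i1.const_mul 2).add (i2.const_mul 2)) fun w => ?_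
  have h1 : ‖g w‖ ≤ ‖h w‖ + ‖h w - g w‖ := by
    have : g w = h w - (h w - g w) := by abel
    calc ‖g w‖ = ‖h w - (h w - g w)‖ := by rw [← this]
      _ ≤ _ := norm_sub_le _ _
  have h2 : ‖g w‖ ^ 2 ≤ (‖h w‖ + ‖h w - g w‖) ^ 2 := by gcongr
  show ‖g w‖ ^ 2 ≤ 2 * ‖h w‖ ^ 2 + 2 * ‖h w - g w‖ ^ 2
  nlinarith [sq_nonneg (‖h w‖ - ‖h w - g w‖)]

lemma fib_pf_zero {f : Wsp dm → F} {w : Wsp dm} (hw : w ∉ tsupport f) (j B) : pf j B f w = 0 := by
  unfold pf
  rw [fderiv_of_notMem_tsupport ℝ hw]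
  rfl

lemma fib_pf_cont {f : Wsp dm → F} (hf : FT f) (j B) : Continuous (pf j B f) := by
  unfold pf
  exact (hf.1.continuous_fderiv (by simp)).clm_apply continuous_const

lemma fib_wt_cont (i : Fin 9) (B : Fin dm) : Continuous fun w : Wsp dm => wt w i B := by
  unfold wt
  refine Fin.lastCases ?_ (fun j => ?_) i
  · simp only [Fin.lastCases_last]
    exact continuous_const
  · simp only [Fin.lastCases_castSucc]
    fun_prop

lemma fib_q1_cont (S : Setup d F) (φ : Spl dh dm d) (D : Fin 9 → Matrix (Fin dm) (Fin dm) ℝ)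
    (β : Fin 16) {f : Wsp dm → F} (hf : FT f) : Continuous (S.q1 φ D β f) := by
  have h1 := fun j B => fib_pf_cont hf j B
  have h2 : Continuous f := hf.1.continuous
  have h3 := fun i B => fib_wt_cont (dm := dm) i B
  unfold Setup.q1
  refine ((continuous_const.smul ?_).add (continuous_const.smul ?_)).add (continuous_const.smul ?_)
  · exact continuous_finsetSum _ fun j _ => continuous_finsetSum _ fun B _ =>
      (S.vec (S.g j.castSucc) (φ (Sum.inr B)) β).continuous.comp (h1 j B)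
  · refine continuous_finsetSum _ fun B _ => (S.vec (S.g 8) (φ (Sum.inr B)) β).continuous.comp ?_
    refine continuous_finsetSum _ fun C _ => continuous_const.smul ?_
    exact continuous_finsetSum _ fun j _ => continuous_finsetSum _ fun E _ =>
      continuous_const.smul (h1 j E)
  · refine continuous_finsetSum _ fun B _ => continuous_finsetSum _ fun i _ =>
      continuous_finsetSum _ fun j _ => Continuous.smul ?_
        ((S.vec (S.g2 i j) (φ (Sum.inr B)) β).continuous.comp h2)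
    refine Complex.continuous_ofReal.comp (continuous_const.mul (Continuous.sub ?_ ?_))
    · exact continuous_finsetSum _ fun C _ => continuous_const.mul (h3 j C)
    · exact continuous_finsetSum _ fun C _ => continuous_const.mul (h3 i C)

lemma fib_q1_supp (S : Setup d F) (φ : Spl dh dm d) (D : Fin 9 → Matrix (Fin dm) (Fin dm) ℝ)
    (β : Fin 16) {f : Wsp dm → F} (hf : FT f) : HasCompactSupport (S.q1 φ D β f) := by
  refine HasCompactSupport.intro hf.2 fun w hw => ?_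
  have h1 := fun j B => fib_pf_zero hw j B
  have h2 : f w = 0 := image_eq_zero_of_notMem_tsupport hw
  unfold Setup.q1
  simp [h1, h2]

/-- the statement at scale `1` -/
lemma fib_one (S : Setup d F) (φ : Spl dh dm d) (hG : GapFStmt S φ) (hC : CoerFStmt S φ)
    (hP : PertFStmt S φ) (hF : FiniteDimensional ℂ F)
    (D0 : Fin 9 → Matrix (Fin dm) (Fin dm) ℝ) (Om : Matrix (Fin dm) (Fin dm) ℝ) (hD : Frz D0)
    (hO : IsOm S.κ D0 Om) :
    ∃ c0 C ε0 : ℝ, 0 < c0 ∧ 0 < C ∧ 0 < ε0 ∧ C * ε0 ^ 2 ≤ c0 ∧ ∀ ε : ℝ, 0 ≤ ε → ε ≤ ε0 →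
    ∀ D : Fin 9 → Matrix (Fin dm) (Fin dm) ℝ, (∀ i A B, |D i A B - D0 i A B| ≤ ε) →
      (D 8).det ≠ 0 ∧ ∀ h : Wsp dm → F, FT h →
      ((∑ j, ∑ B, nsf (pf j B h)) + nsf (fun w => ((‖w‖ : ℝ) : ℂ) • h w) ≤
        C * (S.e1 φ D h + nsf h)) ∧
      (2 * c0 * nsf (fun w => h w - S.PR φ D0 Om 1 h w) ≤ S.e1 φ D h + C * ε ^ 2 * nsf h) ∧
      (∀ β, nsf (fun w => S.q1 φ D β h w - S.q1 φ D0 β h w) ≤ C * ε ^ 2 * (S.e1 φ D h + nsf h)) := by
  obtain ⟨cG, hcG, hG'⟩ := hG hF D0 Om hD hO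
  obtain ⟨cC, hcC, hC'⟩ := hC hF D0 Om hD hO
  obtain ⟨cP, εP, hcP, hεP, hP'⟩ := hP D0 hD.inv
  -- constants
  set c0 : ℝ := cG / 8 with hc0
  set C : ℝ := 4 * cC + 4 * cP * cC with hCdef
  have hc0' : 0 < c0 := by positivity
  have hC0 : 0 < C := by positivity
  obtain ⟨ε0, hε0, h1, h2, h3⟩ : ∃ ε0 : ℝ, 0 < ε0 ∧ ε0 ≤ εP ∧ 8 * cP * cC * ε0 ^ 2 ≤ 1 ∧
      C * ε0 ^ 2 ≤ c0 := by
    have hev : ∀ a b : ℝ, 0 < b → ∀ᶠ ε in 𝓝[>] (0 : ℝ), a * ε ^ 2 ≤ b := by
      intro a b hb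
      have ht : Tendsto (fun ε : ℝ => a * ε ^ 2) (𝓝 0) (𝓝 0) := by
        have : Continuous fun ε : ℝ => a * ε ^ 2 := by fun_prop
        simpa using this.tendsto 0
      exact (ht.eventually_le_const hb).filter_mono nhdsWithin_le_nhds
    have e1 := hev (8 * cP * cC) 1 one_pos
    have e2 := hev C c0 hc0'
    have e3 : ∀ᶠ ε in 𝓝[>] (0 : ℝ), ε ≤ εP :=
      (tendsto_id.eventually_le_const hεP).filter_mono nhdsWithin_le_nhds
    have e4 : ∀ᶠ ε in 𝓝[>] (0 : ℝ), 0 < ε := self_mem_nhdsWithin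
    obtain ⟨ε, a1, a2, a3, a4⟩ := (e1.and (e2.and (e3.and e4))).exists
    exact ⟨ε, a4, a3, a1, a2⟩
  refine ⟨c0, C, ε0, hc0', hC0, hε0, h3, ?_⟩
  intro ε hε hεε D hDD
  obtain ⟨hdet, hpert⟩ := hP' ε hε (hεε.trans h1) D hDD
  refine ⟨hdet, fun h hh => ?_⟩
  have hp := hpert h hh
  set X : ℝ := (∑ j, ∑ B, nsf (pf j B h)) + nsf (fun w => ((‖w‖ : ℝ) : ℂ) • h w) with hX
  have hX0 : 0 ≤ X := by
    refine add_nonneg (Finset.sum_nonneg fun j _ => Finset.sum_nonneg fun B _ => ?_) ?_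
    · exact fib_nsf_nonneg _
    · exact fib_nsf_nonneg _
  have hN0 : 0 ≤ nsf h := fib_nsf_nonneg h
  have hE0 : 0 ≤ S.e1 φ D h := by
    unfold Setup.e1
    exact mul_nonneg (by norm_num) (Finset.sum_nonneg fun β _ => fib_nsf_nonneg _)
  -- e1 D0 ≤ 2 e1 D + 2 cP ε² X
  have hcomp : S.e1 φ D0 h ≤ 2 * S.e1 φ D h + 2 * (cP * ε ^ 2 * X) := by
    have hβ : ∀ β : Fin 16, nsf (S.q1 φ D0 β h) ≤ 2 * nsf (S.q1 φ D β h) + 2 * (cP * ε ^ 2 * X) := by
      intro β
      refine (fib_nsf_two (fib_q1_cont S φ D0 β hh) (fib_q1_supp S φ D0 β hh)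
        (fib_q1_cont S φ D β hh) (fib_q1_supp S φ D β hh)).trans ?_
      have := hp β
      linarith
    unfold Setup.e1
    have hs : ∑ β, nsf (S.q1 φ D0 β h) ≤ ∑ β : Fin 16, (2 * nsf (S.q1 φ D β h) + 2 * (cP * ε ^ 2 * X)) :=
      Finset.sum_le_sum fun β _ => hβ β
    rw [Finset.sum_add_distrib, ← Finset.mul_sum, Finset.sum_const, Finset.card_univ,
      Fintype.card_fin, nsmul_eq_mul] at hs
    push_cast at hs
    linarith
  have hco := hC' h hh
  have hε2 : 0 ≤ ε ^ 2 := by positivity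
  have hεsq : ε ^ 2 ≤ ε0 ^ 2 := by gcongr
  have hs1 : 8 * cP * cC * ε ^ 2 ≤ 1 := by
    have : 8 * cP * cC * ε ^ 2 ≤ 8 * cP * cC * ε0 ^ 2 := by gcongr
    linarith
  have hX1 : X ≤ 4 * cC * (S.e1 φ D h + nsf h) := by
    have a1 : X ≤ cC * (S.e1 φ D0 h + nsf h) := hco
    have a2 : cC * (S.e1 φ D0 h + nsf h) ≤ cC * (2 * S.e1 φ D h + 2 * (cP * ε ^ 2 * X) + nsf h) := by
      gcongr
    have a3 : cC * (2 * (cP * ε ^ 2 * X)) ≤ X / 4 := by
      have : 8 * cP * cC * ε ^ 2 * X ≤ 1 * X := by gcongr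
      nlinarith
    nlinarith [mul_nonneg hcC.le hN0, mul_nonneg hcC.le hE0]
  refine ⟨?_, ?_, ?_⟩
  · refine hX1.trans ?_
    have : 0 ≤ 4 * cP * cC * (S.e1 φ D h + nsf h) := by positivity
    rw [hCdef]
    nlinarith
  · have b1 := hG' h hh
    have b2 : 2 * (cP * ε ^ 2 * X) ≤ 2 * (cP * ε ^ 2 * (4 * cC * (S.e1 φ D h + nsf h))) := by gcongr
    have b3 : 8 * cP * cC * ε ^ 2 * S.e1 φ D h ≤ 1 * S.e1 φ D h := by gcongr
    have b4 : cG * nsf (fun w => h w - S.PR φ D0 Om 1 h w) ≤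
        4 * S.e1 φ D h + 8 * cP * cC * ε ^ 2 * nsf h := by nlinarith
    have b5 : 0 ≤ cC * ε ^ 2 * nsf h := by positivity
    have b6 : 0 ≤ cP * cC * ε ^ 2 * nsf h := by positivity
    rw [hc0, hCdef]
    nlinarith
  · intro β
    refine (hp β).trans ?_
    have b1 : cP * ε ^ 2 * X ≤ cP * ε ^ 2 * (4 * cC * (S.e1 φ D h + nsf h)) := by gcongr
    have b2 : 0 ≤ 4 * cC * ε ^ 2 * (S.e1 φ D h + nsf h) := by positivity
    refine b1.trans ?_
    rw [hCdef]
    nlinarith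

theorem fib (S : Setup d F) (φ : Spl dh dm d) (hG : GapFStmt S φ) (hC : CoerFStmt S φ)
    (hP : PertFStmt S φ) (hS : ScaleFStmt S φ) : FibStmt S φ := by
  intro hF D0 Om hD hO
  obtain ⟨c0, C, ε0, hc0, hC0, hε0, hCε, H⟩ := fib_one S φ hG hC hP hF D0 Om hD hO
  refine ⟨c0, C, ε0, hc0, hC0, hε0, ?_⟩
  intro R hR ε hε hεε D hDD
  set D' : Fin 9 → Matrix (Fin dm) (Fin dm) ℝ := fun i => R⁻¹ • D i with hD'
  have hRD : (fun i => R • D' i) = D := by
    funext i
    rw [hD']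
    simp only
    rw [smul_smul, mul_inv_cancel₀ hR.ne', one_smul]
  have hD'0 : ∀ i A B, |D' i A B - D0 i A B| ≤ ε := by
    intro i A B
    have h1 : D' i A B - D0 i A B = R⁻¹ * (D i A B - R * D0 i A B) := by
      rw [hD']
      simp only [Matrix.smul_apply, smul_eq_mul]
      field_simp
    rw [h1, abs_mul, abs_of_pos (inv_pos.2 hR)]
    calc R⁻¹ * |D i A B - R * D0 i A B| ≤ R⁻¹ * (ε * R) := by
          gcongr
          exact hDD i A B
      _ = ε := by field_simp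
  obtain ⟨hdet, H'⟩ := H ε hε hεε D' hD'0
  refine ⟨?_, ?_⟩
  · intro h0
    apply hdet
    show (R⁻¹ • D 8).det = 0
    rw [Matrix.det_smul, h0, mul_zero]
  intro f hf
  set r : ℝ := Real.sqrt R with hr
  have hr0 : 0 < r := Real.sqrt_pos.2 hR
  have hr2 : r ^ 2 = R := Real.sq_sqrt hR.le
  set h : Wsp dm → F := fun w => f (r⁻¹ • w) with hh
  have hfh : ∀ w, f w = h (r • w) := by
    intro w
    rw [hh]
    simp only
    rw [smul_smul, inv_mul_cancel₀ hr0.ne', one_smul]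
  obtain ⟨s1, s2, s3, s4, s5, s6, s7⟩ := hS hF D' D0 Om R hR f h hf hfh
  obtain ⟨t1, t2, t3⟩ := H' h s1
  rw [hRD] at s5
  set s : ℝ := (r ^ (8 * dm))⁻¹ with hs
  have hs0 : 0 < s := by positivity
  have hq : ∀ β, nsf (S.q1 φ D β f) = s * (R * nsf (S.q1 φ D' β h)) := by
    intro β
    have e1 : S.q1 φ D β f = fun w => (fun v => ((r : ℝ) : ℂ) • S.q1 φ D' β h v) (r • w) := by
      funext w
      exact s5 β w
    refine (congrArg nsf e1).trans
      ((fib_nsf_comp (fun v => ((r : ℝ) : ℂ) • S.q1 φ D' β h v) hr0).trans ?_)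
    rw [fib_nsf_smul, Complex.norm_real, Real.norm_of_nonneg hr0.le, hr2]
  have he : S.e1 φ D f = s * R * S.e1 φ D' h := by
    unfold Setup.e1
    simp only [hq, ← Finset.mul_sum]
    ring
  refine ⟨?_, ?_, ?_, ?_⟩
  · simp only [s3, s4, s2, ← Finset.mul_sum]
    rw [he]
    have k := mul_le_mul_of_nonneg_left t1 (mul_pos hs0 hR).le
    have k2 : R ^ 2 * (s * (R⁻¹ * nsf (fun w => ((‖w‖ : ℝ) : ℂ) • h w))) =
        s * R * nsf (fun w => ((‖w‖ : ℝ) : ℂ) • h w) := by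
      field_simp
    rw [k2]
    calc _ = s * R * ((∑ j, ∑ B, nsf (pf j B h)) + nsf (fun w => ((‖w‖ : ℝ) : ℂ) • h w)) := by ring
      _ ≤ _ := k
      _ = _ := by ring
  · have e1 : (fun w => f w - S.PR φ D0 Om R f w) =
        fun w => (fun v => h v - S.PR φ D0 Om 1 h v) (r • w) := by
      funext w
      simp only
      rw [s6 w, hfh w]
    have e2 := (congrArg nsf e1).trans
      (fib_nsf_comp (fun v => h v - S.PR φ D0 Om 1 h v) hr0)
    rw [e2, he, s2]
    have k := mul_le_mul_of_nonneg_left t2 (mul_pos hs0 hR).le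
    have k3 : 0 ≤ nsf (fun v => h v - S.PR φ D0 Om 1 h v) := fib_nsf_nonneg _
    have k4 : 0 ≤ s * R * (c0 * nsf (fun v => h v - S.PR φ D0 Om 1 h v)) := by positivity
    nlinarith
  · intro hodd
    have e1 : ∀ w, S.PR φ D0 Om 1 h w = 0 := by
      intro w
      have := s7 hodd (r⁻¹ • w)
      rw [s6 (r⁻¹ • w), smul_smul, mul_inv_cancel₀ hr0.ne', one_smul] at this
      exact this
    simp only [e1, sub_zero] at t2
    rw [he, s2]
    have hN0 : 0 ≤ nsf h := fib_nsf_nonneg h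
    have hεsq : C * ε ^ 2 ≤ c0 := by
      have : C * ε ^ 2 ≤ C * ε0 ^ 2 := by gcongr
      linarith
    have k1 : C * ε ^ 2 * nsf h ≤ c0 * nsf h := by gcongr
    have k2 : c0 * nsf h ≤ S.e1 φ D' h := by
      have : nsf (fun w => h w) = nsf h := rfl
      rw [this] at t2
      linarith
    have k := mul_le_mul_of_nonneg_left k2 (mul_pos hs0 hR).le
    calc c0 * R * (s * nsf h) = s * R * (c0 * nsf h) := by ring
      _ ≤ _ := k
  · intro β
    obtain ⟨u1, u2, u3, u4, u5, u6, u7⟩ := hS hF D0 D0 Om R hR f h hf hfh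
    have e1 : (fun w => S.q1 φ D β f w - S.q1 φ (fun i => R • D0 i) β f w) =
        fun w => (fun v => ((r : ℝ) : ℂ) • (S.q1 φ D' β h v - S.q1 φ D0 β h v)) (r • w) := by
      funext w
      simp only
      rw [s5 β w, u5 β w, smul_sub]
    have e2 := (congrArg nsf e1).trans
      (fib_nsf_comp (fun v => ((r : ℝ) : ℂ) • (S.q1 φ D' β h v - S.q1 φ D0 β h v)) hr0)
    rw [e2, fib_nsf_smul, Complex.norm_real, Real.norm_of_nonneg hr0.le, hr2, he, s2]
    have k := mul_le_mul_of_nonneg_left (t3 β) (mul_pos hs0 hR).le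
    calc _ = s * R * nsf (fun v => S.q1 φ D' β h v - S.q1 φ D0 β h v) := by ring
      _ ≤ _ := k
      _ = _ := by ring

end Vale.Agent.P353.Z
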