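import Vale.Agent.P353.AN.B.Stmt

/-! # P353, all `N`, block B: the gap at the frozen point (`B-Gap`) -/

open MeasureTheory Filter Topology Matrix
open scoped ContDiff

namespace Vale.Agent.P353.Z

variable {d dh dm : ℕ} {F : Type*} [NormedAddCommGroup F] [InnerProductSpace ℂ F]

theorem gapF_gauss (M : Wsp dm →L[ℝ] Wsp dm) {c : ℝ} (hc : 0 < c)
    (h : ∀ w, c * ‖w‖ ^ 2 ≤ inner ℝ w (M w)) :
    Integrable (fun w : Wsp dm => Real.exp (-(1 / 2) * inner ℝ w (M w)) ^ 2) := by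
  have h0 : 0 < ((c : ℂ)).re := by simpa using hc
  have h1 := (GaussianFourier.integrable_cexp_neg_mul_sq_norm_add (V := Wsp dm) h0 0 0).norm
  have h2 : Integrable (fun w : Wsp dm => Real.exp (-c * ‖w‖ ^ 2)) := by
    refine h1.congr (Eventually.of_forall fun w => ?_)
    simp only [Complex.norm_exp]
    congr 1
    simp only [zero_mul, add_zero]
    rw [show (-(c : ℂ) * (‖w‖ : ℂ) ^ 2) = ((-c * ‖w‖ ^ 2 : ℝ) : ℂ) by push_cast; ring,
      Complex.ofReal_re]
  refine h2.mono' ?_ (Eventually.of_forall fun w => ?_)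
  · have : Continuous (fun w : Wsp dm => Real.exp (-(1 / 2) * inner ℝ w (M w)) ^ 2) := by
      fun_prop
    exact this.aestronglyMeasurable
  · rw [Real.norm_eq_abs, abs_of_nonneg (by positivity), ← Real.exp_nat_mul]
    apply Real.exp_le_exp.2
    have := h w
    push_cast
    linarith

theorem gapF_intf {f : Wsp dm → F} (hf : FT f) {E : Type*} [NormedAddCommGroup E]
    {φ : F → E} (hφ : Continuous φ) (h0 : φ 0 = 0) :
    Integrable (fun w => φ (f w)) :=
  (hφ.comp hf.1.continuous).integrable_of_hasCompactSupport (hf.2.comp_left h0)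

theorem gapF_int2 (M : Wsp dm →L[ℝ] Wsp dm) {c : ℝ} (hc : 0 < c)
    (h : ∀ w, c * ‖w‖ ^ 2 ≤ inner ℝ w (M w)) {f : Wsp dm → F} (hf : FT f) (Z : ℝ) (v : F) :
    Integrable (fun w : Wsp dm =>
      ‖f w - ((Real.exp (-(1 / 2) * inner ℝ w (M w)) / Z : ℝ) : ℂ) • v‖ ^ 2) := by
  have h1 : Integrable (fun w => ‖f w‖ ^ 2) :=
    gapF_intf hf (φ := fun x => ‖x‖ ^ 2) (by fun_prop) (by simp)
  have h2 := (gapF_gauss M hc h).mul_const ((1 / Z) ^ 2 * ‖v‖ ^ 2)
  refine ((h1.add h2).const_mul 2).mono' ?_ (Eventually.of_forall fun w => ?_)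
  · have hcf := hf.1.continuous
    have : Continuous (fun w : Wsp dm =>
        ‖f w - ((Real.exp (-(1 / 2) * inner ℝ w (M w)) / Z : ℝ) : ℂ) • v‖ ^ 2) := by
      have h3 : Continuous (fun w : Wsp dm =>
          ((Real.exp (-(1 / 2) * inner ℝ w (M w)) / Z : ℝ) : ℂ)) := by
        fun_prop
      exact ((hcf.sub (h3.smul continuous_const)).norm).pow 2
    exact this.aestronglyMeasurable
  · rw [Real.norm_eq_abs, abs_of_nonneg (by positivity)]
    have h3 : ‖f w - ((Real.exp (-(1 / 2) * inner ℝ w (M w)) / Z : ℝ) : ℂ) • v‖ ≤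
        ‖f w‖ + ‖((Real.exp (-(1 / 2) * inner ℝ w (M w)) / Z : ℝ) : ℂ) • v‖ := norm_sub_le _ _
    have h4 : ‖((Real.exp (-(1 / 2) * inner ℝ w (M w)) / Z : ℝ) : ℂ) • v‖ ^ 2 =
        Real.exp (-(1 / 2) * inner ℝ w (M w)) ^ 2 * ((1 / Z) ^ 2 * ‖v‖ ^ 2) := by
      rw [norm_smul, Complex.norm_real, mul_pow, Real.norm_eq_abs, sq_abs]
      ring
    simp only [Pi.add_apply]
    rw [← h4]
    nlinarith [norm_nonneg (f w - ((Real.exp (-(1 / 2) * inner ℝ w (M w)) / Z : ℝ) : ℂ) • v),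
      sq_nonneg (‖f w‖ - ‖((Real.exp (-(1 / 2) * inner ℝ w (M w)) / Z : ℝ) : ℂ) • v‖),
      norm_nonneg (f w), norm_nonneg (((Real.exp (-(1 / 2) * inner ℝ w (M w)) / Z : ℝ) : ℂ) • v)]

theorem gapF_split (K : Submodule ℂ F) [K.HasOrthogonalProjection] (a b : F) :
    ‖a - K.starProjection b‖ ^ 2 ≤ ‖a - K.starProjection a‖ ^ 2 + ‖a - b‖ ^ 2 := by
  have h1 : a - K.starProjection b = (a - K.starProjection a) + K.starProjection (a - b) := by
    rw [map_sub]
    abel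
  have h2 : inner ℂ (a - K.starProjection a) (K.starProjection (a - b)) = (0 : ℂ) :=
    K.starProjection_inner_eq_zero _ _ (K.starProjection_apply_mem _)
  have h3 := norm_add_sq_eq_norm_sq_add_norm_sq_of_inner_eq_zero (𝕜 := ℂ)
    (a - K.starProjection a) (K.starProjection (a - b)) h2
  have h4 := K.norm_starProjection_apply_le (a - b)
  have h5 := norm_nonneg (K.starProjection (a - b))
  rw [h1]
  nlinarith

theorem gapF (S : Setup d F) (φ : Spl dh dm d) (hQF : QFStmt) (hEn : EnFStmt S φ)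
    (hLam : LamStmt S φ) (hPoi : PoiStmt dm F) : GapFStmt S φ := by
  intro hfd D Om hF hOm
  obtain ⟨M, hsym, hqf, hent, cM, hcM, hpos⟩ := hQF dm S.κ D Om S.κ_pos hF hOm
  obtain ⟨c1, hc1, hP⟩ := hPoi M hsym ⟨cM, hcM, hpos⟩
  obtain ⟨c2, hc2, hL⟩ := hLam hfd D Om hF hOm
  refine ⟨min (c1 / 2) c2, lt_min (by linarith) hc2, fun f hf => ?_⟩
  set K := S.F0 φ D Om with hK
  set Z : ℝ := ∫ w' : Wsp dm, Real.exp (-(1 / 2) * inner ℝ w' (M w')) ^ 2 with hZ
  set v : F := ∫ w', ((Real.exp (-(1 / 2) * inner ℝ w' (M w')) : ℝ) : ℂ) • f w' with hv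
  have hg : ∀ w : Wsp dm, gR D Om 1 w = Real.exp (-(1 / 2) * inner ℝ w (M w)) := by
    intro w
    unfold gR
    rw [hqf]
  have hPR : ∀ w, S.PR φ D Om 1 f w =
      K.starProjection (((Real.exp (-(1 / 2) * inner ℝ w (M w)) / Z : ℝ) : ℂ) • v) := by
    intro w
    unfold Setup.PR
    simp only [hg]
    rw [map_smul]
  -- the two pieces
  have hI1 : Integrable (fun w => ‖f w - K.starProjection (f w)‖ ^ 2) :=
    gapF_intf hf (φ := fun x => ‖x - K.starProjection x‖ ^ 2) (by fun_prop) (by simp)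
  have hI2 : Integrable (fun w : Wsp dm =>
      ‖f w - ((Real.exp (-(1 / 2) * inner ℝ w (M w)) / Z : ℝ) : ℂ) • v‖ ^ 2) :=
    gapF_int2 M hcM hpos hf Z v
  have hA : nsf (fun w => f w - S.PR φ D Om 1 f w) ≤
      (∫ w, ‖f w - K.starProjection (f w)‖ ^ 2) +
        ∫ w : Wsp dm, ‖f w - ((Real.exp (-(1 / 2) * inner ℝ w (M w)) / Z : ℝ) : ℂ) • v‖ ^ 2 := by
    rw [← integral_add hI1 hI2]
    unfold nsf
    refine integral_mono_of_nonneg (Eventually.of_forall fun w => by positivity) (hI1.add hI2)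
      (Eventually.of_forall fun w => ?_)
    simp only [hPR]
    exact gapF_split K _ _
  -- bosonic piece
  have hB : c1 * (∫ w : Wsp dm,
      ‖f w - ((Real.exp (-(1 / 2) * inner ℝ w (M w)) / Z : ℝ) : ℂ) • v‖ ^ 2) ≤
      ∑ i, ∑ B, nsf (fun w => dd D i B f w + (((Om *ᵥ VV D w i) B : ℝ) : ℂ) • f w) := by
    refine (hP f hf).trans ?_
    rw [Fin.sum_univ_castSucc (fun i : Fin 9 =>
      ∑ B, nsf (fun w => dd D i B f w + (((Om *ᵥ VV D w i) B : ℝ) : ℂ) • f w))]
    have h1 : ∀ j : Fin 8, ∀ B : Fin dm,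
        nsf (fun w => pf j B f w + ((M w (j, B) : ℝ) : ℂ) • f w) =
        nsf (fun w => dd D j.castSucc B f w +
          (((Om *ᵥ VV D w j.castSucc) B : ℝ) : ℂ) • f w) := by
      intro j B
      congr 1
      funext w
      rw [hent]
      unfold dd
      rw [Fin.lastCases_castSucc]
    simp only [h1]
    have h2 : 0 ≤ ∑ B, nsf (fun w => dd D (Fin.last 8) B f w +
        (((Om *ᵥ VV D w (Fin.last 8)) B : ℝ) : ℂ) • f w) :=
      Finset.sum_nonneg fun B _ => integral_nonneg fun w => by positivity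
    linarith
  -- fermionic piece
  have hC : c2 * (∫ w, ‖f w - K.starProjection (f w)‖ ^ 2) ≤
      (∫ w, inner ℂ (f w) (S.NF φ D Om (f w))).re := by
    have hI3 : Integrable (fun w => (inner ℂ (f w) (S.NF φ D Om (f w)) : ℂ)) :=
      gapF_intf hf (φ := fun x => (inner ℂ x (S.NF φ D Om x) : ℂ)) (by fun_prop) (by simp)
    have h1 : (∫ w, inner ℂ (f w) (S.NF φ D Om (f w))).re =
        ∫ w, (inner ℂ (f w) (S.NF φ D Om (f w)) : ℂ).re := by
      have := integral_re hI3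
      exact this.symm
    rw [h1, ← integral_const_mul]
    refine integral_mono (hI1.const_mul c2) hI3.re fun w => ?_
    obtain ⟨v0, hv0, horth, hle⟩ := hL (f w)
    have h2 : K.starProjection (f w) = v0 := by
      refine Submodule.eq_starProjection_of_mem_of_inner_eq_zero hv0 fun u hu => ?_
      rw [← inner_conj_symm, horth u hu, map_zero]
    show c2 * ‖f w - K.starProjection (f w)‖ ^ 2 ≤ _
    rw [h2]
    exact hle
  rw [hEn D Om hF hOm f hf]
  have hn1 : 0 ≤ ∫ w, ‖f w - K.starProjection (f w)‖ ^ 2 :=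
    integral_nonneg fun w => by positivity
  have hn2 : 0 ≤ ∫ w : Wsp dm,
      ‖f w - ((Real.exp (-(1 / 2) * inner ℝ w (M w)) / Z : ℝ) : ℂ) • v‖ ^ 2 :=
    integral_nonneg fun w => by positivity
  have hm1 := min_le_left (c1 / 2) c2
  have hm2 := min_le_right (c1 / 2) c2
  have hm0 : 0 < min (c1 / 2) c2 := lt_min (by linarith) hc2
  have h5 := mul_le_mul_of_nonneg_left hA hm0.le
  have h6 := mul_le_mul_of_nonneg_right hm1 hn2
  have h7 := mul_le_mul_of_nonneg_right hm2 hn1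
  rw [mul_add] at h5
  linarith

end Vale.Agent.P353.Z
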