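import Vale.Agent.P353.AN.B.Stmt

/-! # P353, all `N`, block B-Om: existence of `Ω` -/

open MeasureTheory Filter Topology Matrix
open scoped ContDiff

namespace Vale.Agent.P353.Z

namespace OmPf

open Unitary

variable {n : Type*} [Fintype n] [DecidableEq n]

/-- positive square root of a positive definite real matrix which commutes with the commutant -/
lemma omp_sqrt {A : Matrix n n ℝ} (hA : A.PosDef) : ∃ Om : Matrix n n ℝ, Om.PosDef ∧
    Om * Om = A ∧ ∀ M : Matrix n n ℝ, M * A = A * M → M * Om = Om * M := by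
  set U := hA.1.eigenvectorUnitary with hU
  set ev := hA.1.eigenvalues with hev
  have hpos : ∀ i, 0 < ev i := hA.eigenvalues_pos
  have hsp : A = conjStarAlgAut ℝ _ U (diagonal ev) := by
    have := hA.1.spectral_theorem
    rw [← hU, ← hev] at this
    exact this
  refine ⟨conjStarAlgAut ℝ _ U (diagonal fun i => Real.sqrt (ev i)), ?_, ?_, ?_⟩
  · simp [isUnit_coe.posDef_star_right_conjugate_iff, hpos]
  · rw [← map_mul, diagonal_mul_diagonal, hsp]
    congr 2
    funext i
    exact Real.mul_self_sqrt (hpos i).le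
  · intro M hM
    obtain ⟨M', hM'⟩ : ∃ M', conjStarAlgAut ℝ (Matrix n n ℝ) U M' = M :=
      ⟨(conjStarAlgAut ℝ (Matrix n n ℝ) U).symm M, StarAlgEquiv.apply_symm_apply _ _⟩
    subst hM'
    rw [← map_mul, ← map_mul]
    congr 1
    rw [hsp, ← map_mul, ← map_mul] at hM
    have h1 := (conjStarAlgAut ℝ (Matrix n n ℝ) U).injective hM
    ext i j
    have h2 := congrFun (congrFun h1 i) j
    rw [mul_diagonal, diagonal_mul] at h2 ⊢
    rcases eq_or_ne (M' i j) 0 with h3 | h3
    · rw [h3, zero_mul, mul_zero]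
    · have h4 : ev j = ev i := by
        have : M' i j * (ev j - ev i) = 0 := by linear_combination h2
        exact sub_eq_zero.1 ((mul_eq_zero.1 this).resolve_left h3)
      rw [h4, mul_comm]

end OmPf

/-- **B-Om** -/
theorem om : OmStmt := by
  intro dm κ D hκ hD
  have hq : ∀ (i : Fin 9) (v : Fin dm → ℝ), v ⬝ᵥ ((D i * D i) *ᵥ v) = -((D i *ᵥ v) ⬝ᵥ (D i *ᵥ v)) := by
    intro i v
    rw [← mulVec_mulVec, dotProduct_mulVec, ← mulVec_transpose, hD.anti i, neg_mulVec,
      neg_dotProduct]
  have hA : (-(κ ^ 2 • ∑ i, D i * D i)).PosDef := by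
    refine PosDef.of_dotProduct_mulVec_pos ?_ ?_
    · have h1 : ∀ i, (D i * D i)ᵀ = D i * D i := by
        intro i
        rw [transpose_mul, hD.anti i, neg_mul_neg]
      change (-(κ ^ 2 • ∑ i, D i * D i))ᴴ = _
      rw [conjTranspose_eq_transpose_of_trivial, transpose_neg, transpose_smul, transpose_sum]
      simp only [h1]
    · intro v hv
      rw [star_trivial, neg_mulVec, smul_mulVec, sum_mulVec, dotProduct_neg, dotProduct_smul,
        dotProduct_sum]
      simp only [hq]
      rw [Finset.sum_neg_distrib, smul_neg, neg_neg, smul_eq_mul]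
      refine mul_pos (by positivity) ?_
      refine Finset.sum_pos' (fun i _ => ?_) ⟨8, Finset.mem_univ _, ?_⟩
      · exact Finset.sum_nonneg fun j _ => mul_self_nonneg _
      · have h8 : D 8 *ᵥ v ≠ 0 := by
          intro h0
          apply hv
          have h1 : (D 8)⁻¹ *ᵥ (D 8 *ᵥ v) = 0 := by rw [h0, mulVec_zero]
          rwa [mulVec_mulVec, nonsing_inv_mul _ (isUnit_iff_ne_zero.2 hD.inv), one_mulVec] at h1
        have h9 := (dotProduct_self_eq_zero (v := D 8 *ᵥ v)).not.2 h8
        exact lt_of_le_of_ne (Finset.sum_nonneg fun j _ => mul_self_nonneg _) (Ne.symm h9)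
  obtain ⟨Om, h1, h2, h3⟩ := OmPf.omp_sqrt hA
  refine ⟨Om, ?_, ?_, h2, ?_⟩
  · have := h1.1
    rwa [IsHermitian, conjTranspose_eq_transpose_of_trivial] at this
  · intro v hv
    have := h1.dotProduct_mulVec_pos hv
    rwa [star_trivial] at this
  · intro M hM
    refine h3 M ?_
    rw [mul_neg, neg_mul, mul_smul_comm, smul_mul_assoc, hM]

end Vale.Agent.P353.Z
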