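import Vale.Agent.P353.AN.B.Stmt
import Vale.Agent.P353.AN.B.Om

/-! # P353, all `N`, block B-Lam: the fermionic energy and its gap -/

open MeasureTheory Filter Topology Matrix Kronecker
open scoped ContDiff

namespace Vale.Agent.P353.Z

variable {d dh dm : ℕ} {F : Type*} [NormedAddCommGroup F] [InnerProductSpace ℂ F]

namespace LamPf

/-- complexification of a real matrix -/
noncomputable def lc {n : Type*} (M : Matrix n n ℝ) : Matrix n n ℂ := M.map (fun x : ℝ => (x : ℂ))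

lemma lc_mul {n : Type*} [Fintype n] (A B : Matrix n n ℝ) : lc (A * B) = lc A * lc B := by
  ext i j
  simp [lc, Matrix.mul_apply]

lemma lc_one {n : Type*} [DecidableEq n] : lc (1 : Matrix n n ℝ) = 1 := by
  ext i j
  by_cases h : i = j <;> simp [lc, Matrix.one_apply, h]

lemma lc_ct {n : Type*} (A : Matrix n n ℝ) : (lc A)ᴴ = lc Aᵀ := by
  ext i j
  simp [lc, Matrix.conjTranspose_apply]

/-- `1 ⊗ M` -/
noncomputable def l1 (M : Matrix (Fin dm) (Fin dm) ℝ) : Matrix (Fin 16 × Fin dm) (Fin 16 × Fin dm) ℂ :=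
  (1 : Matrix (Fin 16) (Fin 16) ℂ) ⊗ₖ lc M

lemma l1_mul (A B : Matrix (Fin dm) (Fin dm) ℝ) : l1 A * l1 B = l1 (A * B) := by
  rw [l1, l1, l1, ← mul_kronecker_mul, one_mul, lc_mul]

lemma l1_one : l1 (1 : Matrix (Fin dm) (Fin dm) ℝ) = 1 := by
  rw [l1, lc_one, one_kronecker_one]

lemma l1_ct (A : Matrix (Fin dm) (Fin dm) ℝ) (hA : Aᵀ = A) : (l1 A)ᴴ = l1 A := by
  rw [l1, conjTranspose_kronecker, conjTranspose_one, lc_ct, hA]

variable (S : Setup d F) (D : Fin 9 → Matrix (Fin dm) (Fin dm) ℝ) (Om : Matrix (Fin dm) (Fin dm) ℝ)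

lemma g_ct (i : Fin 9) : (S.g i)ᴴ = S.g i := by
  ext a b
  rw [conjTranspose_apply]
  have h1 : S.g i b a = S.g i a b := congrFun (congrFun (S.g_symm i) a) b
  rw [h1]
  exact Complex.conj_eq_iff_im.2 (S.g_real i a b)

lemma PP_eq : S.PP D = (S.κ : ℂ) • ∑ i, S.g i ⊗ₖ lc (D i) := by
  ext p q
  simp [Setup.PP, Matrix.sum_apply, lc, kroneckerMap_apply]

lemma Lam_eq : S.Lam D Om = (1 / 2 : ℂ) • (l1 Om - Complex.I • S.PP D) := by
  ext p q
  simp only [Setup.Lam, l1, lc, Matrix.smul_apply, Matrix.sub_apply, kroneckerMap_apply,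
    Matrix.map_apply, Matrix.of_apply, smul_eq_mul, Matrix.one_apply]
  by_cases h : p.1 = q.1 <;> simp [h]

lemma PP_ct (hD : ∀ i, (D i)ᵀ = -D i) : (S.PP D)ᴴ = -S.PP D := by
  rw [PP_eq, conjTranspose_smul, conjTranspose_sum, ← smul_neg, ← Finset.sum_neg_distrib]
  congr 1
  · exact Complex.conj_ofReal _
  · refine Finset.sum_congr rfl fun i _ => ?_
    rw [conjTranspose_kronecker, g_ct, lc_ct, hD i]
    ext p q
    simp [lc, kroneckerMap_apply]

lemma l1_PP (M : Matrix (Fin dm) (Fin dm) ℝ) (hM : ∀ i, D i * M = M * D i) :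
    l1 M * S.PP D = S.PP D * l1 M := by
  rw [PP_eq, mul_smul_comm, smul_mul_assoc, Finset.mul_sum, Finset.sum_mul]
  congr 1
  refine Finset.sum_congr rfl fun i _ => ?_
  rw [l1, ← mul_kronecker_mul, ← mul_kronecker_mul, one_mul, mul_one, ← lc_mul, ← lc_mul, hM i]

lemma PP_sq (hc : ∀ i j, D i * D j = D j * D i) :
    S.PP D * S.PP D = l1 (S.κ ^ 2 • ∑ i, D i * D i) := by
  have h1 : ∀ i j, S.g i ⊗ₖ lc (D i) * S.g j ⊗ₖ lc (D j) = (S.g i * S.g j) ⊗ₖ lc (D i * D j) := by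
    intro i j
    rw [← mul_kronecker_mul, lc_mul]
  have h2 : (∑ i, S.g i ⊗ₖ lc (D i)) * (∑ i, S.g i ⊗ₖ lc (D i)) =
      ∑ i, ∑ j, (S.g i * S.g j) ⊗ₖ lc (D i * D j) := by
    rw [Finset.sum_mul_sum]
    simp only [h1]
  have h3 : (∑ i, ∑ j, (S.g i * S.g j) ⊗ₖ lc (D i * D j)) =
      ∑ i, ∑ j, (S.g j * S.g i) ⊗ₖ lc (D i * D j) := by
    rw [Finset.sum_comm]
    refine Finset.sum_congr rfl fun i _ => Finset.sum_congr rfl fun j _ => ?_
    rw [hc j i]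
  have h4 : (2 : ℂ) • (∑ i, ∑ j, (S.g i * S.g j) ⊗ₖ lc (D i * D j)) =
      (2 : ℂ) • ∑ i, (1 : Matrix (Fin 16) (Fin 16) ℂ) ⊗ₖ lc (D i * D i) := by
    rw [two_smul]
    nth_rw 2 [h3]
    rw [← Finset.sum_add_distrib, Finset.smul_sum]
    refine Finset.sum_congr rfl fun i _ => ?_
    rw [← Finset.sum_add_distrib]
    have h5 : ∀ j, (S.g i * S.g j) ⊗ₖ lc (D i * D j) + (S.g j * S.g i) ⊗ₖ lc (D i * D j) =
        if i = j then (2 : ℂ) • ((1 : Matrix (Fin 16) (Fin 16) ℂ) ⊗ₖ lc (D i * D i)) else 0 := by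
      intro j
      rw [← add_kronecker, S.g_anti]
      by_cases h : i = j
      · subst h
        rw [if_pos rfl, if_pos rfl, ← smul_kronecker]
        congr 1
        ext a b
        simp [Matrix.one_apply, Matrix.ofNat_apply]
      · rw [if_neg h, if_neg h, zero_kronecker]
    simp only [h5, Finset.sum_ite_eq, Finset.mem_univ, if_true]
  have h6 := (smul_right_injective _ (two_ne_zero (α := ℂ))) h4
  rw [PP_eq, smul_mul_smul_comm, h2, h6]
  ext p q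
  simp only [l1, lc, Matrix.smul_apply, Matrix.sum_apply, kroneckerMap_apply, Matrix.map_apply,
    smul_eq_mul, Complex.ofReal_mul, Complex.ofReal_pow, Complex.ofReal_sum]
  rw [Finset.mul_sum, Finset.mul_sum, Finset.mul_sum]
  refine Finset.sum_congr rfl fun i _ => ?_
  ring

lemma Lam_ct (hD : ∀ i, (D i)ᵀ = -D i) (hO : Omᵀ = Om) : (S.Lam D Om)ᴴ = S.Lam D Om := by
  rw [Lam_eq, conjTranspose_smul, conjTranspose_sub, conjTranspose_smul, PP_ct S D hD, l1_ct _ hO]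
  have e1 : star (1 / 2 : ℂ) = 1 / 2 := by simp
  have e2 : star Complex.I = -Complex.I := Complex.conj_I
  rw [e1, e2, smul_neg, neg_smul, neg_neg]

lemma Lam_sq (hD : Frz D) (hO : IsOm S.κ D Om) (hOD : ∀ i, D i * Om = Om * D i) :
    S.Lam D Om * S.Lam D Om = l1 Om * S.Lam D Om := by
  have h1 : S.PP D * S.PP D = -(l1 Om * l1 Om) := by
    rw [PP_sq S D hD.comm, l1_mul, hO.sq]
    ext p q
    simp [l1, lc, kroneckerMap_apply]
  have h2 := l1_PP S D Om hOD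
  rw [Lam_eq, smul_mul_smul_comm, mul_smul_comm]
  have h3 : (l1 Om - Complex.I • S.PP D) * (l1 Om - Complex.I • S.PP D) =
      (2 : ℂ) • (l1 Om * (l1 Om - Complex.I • S.PP D)) := by
    rw [sub_mul, mul_sub, mul_sub, smul_mul_smul_comm, h1, smul_mul_assoc, mul_smul_comm, ← h2,
      Complex.I_mul_I, neg_one_smul, neg_neg, two_smul]
    abel
  rw [h3, smul_smul]
  congr 1
  norm_num

/-- `Λ = Y Y` with `Y = K⁻¹ Λ` Hermitian -/
lemma exists_root (hD : Frz D) (hO : IsOm S.κ D Om) :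
    ∃ K : Matrix (Fin dm) (Fin dm) ℝ, l1 K * l1 K⁻¹ = 1 ∧
      (l1 K⁻¹ * S.Lam D Om)ᴴ = l1 K⁻¹ * S.Lam D Om ∧
      (l1 K⁻¹ * S.Lam D Om) * (l1 K⁻¹ * S.Lam D Om) = S.Lam D Om := by
  have hOD : ∀ i, D i * Om = Om * D i := by
    intro i
    refine hO.comm (D i) ?_
    rw [Finset.mul_sum, Finset.sum_mul]
    refine Finset.sum_congr rfl fun j _ => ?_
    rw [← mul_assoc, hD.comm i j, mul_assoc, hD.comm i j, mul_assoc]
  have hpd : Om.PosDef := by
    refine PosDef.of_dotProduct_mulVec_pos ?_ ?_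
    · change Omᴴ = Om
      rw [conjTranspose_eq_transpose_of_trivial, hO.symm]
    · intro v hv
      rw [star_trivial]
      exact hO.pos v hv
  obtain ⟨K, hK, hKK, hKc⟩ := OmPf.omp_sqrt hpd
  have hKu : IsUnit K.det := isUnit_iff_ne_zero.2 hK.det_pos.ne'
  have hKs : Kᵀ = K := by
    have := hK.1
    rwa [IsHermitian, conjTranspose_eq_transpose_of_trivial] at this
  have hKD : ∀ i, D i * K = K * D i := fun i => hKc (D i) (hOD i)
  have hKiD : ∀ i, D i * K⁻¹ = K⁻¹ * D i := by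
    intro i
    have h1 : K⁻¹ * (D i * K) * K⁻¹ = K⁻¹ * (K * D i) * K⁻¹ := by rw [hKD i]
    rw [← mul_assoc K⁻¹ K, nonsing_inv_mul _ hKu, one_mul, mul_assoc K⁻¹, mul_assoc (D i),
      mul_nonsing_inv _ hKu, mul_one] at h1
    exact h1.symm
  have hKis : (K⁻¹)ᵀ = K⁻¹ := by rw [transpose_nonsing_inv, hKs]
  have hKO : l1 K⁻¹ * l1 Om = l1 Om * l1 K⁻¹ := by
    rw [l1_mul, l1_mul, ← hKK, mul_assoc, mul_nonsing_inv _ hKu, ← mul_assoc,
      nonsing_inv_mul _ hKu, one_mul, mul_one]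
  have hcomm : l1 K⁻¹ * S.Lam D Om = S.Lam D Om * l1 K⁻¹ := by
    rw [Lam_eq, mul_smul_comm, smul_mul_assoc, mul_sub, sub_mul, mul_smul_comm, smul_mul_assoc,
      l1_PP S D _ hKiD, hKO]
  refine ⟨K, ?_, ?_, ?_⟩
  · rw [l1_mul, mul_nonsing_inv _ hKu, l1_one]
  · rw [conjTranspose_mul, Lam_ct S D Om hD.anti hO.symm, l1_ct _ hKis, hcomm]
  · have e : l1 K⁻¹ * l1 K⁻¹ * l1 Om = 1 := by
      rw [l1_mul, l1_mul, ← hKK, mul_assoc, ← mul_assoc K⁻¹ K K, nonsing_inv_mul _ hKu, one_mul,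
        nonsing_inv_mul _ hKu, l1_one]
    calc l1 K⁻¹ * S.Lam D Om * (l1 K⁻¹ * S.Lam D Om)
        = l1 K⁻¹ * (S.Lam D Om * l1 K⁻¹) * S.Lam D Om := by simp only [mul_assoc]
      _ = l1 K⁻¹ * (l1 K⁻¹ * S.Lam D Om) * S.Lam D Om := by rw [hcomm]
      _ = l1 K⁻¹ * l1 K⁻¹ * (S.Lam D Om * S.Lam D Om) := by simp only [mul_assoc]
      _ = l1 K⁻¹ * l1 K⁻¹ * (l1 Om * S.Lam D Om) := by rw [Lam_sq S D Om hD hO hOD]
      _ = (l1 K⁻¹ * l1 K⁻¹ * l1 Om) * S.Lam D Om := by simp only [mul_assoc]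
      _ = S.Lam D Om := by rw [e, one_mul]

variable (φ : Spl dh dm d)

/-- `Σ_q Y_rq θ_q` -/
noncomputable def Tm (Y : Matrix (Fin 16 × Fin dm) (Fin 16 × Fin dm) ℂ) (r : Fin 16 × Fin dm) :
    F →L[ℂ] F := ∑ q : Fin 16 × Fin dm, Y r q • S.th q.1 (φ (Sum.inr q.2))

lemma inner_NF (Y : Matrix (Fin 16 × Fin dm) (Fin 16 × Fin dm) ℂ) (hY : Yᴴ = Y)
    (hYY : Y * Y = S.Lam D Om) (v : F) :
    inner ℂ v (S.NF φ D Om v) = ∑ r, ((‖Tm S φ Y r v‖ ^ 2 : ℝ) : ℂ) := by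
  set θ : Fin 16 × Fin dm → F := fun p => S.th p.1 (φ (Sum.inr p.2)) v with hθ
  have h1 : inner ℂ v (S.NF φ D Om v) = ∑ p, ∑ q, S.Lam D Om p q * inner ℂ (θ p) (θ q) := by
    rw [Setup.NF, _root_.sum_apply, inner_sum]
    refine Finset.sum_congr rfl fun p _ => ?_
    have h0 : inner ℂ v ((S.th p.1 (φ (Sum.inr p.2)) * S.Lth φ D Om p) v) =
        inner ℂ (θ p) (S.Lth φ D Om p v) := (S.th_sa _ _ _ _).symm
    rw [h0, Setup.Lth, _root_.sum_apply, inner_sum]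
    refine Finset.sum_congr rfl fun q _ => ?_
    rw [_root_.smul_apply, inner_smul_right]
  have h2 : ∀ r, ((‖Tm S φ Y r v‖ ^ 2 : ℝ) : ℂ) =
      ∑ p, ∑ q, (Y p r * Y r q) * inner ℂ (θ p) (θ q) := by
    intro r
    have h3 : ((‖Tm S φ Y r v‖ ^ 2 : ℝ) : ℂ) = inner ℂ (Tm S φ Y r v) (Tm S φ Y r v) := by
      rw [inner_self_eq_norm_sq_to_K]; norm_cast
    rw [h3]
    have h4 : Tm S φ Y r v = ∑ q, Y r q • θ q := by
      rw [Tm, _root_.sum_apply]
      rfl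
    rw [h4, sum_inner]
    refine Finset.sum_congr rfl fun p _ => ?_
    rw [inner_sum]
    refine Finset.sum_congr rfl fun q _ => ?_
    rw [inner_smul_left, inner_smul_right]
    have h5 : (starRingEnd ℂ) (Y r p) = Y p r := by
      have := congrFun (congrFun hY p) r
      rwa [conjTranspose_apply] at this
    rw [h5]
    ring
  rw [h1]
  simp only [h2]
  rw [Finset.sum_comm]
  conv_rhs => rw [Finset.sum_comm]
  have h6 : ∀ p q, S.Lam D Om p q = ∑ r, Y p r * Y r q := by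
    intro p q
    rw [← hYY, mul_apply]
  rw [Finset.sum_comm]
  refine Finset.sum_congr rfl fun p _ => ?_
  rw [Finset.sum_comm]
  refine Finset.sum_congr rfl fun q _ => ?_
  rw [h6, Finset.sum_mul]

lemma Tm_zero (K : Matrix (Fin dm) (Fin dm) ℝ) (h1 : l1 K * l1 K⁻¹ = 1) (v : F) :
    (∀ r, Tm S φ (l1 K⁻¹ * S.Lam D Om) r v = 0) ↔ v ∈ S.F0 φ D Om := by
  have h2 : ∀ (A B : Matrix (Fin 16 × Fin dm) (Fin 16 × Fin dm) ℂ) r,
      Tm S φ (A * B) r v = ∑ p, A r p • Tm S φ B p v := by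
    intro A B r
    simp only [Tm, _root_.sum_apply, _root_.smul_apply, Finset.smul_sum, smul_smul, mul_apply,
      Finset.sum_smul]
    rw [Finset.sum_comm]
  have h3 : ∀ p, Tm S φ (S.Lam D Om) p v = S.Lth φ D Om p v := fun p => rfl
  constructor
  · intro h p
    have h4 : S.Lam D Om = l1 K * (l1 K⁻¹ * S.Lam D Om) := by rw [← mul_assoc, h1, one_mul]
    rw [← h3, h4, h2]
    exact Finset.sum_eq_zero fun q _ => by rw [h q, smul_zero]
  · intro h r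
    rw [h2]
    refine Finset.sum_eq_zero fun p _ => ?_
    rw [h3, h p, smul_zero]

end LamPf

open LamPf in
/-- **B-Lam** -/
theorem lamS (S : Setup d F) (φ : Spl dh dm d) : LamStmt S φ := by
  intro hfin D Om hD hO
  obtain ⟨K, hK1, hK2, hK3⟩ := exists_root S D Om hD hO
  set Y := l1 K⁻¹ * S.Lam D Om with hYdef
  set V := S.F0 φ D Om with hV
  let T : F →ₗ[ℂ] (Fin 16 × Fin dm → F) := LinearMap.pi fun r => (Tm S φ Y r).toLinearMap
  let T' : Vᗮ →ₗ[ℂ] (Fin 16 × Fin dm → F) := T.comp Vᗮ.subtype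
  have hker : LinearMap.ker T' = ⊥ := by
    rw [LinearMap.ker_eq_bot']
    intro w hw
    have h1 : (w : F) ∈ V := (Tm_zero S D Om φ K hK1 _).1 fun r => congrFun hw r
    have h2 : inner ℂ (w : F) (w : F) = 0 := (Submodule.mem_orthogonal _ _).1 w.2 _ h1
    exact Subtype.ext (inner_self_eq_zero.1 h2)
  obtain ⟨c, hc0, hc⟩ := T'.exists_antilipschitzWith hker
  refine ⟨(c : ℝ)⁻¹ ^ 2, by positivity, fun v => ?_⟩
  refine ⟨V.starProjection v, V.starProjection_apply_mem v, ?_, ?_⟩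
  · intro u hu
    exact (Submodule.mem_orthogonal _ _).1 (V.sub_starProjection_mem_orthogonal v) u hu
  · set w : Vᗮ := ⟨v - V.starProjection v, V.sub_starProjection_mem_orthogonal v⟩ with hw
    have h1 : ‖(w : F)‖ ≤ c * ‖T' w‖ := by
      have := hc.le_mul_dist w 0
      rwa [dist_zero_right, map_zero, dist_zero_right] at this
    have h2 : ∀ r, T' w r = Tm S φ Y r v := by
      intro r
      have h3 : Tm S φ Y r (V.starProjection v) = 0 :=
        (Tm_zero S D Om φ K hK1 _).2 (V.starProjection_apply_mem v) r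
      change Tm S φ Y r (v - V.starProjection v) = _
      rw [map_sub, h3, sub_zero]
    have h3 : ‖T' w‖ ^ 2 ≤ ∑ r, ‖Tm S φ Y r v‖ ^ 2 := by
      have h4 : ‖T' w‖ ≤ Real.sqrt (∑ r, ‖Tm S φ Y r v‖ ^ 2) := by
        rw [pi_norm_le_iff_of_nonneg (Real.sqrt_nonneg _)]
        intro r
        rw [h2 r]
        refine Real.le_sqrt_of_sq_le ?_
        exact Finset.single_le_sum (f := fun r => ‖Tm S φ Y r v‖ ^ 2) (fun r _ => by positivity)
          (Finset.mem_univ r)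
      calc ‖T' w‖ ^ 2 ≤ Real.sqrt (∑ r, ‖Tm S φ Y r v‖ ^ 2) ^ 2 :=
            pow_le_pow_left₀ (norm_nonneg _) h4 2
        _ = _ := Real.sq_sqrt (Finset.sum_nonneg fun r _ => by positivity)
    have h5 : (inner ℂ v (S.NF φ D Om v)).re = ∑ r, ‖Tm S φ Y r v‖ ^ 2 := by
      rw [inner_NF S D Om φ Y hK2 hK3 v, ← Complex.ofReal_sum, Complex.ofReal_re]
    rw [h5]
    have hcpos : (0 : ℝ) < c := by exact_mod_cast hc0
    have h6 : ‖v - V.starProjection v‖ ^ 2 ≤ (c : ℝ) ^ 2 * ‖T' w‖ ^ 2 := by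
      rw [← mul_pow]
      exact pow_le_pow_left₀ (norm_nonneg _) h1 2
    calc (c : ℝ)⁻¹ ^ 2 * ‖v - V.starProjection v‖ ^ 2
        ≤ (c : ℝ)⁻¹ ^ 2 * ((c : ℝ) ^ 2 * ‖T' w‖ ^ 2) :=
          mul_le_mul_of_nonneg_left h6 (by positivity)
      _ = ‖T' w‖ ^ 2 := by
          rw [← mul_assoc, ← mul_pow, inv_mul_cancel₀ hcpos.ne', one_pow, one_mul]
      _ ≤ _ := h3

end Vale.Agent.P353.Z
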