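import Vale.Agent.P353.AN.B.Stmt

/-! # P353, all `N`, block B: dependence of the fibre supercharge on the matrices -/

open MeasureTheory Filter Topology Matrix
open scoped ContDiff

namespace Vale.Agent.P353.Z

variable {d dh dm : ℕ} {F : Type*} [NormedAddCommGroup F] [InnerProductSpace ℂ F]

/-- entries of the inverse are bounded near an invertible matrix -/
private lemma pert_inv_bdd (M : Matrix (Fin dm) (Fin dm) ℝ) (hM : M.det ≠ 0) :
    ∃ K e : ℝ, 0 < K ∧ 0 < e ∧ ∀ M' : Matrix (Fin dm) (Fin dm) ℝ, (∀ A B, |M' A B - M A B| ≤ e) →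
      M'.det ≠ 0 ∧ ∀ A B, |M'⁻¹ A B| ≤ K := by
  have hdc : Continuous fun N : Matrix (Fin dm) (Fin dm) ℝ => N.det := continuous_id.matrix_det
  have hinv : ∀ A B, ContinuousAt (fun N : Matrix (Fin dm) (Fin dm) ℝ => N⁻¹ A B) M := by
    intro A B
    have h1 : (fun N : Matrix (Fin dm) (Fin dm) ℝ => N⁻¹ A B) =
        fun N => (N.det)⁻¹ * N.adjugate A B := by
      funext N
      rw [Matrix.inv_def, Matrix.smul_apply, Ring.inverse_eq_inv', smul_eq_mul]
    rw [h1]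
    have h2 : Continuous fun N : Matrix (Fin dm) (Fin dm) ℝ => N.adjugate A B :=
      (continuous_id.matrix_adjugate).matrix_elem A B
    exact (hdc.continuousAt.inv₀ hM).mul h2.continuousAt
  set K : ℝ := 1 + ∑ A, ∑ B, |M⁻¹ A B| with hK
  have hKle : ∀ A B, |M⁻¹ A B| < K := by
    intro A B
    have h1 : |M⁻¹ A B| ≤ ∑ B, |M⁻¹ A B| :=
      Finset.single_le_sum (f := fun B => |M⁻¹ A B|) (fun _ _ => abs_nonneg _) (Finset.mem_univ B)
    have h2 : (∑ B, |M⁻¹ A B|) ≤ ∑ A, ∑ B, |M⁻¹ A B| :=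
      Finset.single_le_sum (f := fun A => ∑ B, |M⁻¹ A B|)
        (fun _ _ => Finset.sum_nonneg fun _ _ => abs_nonneg _) (Finset.mem_univ A)
    rw [hK]; linarith
  have hev : ∀ᶠ N in 𝓝 M, N.det ≠ 0 ∧ ∀ A B, |N⁻¹ A B| < K := by
    refine (hdc.continuousAt.eventually_ne hM).and ?_
    rw [eventually_all]; intro A
    rw [eventually_all]; intro B
    exact (hinv A B).abs.eventually_lt continuousAt_const (hKle A B)
  have hev' : ∀ᶠ N : Fin dm → Fin dm → ℝ in 𝓝 (fun A B => M A B),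
      (Matrix.of N).det ≠ 0 ∧ ∀ A B, |(Matrix.of N)⁻¹ A B| < K := hev
  obtain ⟨e, he, hball⟩ := Metric.eventually_nhds_iff.1 hev'
  refine ⟨K, e / 2, ?_, half_pos he, ?_⟩
  · have : 0 ≤ ∑ A, ∑ B, |M⁻¹ A B| :=
      Finset.sum_nonneg fun _ _ => Finset.sum_nonneg fun _ _ => abs_nonneg _
    rw [hK]; linarith
  · intro M' hM'
    have hd : dist (fun A B => M' A B) (fun A B => M A B) < e := by
      refine lt_of_le_of_lt ((dist_pi_le_iff (half_pos he).le).2 fun A => ?_) (half_lt_self he)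
      exact (dist_pi_le_iff (half_pos he).le).2 fun B => by
        rw [Real.dist_eq]; exact hM' A B
    obtain ⟨h1, h2⟩ := hball hd
    exact ⟨h1, fun A B => (h2 A B).le⟩

/-- Lipschitz bound for the entries of the inverse -/
private lemma pert_inv_lip (M M' : Matrix (Fin dm) (Fin dm) ℝ) (hM : M.det ≠ 0) (hM' : M'.det ≠ 0)
    {K ε : ℝ} (hK : 0 ≤ K) (hε : 0 ≤ ε) (h1 : ∀ A B, |M⁻¹ A B| ≤ K) (h2 : ∀ A B, |M'⁻¹ A B| ≤ K)
    (h3 : ∀ A B, |M' A B - M A B| ≤ ε) (A B : Fin dm) :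
    |M'⁻¹ A B - M⁻¹ A B| ≤ dm * (dm * (K * K)) * ε := by
  have key : M'⁻¹ - M⁻¹ = M'⁻¹ * (M - M') * M⁻¹ := by
    rw [Matrix.mul_sub, Matrix.sub_mul, Matrix.nonsing_inv_mul _ (isUnit_iff_ne_zero.2 hM'),
      Matrix.one_mul, Matrix.mul_assoc, Matrix.mul_nonsing_inv _ (isUnit_iff_ne_zero.2 hM),
      Matrix.mul_one]
  have h4 : M'⁻¹ A B - M⁻¹ A B = ∑ Q, (∑ P, M'⁻¹ A P * (M - M') P Q) * M⁻¹ Q B := by
    rw [← Matrix.sub_apply, key, Matrix.mul_apply]
    simp only [Matrix.mul_apply]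
  rw [h4]
  refine (Finset.abs_sum_le_sum_abs _ _).trans ?_
  have h5 : ∀ Q, |(∑ P, M'⁻¹ A P * (M - M') P Q) * M⁻¹ Q B| ≤ (dm * (K * ε)) * K := by
    intro Q
    rw [abs_mul]
    refine mul_le_mul ?_ (h1 Q B) (abs_nonneg _) (by positivity)
    refine (Finset.abs_sum_le_sum_abs _ _).trans ?_
    have h6 : ∀ P, |M'⁻¹ A P * (M - M') P Q| ≤ K * ε := by
      intro P
      rw [abs_mul, Matrix.sub_apply, abs_sub_comm]
      exact mul_le_mul (h2 A P) (h3 P Q) (abs_nonneg _) hK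
    refine (Finset.sum_le_sum fun P _ => h6 P).trans ?_
    rw [Finset.sum_const, Finset.card_univ, Fintype.card_fin, nsmul_eq_mul]
  refine (Finset.sum_le_sum fun Q _ => h5 Q).trans ?_
  rw [Finset.sum_const, Finset.card_univ, Fintype.card_fin, nsmul_eq_mul]
  apply le_of_eq
  ring

private lemma pert_wt (w : Wsp dm) (i : Fin 9) (B : Fin dm) : |wt w i B| ≤ ‖w‖ := by
  unfold wt
  refine Fin.lastCases ?_ (fun j => ?_) i
  · rw [Fin.lastCases_last, abs_zero]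
    exact norm_nonneg _
  · rw [Fin.lastCases_castSucc, ← Real.norm_eq_abs]
    exact PiLp.norm_apply_le w (j, B)

private lemma pert_cont_pf {f : Wsp dm → F} (hf : FT f) (j : Fin 8) (B : Fin dm) :
    Continuous (pf j B f) := by
  have := hf.1.continuous_fderiv (by simp)
  exact this.clm_apply continuous_const

private lemma pert_cs_pf {f : Wsp dm → F} (hf : FT f) (j : Fin 8) (B : Fin dm) :
    HasCompactSupport (pf j B f) := by
  have h := hf.2.fderiv ℝ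
  exact h.comp_left
    (g := fun (v : Wsp dm →L[ℝ] F) => v (EuclideanSpace.single (j, B) (1 : ℝ))) rfl

omit [InnerProductSpace ℂ F] in
private lemma pert_sq_int {f : Wsp dm → F} (h1 : Continuous f) (h2 : HasCompactSupport f) :
    Integrable (fun w => ‖f w‖ ^ 2) (volume : Measure (Wsp dm)) := by
  have h3 : HasCompactSupport (fun w => ‖f w‖ ^ 2) :=
    h2.comp_left (g := fun v : F => ‖v‖ ^ 2) (by simp)
  exact Continuous.integrable_of_hasCompactSupport (h1.norm.pow 2) h3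

private lemma pert_integrable_pf {f : Wsp dm → F} (hf : FT f) (j : Fin 8) (B : Fin dm) :
    Integrable (fun w => ‖pf j B f w‖ ^ 2) (volume : Measure (Wsp dm)) :=
  pert_sq_int (pert_cont_pf hf j B) (pert_cs_pf hf j B)

private lemma pert_integrable_w {f : Wsp dm → F} (hf : FT f) :
    Integrable (fun w : Wsp dm => ‖((‖w‖ : ℝ) : ℂ) • f w‖ ^ 2) (volume : Measure (Wsp dm)) := by
  have h0 : Continuous fun w : Wsp dm => ((‖w‖ : ℝ) : ℂ) :=
    Complex.continuous_ofReal.comp continuous_norm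
  have h1 : Continuous fun w : Wsp dm => ((‖w‖ : ℝ) : ℂ) • f w := h0.smul hf.1.continuous
  have h2 : HasCompactSupport fun w : Wsp dm => ((‖w‖ : ℝ) : ℂ) • f w :=
    HasCompactSupport.smul_left (f := fun w : Wsp dm => ((‖w‖ : ℝ) : ℂ)) hf.2
  exact pert_sq_int h1 h2

/-- difference of the coefficients of the derivative term -/
private lemma pert_coef {K L ε a a' b b' : ℝ} (hK : 0 ≤ K) (hL : 0 ≤ L) (hε : 0 ≤ ε)
    (h1 : |a'| ≤ K) (h2 : |b| ≤ K) (h3 : |a' - a| ≤ L * ε) (h4 : |b' - b| ≤ ε) :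
    |a' * b' - a * b| ≤ (K + L * K) * ε := by
  have : a' * b' - a * b = a' * (b' - b) + (a' - a) * b := by ring
  rw [this]
  refine (abs_add_le _ _).trans ?_
  rw [abs_mul, abs_mul]
  have e1 : |a'| * |b' - b| ≤ K * ε := mul_le_mul h1 h4 (abs_nonneg _) hK
  have e2 : |a' - a| * |b| ≤ (L * ε) * K := mul_le_mul h3 h2 (abs_nonneg _) (by positivity)
  nlinarith

/-- the pointwise estimate -/
private lemma pert_point (S : Setup d F) (φ : Spl dh dm d) (D D' : Fin 9 → Matrix (Fin dm) (Fin dm) ℝ)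
    {K L ε V : ℝ} (hK : 0 ≤ K) (hL : 0 ≤ L) (hε : 0 ≤ ε) (hV : 0 ≤ V) (β : Fin 16)
    (hV8 : ∀ B, ‖S.vec (S.g 8) (φ (Sum.inr B)) β‖ ≤ V)
    (hV2 : ∀ B i j, ‖S.vec (S.g2 i j) (φ (Sum.inr B)) β‖ ≤ V)
    (hD : ∀ i A B, |D i A B| ≤ K) (hI' : ∀ A B, |(D' 8)⁻¹ A B| ≤ K)
    (hI : ∀ A B, |(D' 8)⁻¹ A B - (D 8)⁻¹ A B| ≤ L * ε)
    (hDD : ∀ i A B, |D' i A B - D i A B| ≤ ε) (f : Wsp dm → F) (w : Wsp dm) :
    ‖S.q1 φ D' β f w - S.q1 φ D β f w‖ ≤
      (dm * (V * (dm * ((K + L * K) * ε)))) * (∑ j, ∑ E, ‖pf j E f w‖) +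
      (dm * (9 * (9 * (S.κ * (dm * ε + dm * ε) * V)))) * ‖((‖w‖ : ℝ) : ℂ) • f w‖ := by
  have hsplit : S.q1 φ D' β f w - S.q1 φ D β f w =
      Complex.I • (∑ B, S.vec (S.g 8) (φ (Sum.inr B)) β (∑ C, ∑ j : Fin 8, ∑ E,
        ((((D' 8)⁻¹ B C * D' j.castSucc C E - (D 8)⁻¹ B C * D j.castSucc C E : ℝ)) : ℂ) • pf j E f w)) +
      (1 / 2 : ℂ) • ∑ B, ∑ i, ∑ j,
        ((S.κ * ((∑ C, (D' i B C - D i B C) * wt w j C) - ∑ C, (D' j B C - D j B C) * wt w i C) : ℝ) : ℂ) •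
          S.vec (S.g2 i j) (φ (Sum.inr B)) β (f w) := by
    have e1 : ∀ B, (∑ C, ∑ j : Fin 8, ∑ E,
        ((((D' 8)⁻¹ B C * D' j.castSucc C E - (D 8)⁻¹ B C * D j.castSucc C E : ℝ)) : ℂ) • pf j E f w) =
        (∑ C, (((D' 8)⁻¹ B C : ℝ) : ℂ) • ∑ j : Fin 8, ∑ E, ((D' j.castSucc C E : ℝ) : ℂ) • pf j E f w) -
        ∑ C, (((D 8)⁻¹ B C : ℝ) : ℂ) • ∑ j : Fin 8, ∑ E, ((D j.castSucc C E : ℝ) : ℂ) • pf j E f w := by
      intro B
      rw [← Finset.sum_sub_distrib]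
      refine Finset.sum_congr rfl fun C _ => ?_
      simp only [Finset.smul_sum, smul_smul, ← Finset.sum_sub_distrib, ← sub_smul]
      refine Finset.sum_congr rfl fun j _ => Finset.sum_congr rfl fun E _ => ?_
      push_cast
      rfl
    have e2 : ∀ B i j, ((S.κ * ((∑ C, (D' i B C - D i B C) * wt w j C) -
        ∑ C, (D' j B C - D j B C) * wt w i C) : ℝ) : ℂ) • S.vec (S.g2 i j) (φ (Sum.inr B)) β (f w) =
        ((S.κ * ((∑ C, D' i B C * wt w j C) - ∑ C, D' j B C * wt w i C) : ℝ) : ℂ) •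
          S.vec (S.g2 i j) (φ (Sum.inr B)) β (f w) -
        ((S.κ * ((∑ C, D i B C * wt w j C) - ∑ C, D j B C * wt w i C) : ℝ) : ℂ) •
          S.vec (S.g2 i j) (φ (Sum.inr B)) β (f w) := by
      intro B i j
      rw [← sub_smul, ← Complex.ofReal_sub]
      congr 2
      simp only [sub_mul, Finset.sum_sub_distrib]
      ring
    simp only [e1, e2, map_sub, Finset.sum_sub_distrib, smul_sub]
    unfold Setup.q1
    abel
  rw [hsplit]
  refine (norm_add_le _ _).trans (add_le_add ?_ ?_)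
  · rw [norm_smul, Complex.norm_I, one_mul]
    have a1 : ∀ B, ‖S.vec (S.g 8) (φ (Sum.inr B)) β (∑ C, ∑ j : Fin 8, ∑ E,
        ((((D' 8)⁻¹ B C * D' j.castSucc C E - (D 8)⁻¹ B C * D j.castSucc C E : ℝ)) : ℂ) • pf j E f w)‖ ≤
        V * (dm * (((K + L * K) * ε) * ∑ j, ∑ E, ‖pf j E f w‖)) := by
      intro B
      refine (ContinuousLinearMap.le_opNorm _ _).trans (mul_le_mul (hV8 B) ?_ (norm_nonneg _) hV)
      refine (norm_sum_le _ _).trans ?_
      have a2 : ∀ C, ‖∑ j : Fin 8, ∑ E,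
          ((((D' 8)⁻¹ B C * D' j.castSucc C E - (D 8)⁻¹ B C * D j.castSucc C E : ℝ)) : ℂ) • pf j E f w‖ ≤
          ((K + L * K) * ε) * ∑ j, ∑ E, ‖pf j E f w‖ := by
        intro C
        refine (norm_sum_le _ _).trans ?_
        rw [Finset.mul_sum]
        refine Finset.sum_le_sum fun j _ => ?_
        refine (norm_sum_le _ _).trans ?_
        rw [Finset.mul_sum]
        refine Finset.sum_le_sum fun E _ => ?_
        rw [norm_smul, Complex.norm_real, Real.norm_eq_abs]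
        refine mul_le_mul_of_nonneg_right ?_ (norm_nonneg _)
        exact pert_coef hK hL hε (hI' B C) (hD _ _ _) (hI B C) (hDD _ _ _)
      refine (Finset.sum_le_sum fun C _ => a2 C).trans ?_
      rw [Finset.sum_const, Finset.card_univ, Fintype.card_fin, nsmul_eq_mul]
    refine (norm_sum_le _ _).trans ((Finset.sum_le_sum fun B _ => a1 B).trans ?_)
    rw [Finset.sum_const, Finset.card_univ, Fintype.card_fin, nsmul_eq_mul]
    apply le_of_eq
    ring
  · rw [norm_smul]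
    have b0 : ‖(1 / 2 : ℂ)‖ ≤ 1 := by
      rw [norm_div, norm_one, Complex.norm_ofNat]; norm_num
    have b1 : ∀ i B j, |∑ C, (D' i B C - D i B C) * wt w j C| ≤ dm * ε * ‖w‖ := by
      intro i B j
      refine (Finset.abs_sum_le_sum_abs _ _).trans ?_
      have : ∀ C, |(D' i B C - D i B C) * wt w j C| ≤ ε * ‖w‖ := by
        intro C
        rw [abs_mul]
        exact mul_le_mul (hDD i B C) (pert_wt w j C) (abs_nonneg _) hε
      refine (Finset.sum_le_sum fun C _ => this C).trans ?_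
      rw [Finset.sum_const, Finset.card_univ, Fintype.card_fin, nsmul_eq_mul]
      apply le_of_eq
      ring
    have hnw : ‖((‖w‖ : ℝ) : ℂ) • f w‖ = ‖w‖ * ‖f w‖ := by
      rw [norm_smul, Complex.norm_real, norm_norm]
    have b2 : ∀ B i j, ‖((S.κ * ((∑ C, (D' i B C - D i B C) * wt w j C) -
        ∑ C, (D' j B C - D j B C) * wt w i C) : ℝ) : ℂ) • S.vec (S.g2 i j) (φ (Sum.inr B)) β (f w)‖ ≤
        (S.κ * (dm * ε + dm * ε) * V) * ‖((‖w‖ : ℝ) : ℂ) • f w‖ := by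
      intro B i j
      rw [norm_smul, Complex.norm_real, Real.norm_eq_abs, abs_mul, abs_of_pos S.κ_pos, hnw]
      have c1 : |(∑ C, (D' i B C - D i B C) * wt w j C) - ∑ C, (D' j B C - D j B C) * wt w i C| ≤
          (dm * ε + dm * ε) * ‖w‖ := by
        refine (abs_sub _ _).trans ?_
        have := b1 i B j
        have := b1 j B i
        linarith
      have c2 : ‖S.vec (S.g2 i j) (φ (Sum.inr B)) β (f w)‖ ≤ V * ‖f w‖ :=
        (ContinuousLinearMap.le_opNorm _ _).trans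
          (mul_le_mul_of_nonneg_right (hV2 B i j) (norm_nonneg _))
      calc _ ≤ (S.κ * ((dm * ε + dm * ε) * ‖w‖)) * (V * ‖f w‖) :=
            mul_le_mul (mul_le_mul_of_nonneg_left c1 S.κ_pos.le) c2 (norm_nonneg _)
              (mul_nonneg S.κ_pos.le (by positivity))
        _ = _ := by ring
    have b3 : ‖∑ B, ∑ i, ∑ j,
        ((S.κ * ((∑ C, (D' i B C - D i B C) * wt w j C) - ∑ C, (D' j B C - D j B C) * wt w i C) : ℝ) : ℂ) •
          S.vec (S.g2 i j) (φ (Sum.inr B)) β (f w)‖ ≤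
        (dm * (9 * (9 * (S.κ * (dm * ε + dm * ε) * V)))) * ‖((‖w‖ : ℝ) : ℂ) • f w‖ := by
      refine (norm_sum_le _ _).trans ?_
      have : ∀ B, ‖∑ i, ∑ j,
        ((S.κ * ((∑ C, (D' i B C - D i B C) * wt w j C) - ∑ C, (D' j B C - D j B C) * wt w i C) : ℝ) : ℂ) •
          S.vec (S.g2 i j) (φ (Sum.inr B)) β (f w)‖ ≤
          9 * (9 * ((S.κ * (dm * ε + dm * ε) * V) * ‖((‖w‖ : ℝ) : ℂ) • f w‖)) := by
        intro B
        refine (norm_sum_le _ _).trans ((Finset.sum_le_sum fun i _ => (norm_sum_le _ _).trans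
          (Finset.sum_le_sum fun j _ => b2 B i j)).trans ?_)
        simp only [Finset.sum_const, Finset.card_univ, Fintype.card_fin, nsmul_eq_mul]
        norm_num
      refine (Finset.sum_le_sum fun B _ => this B).trans ?_
      rw [Finset.sum_const, Finset.card_univ, Fintype.card_fin, nsmul_eq_mul]
      apply le_of_eq
      ring
    calc _ ≤ 1 * _ := mul_le_mul_of_nonneg_right b0 (norm_nonneg _)
      _ = _ := one_mul _
      _ ≤ _ := b3

private lemma pert_integrate {f : Wsp dm → F} (hf : FT f) (g : Wsp dm → F) (c : ℝ)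
    (h : ∀ w, ‖g w‖ ^ 2 ≤ c * ((∑ j, ∑ B, ‖pf j B f w‖ ^ 2) + ‖((‖w‖ : ℝ) : ℂ) • f w‖ ^ 2)) :
    nsf g ≤ c * ((∑ j, ∑ B, nsf (pf j B f)) + nsf (fun w => ((‖w‖ : ℝ) : ℂ) • f w)) := by
  have hi1 : ∀ j : Fin 8, Integrable (fun w => ∑ B, ‖pf j B f w‖ ^ 2)
      (volume : Measure (Wsp dm)) := fun j =>
    integrable_finsetSum _ fun B _ => pert_integrable_pf hf j B
  have hi2 : Integrable (fun w => ∑ j, ∑ B, ‖pf j B f w‖ ^ 2) (volume : Measure (Wsp dm)) :=
    integrable_finsetSum _ fun j _ => hi1 j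
  have hi3 : Integrable (fun w : Wsp dm => (∑ j, ∑ B, ‖pf j B f w‖ ^ 2) +
      ‖((‖w‖ : ℝ) : ℂ) • f w‖ ^ 2) (volume : Measure (Wsp dm)) := hi2.add (pert_integrable_w hf)
  have h1 : nsf g ≤ ∫ w : Wsp dm, c * ((∑ j, ∑ B, ‖pf j B f w‖ ^ 2) +
      ‖((‖w‖ : ℝ) : ℂ) • f w‖ ^ 2) :=
    integral_mono_of_nonneg (Eventually.of_forall fun w => sq_nonneg _) (hi3.const_mul c)
      (Eventually.of_forall h)
  refine h1.trans (le_of_eq ?_)
  rw [integral_const_mul, integral_add hi2 (pert_integrable_w hf),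
    integral_finsetSum _ fun j _ => hi1 j]
  congr 2
  refine Finset.sum_congr rfl fun j _ => ?_
  rw [integral_finsetSum _ fun B _ => pert_integrable_pf hf j B]
  rfl

private lemma pert_fin {ι : Type*} [Finite ι] (g : ι → ℝ) : ∃ V : ℝ, 0 ≤ V ∧ ∀ i, g i ≤ V := by
  obtain ⟨M, hM⟩ := Finite.exists_le g
  exact ⟨max M 0, le_max_right _ _, fun i => (hM i).trans (le_max_left _ _)⟩

private lemma pert_V (S : Setup d F) (φ : Spl dh dm d) : ∃ V : ℝ, 0 ≤ V ∧
    (∀ β B, ‖S.vec (S.g 8) (φ (Sum.inr B)) β‖ ≤ V) ∧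
    (∀ β B i j, ‖S.vec (S.g2 i j) (φ (Sum.inr B)) β‖ ≤ V) := by
  obtain ⟨V1, h1, h1'⟩ := pert_fin fun p : Fin 16 × Fin dm =>
    ‖S.vec (S.g 8) (φ (Sum.inr p.2)) p.1‖
  obtain ⟨V2, h2, h2'⟩ := pert_fin fun p : Fin 16 × Fin dm × Fin 9 × Fin 9 =>
    ‖S.vec (S.g2 p.2.2.1 p.2.2.2) (φ (Sum.inr p.2.1)) p.1‖
  exact ⟨max V1 V2, le_max_of_le_left h1, fun β B => (h1' (β, B)).trans (le_max_left _ _),
    fun β B i j => (h2' (β, B, i, j)).trans (le_max_right _ _)⟩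

theorem pertF (S : Setup d F) (φ : Spl dh dm d) : PertFStmt S φ := by
  intro D hdet
  obtain ⟨K0, e0, hK0, he0, hinv⟩ := pert_inv_bdd (D 8) hdet
  have hself := hinv (D 8) (fun A B => by rw [sub_self, abs_zero]; exact he0.le)
  obtain ⟨K1, hK1, hK1'⟩ := pert_fin fun p : Fin 9 × Fin dm × Fin dm => |D p.1 p.2.1 p.2.2|
  obtain ⟨K, hKK0, hKK1⟩ : ∃ K : ℝ, K0 ≤ K ∧ K1 ≤ K := ⟨max K0 K1, le_max_left _ _, le_max_right _ _⟩
  have hK : 0 ≤ K := hK0.le.trans hKK0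
  have hKD : ∀ i A B, |D i A B| ≤ K := fun i A B => (hK1' (i, A, B)).trans hKK1
  obtain ⟨V, hV, hV8, hV2⟩ := pert_V S φ
  set L : ℝ := dm * (dm * (K0 * K0)) with hLdef
  have hL : 0 ≤ L := by rw [hLdef]; positivity
  set a : ℝ := dm * (V * (dm * (K + L * K))) with hadef
  set b : ℝ := dm * (9 * (9 * (S.κ * (dm + dm) * V))) with hbdef
  have ha : 0 ≤ a := by rw [hadef]; positivity
  have hb : 0 ≤ b := by
    rw [hbdef]
    have := S.κ_pos.le
    positivity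
  set n : ℝ := 8 * dm + 1 with hndef
  refine ⟨n * (a + b) ^ 2 + 1, e0, by positivity, he0, fun ε hε hεe D' hD' => ?_⟩
  obtain ⟨hdet', hinv'⟩ := hinv (D' 8) (fun A B => (hD' 8 A B).trans hεe)
  refine ⟨hdet', fun f hf β => ?_⟩
  have hI : ∀ A B, |(D' 8)⁻¹ A B - (D 8)⁻¹ A B| ≤ L * ε :=
    pert_inv_lip (D 8) (D' 8) hdet hdet' hK0.le hε hself.2 hinv' (hD' 8)
  have hpt := pert_point S φ D D' hK hL hε hV β (hV8 β) (hV2 β) hKD
    (fun A B => (hinv' A B).trans hKK0) hI hD' f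
  -- pointwise square bound
  have hsq : ∀ w, ‖S.q1 φ D' β f w - S.q1 φ D β f w‖ ^ 2 ≤
      (n * (a + b) ^ 2 + 1) * ε ^ 2 * ((∑ j, ∑ B, ‖pf j B f w‖ ^ 2) + ‖((‖w‖ : ℝ) : ℂ) • f w‖ ^ 2) := by
    intro w
    set s : ℝ := ∑ j, ∑ E, ‖pf j E f w‖ with hsdef
    set t : ℝ := ‖((‖w‖ : ℝ) : ℂ) • f w‖ with htdef
    set s2 : ℝ := ∑ j, ∑ B, ‖pf j B f w‖ ^ 2 with hs2def
    have hs : 0 ≤ s := by rw [hsdef]; positivity
    have ht : 0 ≤ t := norm_nonneg _
    have hs2 : 0 ≤ s2 := by rw [hs2def]; positivity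
    have h1 : ‖S.q1 φ D' β f w - S.q1 φ D β f w‖ ≤ (a + b) * ε * (s + t) := by
      refine (hpt w).trans ?_
      have e1 : (dm * (V * (dm * ((K + L * K) * ε)))) * s = a * ε * s := by rw [hadef]; ring
      have e2 : (dm * (9 * (9 * (S.κ * (dm * ε + dm * ε) * V)))) * t = b * ε * t := by
        rw [hbdef]; ring
      rw [e1, e2]
      have e3 : 0 ≤ b * ε * s := by positivity
      have e4 : 0 ≤ a * ε * t := by positivity
      nlinarith
    have h2 : (s + t) ^ 2 ≤ n * (s2 + t ^ 2) := by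
      have e1 : s ^ 2 ≤ (8 * dm) * s2 := by
        have := sq_sum_le_card_mul_sum_sq (s := (Finset.univ : Finset (Fin 8 × Fin dm)))
          (f := fun p => ‖pf p.1 p.2 f w‖)
        rw [Finset.card_univ, Fintype.card_prod, Fintype.card_fin, Fintype.card_fin,
          Fintype.sum_prod_type, Fintype.sum_prod_type] at this
        push_cast at this
        exact this
      rcases Nat.eq_zero_or_pos dm with h0 | h0
      · have hdm : (dm : ℝ) = 0 := by rw [h0]; norm_num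
        have hs0' : s ^ 2 ≤ 0 := by
          have : (8 * (dm : ℝ)) * s2 = 0 := by rw [hdm]; ring
          linarith
        have hs0'' : s = 0 := by nlinarith
        rw [hs0'', hndef, hdm]
        nlinarith
      · have hdm : (1 : ℝ) ≤ dm := by exact_mod_cast h0
        have hq : 0 < (8 * (dm : ℝ)) := by linarith
        -- (s+t)^2 ≤ (1 + q) (s^2/q + t^2)
        have e2 : (s + t) ^ 2 ≤ (8 * (dm : ℝ) + 1) * (s ^ 2 / (8 * dm) + t ^ 2) := by
          have e3 : (8 * (dm : ℝ) + 1) * (s ^ 2 / (8 * dm) + t ^ 2) - (s + t) ^ 2 =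
              (s - 8 * dm * t) ^ 2 / (8 * dm) := by
            field_simp
            ring
          have e4 : 0 ≤ (s - 8 * (dm : ℝ) * t) ^ 2 / (8 * dm) := by positivity
          linarith
        have e5 : s ^ 2 / (8 * dm) ≤ s2 := by
          rw [div_le_iff₀ hq]; linarith
        rw [hndef]
        refine e2.trans (mul_le_mul_of_nonneg_left (by linarith) (by linarith))
    calc ‖S.q1 φ D' β f w - S.q1 φ D β f w‖ ^ 2 ≤ ((a + b) * ε * (s + t)) ^ 2 :=
          pow_le_pow_left₀ (norm_nonneg _) h1 2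
      _ = (a + b) ^ 2 * ε ^ 2 * (s + t) ^ 2 := by ring
      _ ≤ (a + b) ^ 2 * ε ^ 2 * (n * (s2 + t ^ 2)) :=
          mul_le_mul_of_nonneg_left h2 (by positivity)
      _ ≤ (n * (a + b) ^ 2 + 1) * ε ^ 2 * (s2 + t ^ 2) := by
          have : 0 ≤ ε ^ 2 * (s2 + t ^ 2) := by positivity
          nlinarith
  exact pert_integrate hf (fun w => S.q1 φ D' β f w - S.q1 φ D β f w) _ hsq

end Vale.Agent.P353.Z
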