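import Vale.Agent.P353.AN.B.Stmt

/-! # P353, all `N`, block B: Gaussian Poincaré inequality (B-Poi, owner helper777) -/

open MeasureTheory Filter Topology Matrix
open scoped ContDiff

namespace Vale.Agent.P353.Z

namespace Poi

/-- weighted Cauchy-Schwarz -/
lemma cs_one {α : Type*} [MeasurableSpace α] (μ : Measure α) {w h : α → ℝ} (hw : ∀ x, 0 ≤ w x)
    (i0 : Integrable w μ) (i1 : Integrable (fun x => w x * h x) μ)
    (i2 : Integrable (fun x => w x * h x ^ 2) μ) :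
    (∫ x, w x * h x ∂μ) ^ 2 ≤ (∫ x, w x ∂μ) * ∫ x, w x * h x ^ 2 ∂μ := by
  have key : ∀ t : ℝ, 0 ≤ (∫ x, w x ∂μ) * (t * t) + (-2 * ∫ x, w x * h x ∂μ) * t +
      ∫ x, w x * h x ^ 2 ∂μ := by
    intro t
    have h1 : 0 ≤ ∫ x, w x * (h x - t) ^ 2 ∂μ :=
      integral_nonneg fun x => mul_nonneg (hw x) (sq_nonneg _)
    have e : ∀ x, w x * (h x - t) ^ 2 =
        (w x * (t * t) + (-2 * (w x * h x)) * t) + w x * h x ^ 2 := fun x => by ring
    simp only [e] at h1
    have j0 : Integrable (fun x => w x * (t * t)) μ := i0.mul_const _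
    have j1 : Integrable (fun x => -2 * (w x * h x) * t) μ := (i1.const_mul _).mul_const _
    have j01 : Integrable (fun x => w x * (t * t) + -2 * (w x * h x) * t) μ := j0.add j1
    rw [integral_add j01 i2, integral_add j0 j1, integral_mul_const,
      integral_mul_const, integral_const_mul] at h1
    exact h1
  have := discrim_le_zero key
  unfold discrim at this
  nlinarith

section Gen

variable {E : Type*} [NormedAddCommGroup E] [InnerProductSpace ℝ E] [FiniteDimensional ℝ E]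
  [MeasurableSpace E] [BorelSpace E]

lemma int_gauss {b : ℝ} (hb : 0 < b) : Integrable (fun v : E => Real.exp (-b * ‖v‖ ^ 2)) := by
  have h := (GaussianFourier.integrable_cexp_neg_mul_sq_norm_add (V := E) (b := (b : ℂ))
    (by simpa using hb) 0 0).norm
  refine h.congr (Eventually.of_forall fun v => ?_)
  simp only [Complex.norm_exp]
  congr 1
  simp [← Complex.ofReal_pow]

omit [FiniteDimensional ℝ E] [MeasurableSpace E] [BorelSpace E] in
/-- the rotation -/
noncomputable def rot (s c : ℝ) : (E × E) →ₗ[ℝ] (E × E) where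
  toFun p := (s • p.1 + c • p.2, c • p.1 - s • p.2)
  map_add' p q := by
    ext <;> simp only [Prod.fst_add, Prod.snd_add] <;> module
  map_smul' a p := by
    ext <;> simp only [Prod.smul_fst, Prod.smul_snd, RingHom.id_apply] <;> module

omit [FiniteDimensional ℝ E] [MeasurableSpace E] [BorelSpace E] in
lemma rot_apply (s c : ℝ) (p : E × E) :
    rot s c p = (s • p.1 + c • p.2, c • p.1 - s • p.2) := rfl

omit [FiniteDimensional ℝ E] [MeasurableSpace E] [BorelSpace E] in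
lemma rot_rot {s c : ℝ} (h : s ^ 2 + c ^ 2 = 1) (p : E × E) : rot s c (rot s c p) = p := by
  have h1 : ∀ x y : E, s • (s • x + c • y) + c • (c • x - s • y) = x := by
    intro x y
    have : s • (s • x + c • y) + c • (c • x - s • y) = (s ^ 2 + c ^ 2) • x := by module
    rw [this, h, one_smul]
  have h2 : ∀ x y : E, c • (s • x + c • y) - s • (c • x - s • y) = y := by
    intro x y
    have : c • (s • x + c • y) - s • (c • x - s • y) = (s ^ 2 + c ^ 2) • y := by module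
    rw [this, h, one_smul]
  rw [rot_apply, rot_apply]
  exact Prod.ext (h1 _ _) (h2 _ _)

lemma rot_mp {s c : ℝ} (h : s ^ 2 + c ^ 2 = 1) :
    MeasurePreserving (rot s c : E × E → E × E) (volume : Measure (E × E)) volume := by
  have hcomp : (rot s c : (E × E) →ₗ[ℝ] (E × E)) ∘ₗ rot s c = LinearMap.id :=
    LinearMap.ext (rot_rot h)
  have hdet : LinearMap.det (rot s c : (E × E) →ₗ[ℝ] (E × E)) *
      LinearMap.det (rot s c : (E × E) →ₗ[ℝ] (E × E)) = 1 := by
    rw [← LinearMap.det_comp, hcomp, LinearMap.det_id]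
  have hne : LinearMap.det (rot s c : (E × E) →ₗ[ℝ] (E × E)) ≠ 0 :=
    left_ne_zero_of_mul_eq_one hdet
  have habs : |(LinearMap.det (rot s c : (E × E) →ₗ[ℝ] (E × E)))⁻¹| = 1 := by
    rw [abs_inv]
    have : |LinearMap.det (rot s c : (E × E) →ₗ[ℝ] (E × E))| ^ 2 = 1 := by
      rw [sq_abs, pow_two, hdet]
    rw [(pow_eq_one_iff_of_nonneg (abs_nonneg _) two_ne_zero).1 this, inv_one]
  refine ⟨(LinearMap.continuous_of_finiteDimensional _).measurable, ?_⟩
  have := Measure.map_linearMap_addHaar_eq_smul_addHaar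
    ((volume : Measure E).prod (volume : Measure E)) hne
  rw [habs, ENNReal.ofReal_one, one_smul] at this
  exact this

omit [FiniteDimensional ℝ E] [MeasurableSpace E] [BorelSpace E] in
lemma path_bound {F : Type*} [NormedAddCommGroup F] [NormedSpace ℝ F] [CompleteSpace F]
    {u : E → F} (hu : ContDiff ℝ 1 u) {G : E → ℝ} (hG : Continuous G)
    (hb : ∀ x v, ‖fderiv ℝ u x v‖ ^ 2 ≤ G x * ‖v‖ ^ 2) (x y : E) :
    ‖u x - u y‖ ^ 2 ≤ (Real.pi / 2) * ∫ θ in Set.Ioc 0 (Real.pi / 2),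
      G (Real.sin θ • x + Real.cos θ • y) * ‖Real.cos θ • x - Real.sin θ • y‖ ^ 2 := by
  have hpi : (0 : ℝ) ≤ Real.pi / 2 := by positivity
  have hX : ∀ θ : ℝ, HasDerivAt (fun θ => Real.sin θ • x + Real.cos θ • y)
      (Real.cos θ • x - Real.sin θ • y) θ := by
    intro θ
    have h1 := ((Real.hasDerivAt_sin θ).smul_const x).add ((Real.hasDerivAt_cos θ).smul_const y)
    rw [neg_smul, ← sub_eq_add_neg] at h1
    exact h1
  have hφ : ∀ θ : ℝ, HasDerivAt (fun θ => u (Real.sin θ • x + Real.cos θ • y))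
      (fderiv ℝ u (Real.sin θ • x + Real.cos θ • y) (Real.cos θ • x - Real.sin θ • y)) θ := by
    intro θ
    exact ((hu.differentiable (by simp)) _).hasFDerivAt.comp_hasDerivAt θ (hX θ)
  have hc1 : Continuous fun θ : ℝ => Real.sin θ • x + Real.cos θ • y := by fun_prop
  have hc2 : Continuous fun θ : ℝ => Real.cos θ • x - Real.sin θ • y := by fun_prop
  have hcd : Continuous fun θ : ℝ =>
      fderiv ℝ u (Real.sin θ • x + Real.cos θ • y) (Real.cos θ • x - Real.sin θ • y) :=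
    ((hu.continuous_fderiv (by simp)).comp hc1).clm_apply hc2
  have hint := intervalIntegral.integral_eq_sub_of_hasDerivAt (a := 0) (b := Real.pi / 2)
    (fun θ _ => hφ θ) (hcd.intervalIntegrable _ _)
  simp only [Real.sin_pi_div_two, Real.cos_pi_div_two, Real.sin_zero, Real.cos_zero, one_smul,
    zero_smul, add_zero, zero_add] at hint
  have hn := intervalIntegral.norm_integral_le_integral_norm (f := fun θ : ℝ =>
      fderiv ℝ u (Real.sin θ • x + Real.cos θ • y) (Real.cos θ • x - Real.sin θ • y))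
      (μ := volume) hpi
  rw [hint, intervalIntegral.integral_of_le hpi] at hn
  have hcs := cs_one (volume.restrict (Set.Ioc 0 (Real.pi / 2))) (w := fun _ => (1 : ℝ))
    (h := fun θ : ℝ =>
      ‖fderiv ℝ u (Real.sin θ • x + Real.cos θ • y) (Real.cos θ • x - Real.sin θ • y)‖)
    (fun _ => zero_le_one) (integrable_const _)
    (by simp only [one_mul]; exact hcd.norm.integrableOn_Ioc)
    (by simp only [one_mul]; exact (hcd.norm.pow 2).integrableOn_Ioc)
  simp only [one_mul] at hcs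
  have hone : ∫ _θ in Set.Ioc (0 : ℝ) (Real.pi / 2), (1 : ℝ) = Real.pi / 2 := by
    simp [hpi]
  rw [hone] at hcs
  have hmono : ∫ θ in Set.Ioc 0 (Real.pi / 2),
      ‖fderiv ℝ u (Real.sin θ • x + Real.cos θ • y) (Real.cos θ • x - Real.sin θ • y)‖ ^ 2 ≤
      ∫ θ in Set.Ioc 0 (Real.pi / 2),
      G (Real.sin θ • x + Real.cos θ • y) * ‖Real.cos θ • x - Real.sin θ • y‖ ^ 2 := by
    refine integral_mono ((hcd.norm.pow 2).integrableOn_Ioc)
      (((hG.comp hc1).mul (hc2.norm.pow 2)).integrableOn_Ioc) fun θ => ?_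
    exact hb _ _
  calc ‖u x - u y‖ ^ 2 ≤ _ := pow_le_pow_left₀ (norm_nonneg _) hn 2
    _ ≤ _ := hcs
    _ ≤ _ := mul_le_mul_of_nonneg_left hmono hpi

lemma main_lint {F : Type*} [NormedAddCommGroup F] [NormedSpace ℝ F] [CompleteSpace F]
    {u : E → F} (hu : ContDiff ℝ 1 u) {G : E → ℝ} (hG : Continuous G) (hG0 : ∀ x, 0 ≤ G x)
    (hb : ∀ x v, ‖fderiv ℝ u x v‖ ^ 2 ≤ G x * ‖v‖ ^ 2) {γ : E → ℝ} (hγc : Continuous γ)
    (hγ0 : ∀ x, 0 ≤ γ x) (hγr : ∀ s c : ℝ, s ^ 2 + c ^ 2 = 1 → ∀ x y,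
      γ (s • x + c • y) * γ (c • x - s • y) = γ x * γ y) :
    ∫⁻ p : E × E, ENNReal.ofReal (γ p.1 * γ p.2 * ‖u p.1 - u p.2‖ ^ 2) ≤
      ENNReal.ofReal ((Real.pi / 2) ^ 2) *
        ∫⁻ p : E × E, ENNReal.ofReal (γ p.1 * γ p.2 * (G p.1 * ‖p.2‖ ^ 2)) := by
  have hpi : (0 : ℝ) ≤ Real.pi / 2 := by positivity
  let H : E × E → ℝ := fun p => γ p.1 * γ p.2 * (G p.1 * ‖p.2‖ ^ 2)
  have hHc : Continuous H := by fun_prop
  have hH0 : ∀ p, 0 ≤ H p := fun p =>
    mul_nonneg (mul_nonneg (hγ0 _) (hγ0 _)) (mul_nonneg (hG0 _) (sq_nonneg _))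
  have hrc : Continuous fun q : (E × E) × ℝ => H (rot (Real.sin q.2) (Real.cos q.2) q.1) := by
    refine hHc.comp ?_
    simp only [rot_apply]
    fun_prop
  have hpt : ∀ p : E × E, ENNReal.ofReal (γ p.1 * γ p.2 * ‖u p.1 - u p.2‖ ^ 2) ≤
      ∫⁻ θ in Set.Ioc 0 (Real.pi / 2),
        ENNReal.ofReal ((Real.pi / 2) * H (rot (Real.sin θ) (Real.cos θ) p)) := by
    intro p
    have hcθ : Continuous fun θ : ℝ => (Real.pi / 2) * H (rot (Real.sin θ) (Real.cos θ) p) :=
      (hrc.comp (Continuous.prodMk_right p)).const_mul _ |> fun h => h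
    rw [← ofReal_integral_eq_lintegral_ofReal (hcθ.integrableOn_Ioc)
      (Eventually.of_forall fun θ => mul_nonneg hpi (hH0 _))]
    refine ENNReal.ofReal_le_ofReal ?_
    have h1 := path_bound hu hG hb p.1 p.2
    have h2 : 0 ≤ γ p.1 * γ p.2 := mul_nonneg (hγ0 _) (hγ0 _)
    refine (mul_le_mul_of_nonneg_left h1 h2).trans (le_of_eq ?_)
    rw [← integral_const_mul, ← integral_const_mul]
    refine setIntegral_congr_fun measurableSet_Ioc fun θ _ => ?_
    have h3 := hγr (Real.sin θ) (Real.cos θ) (Real.sin_sq_add_cos_sq θ) p.1 p.2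
    simp only [H, rot_apply]
    rw [h3]
    ring
  calc ∫⁻ p : E × E, ENNReal.ofReal (γ p.1 * γ p.2 * ‖u p.1 - u p.2‖ ^ 2)
      ≤ ∫⁻ p : E × E, ∫⁻ θ in Set.Ioc 0 (Real.pi / 2),
        ENNReal.ofReal ((Real.pi / 2) * H (rot (Real.sin θ) (Real.cos θ) p)) := lintegral_mono hpt
    _ = ∫⁻ θ in Set.Ioc 0 (Real.pi / 2), ∫⁻ p : E × E,
        ENNReal.ofReal ((Real.pi / 2) * H (rot (Real.sin θ) (Real.cos θ) p)) := by
        refine lintegral_lintegral_swap ?_
        exact ((continuous_const.mul hrc).measurable.ennreal_ofReal).aemeasurable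
    _ = ∫⁻ _θ in Set.Ioc 0 (Real.pi / 2), ∫⁻ p : E × E,
        ENNReal.ofReal ((Real.pi / 2) * H p) := by
        refine lintegral_congr fun θ => ?_
        exact (rot_mp (Real.sin_sq_add_cos_sq θ)).lintegral_comp
          (f := fun p : E × E => ENNReal.ofReal ((Real.pi / 2) * H p))
          ((continuous_const.mul hHc).measurable.ennreal_ofReal)
    _ = ENNReal.ofReal ((Real.pi / 2) ^ 2) * ∫⁻ p : E × E, ENNReal.ofReal (H p) := by
        rw [lintegral_const, Measure.restrict_apply_univ, Real.volume_Ioc, sub_zero]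
        simp only [ENNReal.ofReal_mul hpi]
        rw [lintegral_const_mul _ hHc.measurable.ennreal_ofReal, pow_two,
          ENNReal.ofReal_mul hpi]
        ring

/-- the Gaussian weights -/
lemma gauss_facts (M : E →L[ℝ] E) {c : ℝ} (hc : 0 < c) (hM : ∀ w, c * ‖w‖ ^ 2 ≤ inner ℝ w (M w)) :
    Integrable (fun w : E => Real.exp (-inner ℝ w (M w))) ∧
    Integrable (fun w : E => Real.exp (-inner ℝ w (M w)) * ‖w‖ ^ 2) ∧
    0 < ∫ w : E, Real.exp (-inner ℝ w (M w)) ∧
    c * ∫ w : E, Real.exp (-inner ℝ w (M w)) * ‖w‖ ^ 2 ≤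
      |(Real.sqrt 2) ^ Module.finrank ℝ E| * ∫ w : E, Real.exp (-inner ℝ w (M w)) := by
  have hq : Continuous fun w : E => inner ℝ w (M w) := by fun_prop
  have i1 : Integrable (fun w : E => Real.exp (-inner ℝ w (M w))) := by
    refine (int_gauss hc).mono' (hq.neg.rexp).aestronglyMeasurable
      (Eventually.of_forall fun w => ?_)
    rw [Real.norm_of_nonneg (Real.exp_pos _).le]
    exact Real.exp_le_exp.2 (by have := hM w; linarith)
  have i3 : Integrable (fun w : E => Real.exp (-(1 / 2) * inner ℝ w (M w))) := by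
    refine (int_gauss (half_pos hc)).mono' ((continuous_const.mul hq).rexp).aestronglyMeasurable
      (Eventually.of_forall fun w => ?_)
    rw [Real.norm_of_nonneg (Real.exp_pos _).le]
    exact Real.exp_le_exp.2 (by have := hM w; linarith)
  have hpt : ∀ w : E, c * (Real.exp (-inner ℝ w (M w)) * ‖w‖ ^ 2) ≤
      Real.exp (-(1 / 2) * inner ℝ w (M w)) := by
    intro w
    have h1 := hM w
    have h2 : 0 ≤ inner ℝ w (M w) := le_trans (by positivity) h1
    have h3 : inner ℝ w (M w) * Real.exp (-(1 / 2) * inner ℝ w (M w)) ≤ 1 := by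
      have h4 := Real.add_one_le_exp ((1 / 2) * inner ℝ w (M w) - 1)
      have h5 : Real.exp ((1 / 2) * inner ℝ w (M w) - 1) * Real.exp (-(1 / 2) * inner ℝ w (M w)) =
          Real.exp (-1) := by
        rw [← Real.exp_add]; congr 1; ring
      have h6 : Real.exp (-1) ≤ 1 / 2 := by
        rw [Real.exp_neg, inv_le_comm₀ (Real.exp_pos _) (by norm_num)]
        have := Real.add_one_le_exp (1 : ℝ)
        norm_num at this ⊢
        linarith
      have h7 := mul_le_mul_of_nonneg_right h4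
        (Real.exp_pos (-(1 / 2) * inner ℝ w (M w))).le
      rw [h5] at h7
      nlinarith
    have h8 : Real.exp (-inner ℝ w (M w)) = Real.exp (-(1 / 2) * inner ℝ w (M w)) *
        Real.exp (-(1 / 2) * inner ℝ w (M w)) := by
      rw [← Real.exp_add]; congr 1; ring
    calc c * (Real.exp (-inner ℝ w (M w)) * ‖w‖ ^ 2)
        = (c * ‖w‖ ^ 2) * Real.exp (-inner ℝ w (M w)) := by ring
      _ ≤ inner ℝ w (M w) * Real.exp (-inner ℝ w (M w)) :=
          mul_le_mul_of_nonneg_right h1 (Real.exp_pos _).le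
      _ = (inner ℝ w (M w) * Real.exp (-(1 / 2) * inner ℝ w (M w))) *
          Real.exp (-(1 / 2) * inner ℝ w (M w)) := by rw [h8]; ring
      _ ≤ 1 * Real.exp (-(1 / 2) * inner ℝ w (M w)) :=
          mul_le_mul_of_nonneg_right h3 (Real.exp_pos _).le
      _ = _ := one_mul _
  have i2' : Integrable (fun w : E => c * (Real.exp (-inner ℝ w (M w)) * ‖w‖ ^ 2)) := by
    refine i3.mono' (continuous_const.mul (hq.neg.rexp.mul
      (continuous_norm.pow 2))).aestronglyMeasurable (Eventually.of_forall fun w => ?_)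
    rw [Real.norm_of_nonneg (by positivity)]
    exact hpt w
  have i2 : Integrable (fun w : E => Real.exp (-inner ℝ w (M w)) * ‖w‖ ^ 2) := by
    have := i2'.const_mul c⁻¹
    refine this.congr (Eventually.of_forall fun w => ?_)
    simp only []
    rw [← mul_assoc, inv_mul_cancel₀ hc.ne', one_mul]
  have hpos : 0 < ∫ w : E, Real.exp (-inner ℝ w (M w)) := by
    rw [integral_pos_iff_support_of_nonneg (fun w => (Real.exp_pos _).le) i1]
    have : Function.support (fun w : E => Real.exp (-inner ℝ w (M w))) = Set.univ := by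
      ext w; simp [(Real.exp_pos _).ne']
    rw [this]
    exact Measure.measure_univ_pos.2 (NeZero.ne _)
  refine ⟨i1, i2, hpos, ?_⟩
  have hsc := Measure.integral_comp_inv_smul (volume : Measure E)
    (fun w : E => Real.exp (-inner ℝ w (M w))) (Real.sqrt 2)
  rw [smul_eq_mul] at hsc
  rw [← hsc, ← integral_const_mul]
  refine integral_mono i2' ?_ fun w => ?_
  · refine i3.congr (Eventually.of_forall fun w => ?_)
    simp only [map_smul, inner_smul_left, inner_smul_right, conj_trivial]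
    congr 1
    have : (Real.sqrt 2)⁻¹ * ((Real.sqrt 2)⁻¹ * inner ℝ w (M w)) = (1 / 2) * inner ℝ w (M w) := by
      rw [← mul_assoc, ← mul_inv, Real.mul_self_sqrt (by norm_num)]; norm_num
    rw [this]; ring
  · refine (hpt w).trans (le_of_eq ?_)
    simp only [map_smul, inner_smul_left, inner_smul_right, conj_trivial]
    congr 1
    have : (Real.sqrt 2)⁻¹ * ((Real.sqrt 2)⁻¹ * inner ℝ w (M w)) = (1 / 2) * inner ℝ w (M w) := by
      rw [← mul_assoc, ← mul_inv, Real.mul_self_sqrt (by norm_num)]; norm_num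
    rw [this]; ring

/-- Poincaré inequality for `μ = γ dx`, `γ = g²`, in terms of `u`. -/
lemma poi_u {F : Type*} [NormedAddCommGroup F] [NormedSpace ℝ F] [CompleteSpace F]
    {u : E → F} (hu : ContDiff ℝ 1 u) (hcs : HasCompactSupport u) {G : E → ℝ} (hG : Continuous G)
    (hG0 : ∀ x, 0 ≤ G x) (hb : ∀ x v, ‖fderiv ℝ u x v‖ ^ 2 ≤ G x * ‖v‖ ^ 2)
    {g : E → ℝ} (hgc : Continuous g) (hg0 : ∀ x, 0 ≤ g x)
    (hi1 : Integrable (fun x => g x ^ 2)) (hi2 : Integrable (fun x => g x ^ 2 * ‖x‖ ^ 2))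
    (hiG : Integrable (fun x => g x ^ 2 * G x)) (hZ : 0 < ∫ x, g x ^ 2)
    (hγr : ∀ s c : ℝ, s ^ 2 + c ^ 2 = 1 → ∀ x y,
      g (s • x + c • y) ^ 2 * g (c • x - s • y) ^ 2 = g x ^ 2 * g y ^ 2) :
    ∫ x, ‖g x • u x - (g x / ∫ w, g w ^ 2) • ∫ w, g w ^ 2 • u w‖ ^ 2 ≤
      (∫ w, g w ^ 2)⁻¹ * (Real.pi / 2) ^ 2 * (∫ x, g x ^ 2 * ‖x‖ ^ 2) * ∫ x, g x ^ 2 * G x := by
  obtain ⟨Z, hZe⟩ : ∃ Z : ℝ, Z = ∫ w, g w ^ 2 := ⟨_, rfl⟩
  rw [← hZe] at hZ ⊢
  obtain ⟨I, hIe⟩ : ∃ I : F, I = ∫ w, g w ^ 2 • u w := ⟨_, rfl⟩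
  rw [← hIe]
  obtain ⟨Cu, hCu⟩ := hcs.exists_bound_of_continuous hu.continuous
  have hiu : Integrable (fun w => g w ^ 2 • u w) := by
    refine ((hgc.pow 2).smul hu.continuous).integrable_of_hasCompactSupport ?_
    exact hcs.smul_left
  have hdiff : ∀ x, Integrable (fun y => g y ^ 2 * ‖u x - u y‖) := by
    intro x
    refine (hi1.mul_const (Cu + Cu)).mono' ((hgc.pow 2).mul
      (continuous_const.sub hu.continuous).norm).aestronglyMeasurable
      (Eventually.of_forall fun y => ?_)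
    rw [Real.norm_of_nonneg (by positivity)]
    exact mul_le_mul_of_nonneg_left ((norm_sub_le _ _).trans (add_le_add (hCu x) (hCu y)))
      (sq_nonneg _)
  have hdiff2 : ∀ x, Integrable (fun y => g y ^ 2 * ‖u x - u y‖ ^ 2) := by
    intro x
    refine (hi1.mul_const ((Cu + Cu) ^ 2)).mono' ((hgc.pow 2).mul
      ((continuous_const.sub hu.continuous).norm.pow 2)).aestronglyMeasurable
      (Eventually.of_forall fun y => ?_)
    rw [Real.norm_of_nonneg (by positivity)]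
    exact mul_le_mul_of_nonneg_left (pow_le_pow_left₀ (norm_nonneg _)
      ((norm_sub_le _ _).trans (add_le_add (hCu x) (hCu y))) 2) (sq_nonneg _)
  -- pointwise
  have hpt : ∀ x, ‖g x • u x - (g x / Z) • I‖ ^ 2 ≤
      Z⁻¹ * ∫ y, g x ^ 2 * g y ^ 2 * ‖u x - u y‖ ^ 2 := by
    intro x
    have e1 : g x • u x - (g x / Z) • I = (g x / Z) • ∫ y, g y ^ 2 • (u x - u y) := by
      have e2 : ∫ y, g y ^ 2 • (u x - u y) = Z • u x - I := by
        have e3 : ∀ y, g y ^ 2 • (u x - u y) = g y ^ 2 • u x - g y ^ 2 • u y := fun y =>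
          smul_sub _ _ _
        simp only [e3]
        rw [integral_sub (hi1.smul_const (u x)) hiu, integral_smul_const, ← hZe, ← hIe]
      rw [e2, smul_sub, smul_smul, div_mul_cancel₀ _ hZ.ne']
    have e4 : ‖∫ y, g y ^ 2 • (u x - u y)‖ ≤ ∫ y, g y ^ 2 * ‖u x - u y‖ := by
      refine (norm_integral_le_integral_norm _).trans (le_of_eq ?_)
      refine integral_congr_ae (Eventually.of_forall fun y => ?_)
      simp only [norm_smul, Real.norm_of_nonneg (sq_nonneg (g y))]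
    have e5 := cs_one (volume : Measure E) (w := fun y => g y ^ 2)
      (h := fun y => ‖u x - u y‖) (fun y => sq_nonneg _) hi1 (hdiff x) (hdiff2 x)
    rw [← hZe] at e5
    rw [e1, norm_smul, Real.norm_of_nonneg (div_nonneg (hg0 x) hZ.le), mul_pow]
    have e6 : ∫ y, g x ^ 2 * g y ^ 2 * ‖u x - u y‖ ^ 2 =
        g x ^ 2 * ∫ y, g y ^ 2 * ‖u x - u y‖ ^ 2 := by
      rw [← integral_const_mul]
      exact integral_congr_ae (Eventually.of_forall fun y => by simp only []; ring)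
    rw [e6]
    calc (g x / Z) ^ 2 * ‖∫ y, g y ^ 2 • (u x - u y)‖ ^ 2
        ≤ (g x / Z) ^ 2 * (Z * ∫ y, g y ^ 2 * ‖u x - u y‖ ^ 2) :=
          mul_le_mul_of_nonneg_left
            ((pow_le_pow_left₀ (norm_nonneg _) e4 2).trans e5) (sq_nonneg _)
      _ = Z⁻¹ * (g x ^ 2 * ∫ y, g y ^ 2 * ‖u x - u y‖ ^ 2) := by
          field_simp
  have hmain := main_lint hu hG hG0 hb (γ := fun x => g x ^ 2) (hgc.pow 2)
    (fun x => sq_nonneg _) hγr
  -- right hand side
  have hR : ∫⁻ p : E × E, ENNReal.ofReal (g p.1 ^ 2 * g p.2 ^ 2 * (G p.1 * ‖p.2‖ ^ 2)) =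
      ENNReal.ofReal ((∫ x, g x ^ 2 * G x) * ∫ x, g x ^ 2 * ‖x‖ ^ 2) := by
    have e1 : ∀ p : E × E, ENNReal.ofReal (g p.1 ^ 2 * g p.2 ^ 2 * (G p.1 * ‖p.2‖ ^ 2)) =
        ENNReal.ofReal (g p.1 ^ 2 * G p.1) * ENNReal.ofReal (g p.2 ^ 2 * ‖p.2‖ ^ 2) := by
      intro p
      rw [← ENNReal.ofReal_mul (mul_nonneg (sq_nonneg _) (hG0 _))]
      congr 1; ring
    simp only [e1]
    rw [ENNReal.ofReal_mul (integral_nonneg fun x => mul_nonneg (sq_nonneg _) (hG0 _)),
      ofReal_integral_eq_lintegral_ofReal hiG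
        (Eventually.of_forall fun x => mul_nonneg (sq_nonneg _) (hG0 _)),
      ofReal_integral_eq_lintegral_ofReal hi2
        (Eventually.of_forall fun x => mul_nonneg (sq_nonneg _) (sq_nonneg _))]
    exact lintegral_prod_mul ((hgc.pow 2).mul hG).measurable.ennreal_ofReal.aemeasurable
      ((hgc.pow 2).mul (continuous_norm.pow 2)).measurable.ennreal_ofReal.aemeasurable
  rw [hR, ← ENNReal.ofReal_mul (sq_nonneg _)] at hmain
  -- left hand side
  have hL : ∫⁻ x, ENNReal.ofReal (‖g x • u x - (g x / Z) • I‖ ^ 2) ≤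
      ENNReal.ofReal Z⁻¹ *
        ∫⁻ p : E × E, ENNReal.ofReal (g p.1 ^ 2 * g p.2 ^ 2 * ‖u p.1 - u p.2‖ ^ 2) := by
    have hm : Continuous fun p : E × E => g p.1 ^ 2 * g p.2 ^ 2 * ‖u p.1 - u p.2‖ ^ 2 := by
      have := hu.continuous
      fun_prop
    have e1 : ∫⁻ p : E × E, ENNReal.ofReal (g p.1 ^ 2 * g p.2 ^ 2 * ‖u p.1 - u p.2‖ ^ 2) =
        ∫⁻ x, ∫⁻ y, ENNReal.ofReal (g x ^ 2 * g y ^ 2 * ‖u x - u y‖ ^ 2) :=
      lintegral_prod _ hm.measurable.ennreal_ofReal.aemeasurable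
    rw [e1, ← lintegral_const_mul' _ _ ENNReal.ofReal_ne_top]
    refine lintegral_mono fun x => ?_
    have hix : Integrable (fun y => g x ^ 2 * g y ^ 2 * ‖u x - u y‖ ^ 2) := by
      refine ((hdiff2 x).const_mul (g x ^ 2)).congr (Eventually.of_forall fun y => ?_)
      simp only []; ring
    rw [← ofReal_integral_eq_lintegral_ofReal hix (Eventually.of_forall fun y => by positivity),
      ← ENNReal.ofReal_mul (inv_nonneg.2 hZ.le)]
    exact ENNReal.ofReal_le_ofReal (hpt x)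
  have hfin : ∫⁻ x, ENNReal.ofReal (‖g x • u x - (g x / Z) • I‖ ^ 2) ≤
      ENNReal.ofReal (Z⁻¹ * (Real.pi / 2) ^ 2 * (∫ x, g x ^ 2 * ‖x‖ ^ 2) *
        ∫ x, g x ^ 2 * G x) := by
    refine (hL.trans (mul_le_mul_right hmain _)).trans (le_of_eq ?_)
    rw [← ENNReal.ofReal_mul (inv_nonneg.2 hZ.le)]
    congr 1; ring
  have hFc : Continuous fun x => ‖g x • u x - (g x / Z) • I‖ ^ 2 := by
    have := hu.continuous
    fun_prop
  rw [integral_eq_lintegral_of_nonneg_ae (Eventually.of_forall fun x => sq_nonneg _)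
    hFc.aestronglyMeasurable]
  refine ENNReal.toReal_le_of_le_ofReal ?_ hfin
  have h1 : 0 ≤ ∫ x, g x ^ 2 * ‖x‖ ^ 2 := integral_nonneg fun x => by positivity
  have h2 : 0 ≤ ∫ x, g x ^ 2 * G x := integral_nonneg fun x => mul_nonneg (sq_nonneg _) (hG0 _)
  positivity

end Gen

end Poi

open Poi in
/-- **B-Poi**, explicit form: the constant is `c1 · λ_min(M)` with `c1` depending only on `dm`. -/
theorem poi_explicit (dm : ℕ) (F : Type*) [NormedAddCommGroup F] [InnerProductSpace ℂ F]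
    [CompleteSpace F] :
    ∃ c1 : ℝ, 0 < c1 ∧ ∀ M : Wsp dm →L[ℝ] Wsp dm, (∀ v w, inner ℝ (M v) w = inner ℝ v (M w)) →
    ∀ c : ℝ, 0 < c → (∀ w, c * ‖w‖ ^ 2 ≤ inner ℝ w (M w)) → ∀ f : Wsp dm → F, FT f →
    c1 * c * nsf (fun w => f w - ((Real.exp (-(1 / 2) * inner ℝ w (M w)) /
      ∫ w' : Wsp dm, Real.exp (-(1 / 2) * inner ℝ w' (M w')) ^ 2 : ℝ) : ℂ) •
        ∫ w', ((Real.exp (-(1 / 2) * inner ℝ w' (M w')) : ℝ) : ℂ) • f w') ≤
      ∑ j, ∑ B, nsf (fun w => pf j B f w + ((M w (j, B) : ℝ) : ℂ) • f w) := by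
  obtain ⟨κ, hκ⟩ : ∃ κ : ℝ, κ = |(Real.sqrt 2) ^ Module.finrank ℝ (Wsp dm)| := ⟨_, rfl⟩
  have hκ0 : 0 < κ := by rw [hκ]; positivity
  refine ⟨((Real.pi / 2) ^ 2 * κ)⁻¹, by positivity, ?_⟩
  intro M hsym c hc hM f hf
  obtain ⟨i1, i2, hZ, hW⟩ := gauss_facts M hc hM
  rw [← hκ] at hW
  have hq : ContDiff ℝ ∞ fun w : Wsp dm => inner ℝ w (M w) := contDiff_id.inner ℝ M.contDiff
  let g : Wsp dm → ℝ := fun w => Real.exp (-(1 / 2) * inner ℝ w (M w))
  have hg2 : ∀ w, g w ^ 2 = Real.exp (-inner ℝ w (M w)) := by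
    intro w
    simp only [g]
    rw [← Real.exp_nat_mul]
    congr 1; push_cast; ring
  have hgc : Continuous g := by
    have := hq.continuous
    fun_prop
  have hg0 : ∀ w, 0 ≤ g w := fun w => (Real.exp_pos _).le
  let e : Wsp dm → ℝ := fun w => Real.exp ((1 / 2) * inner ℝ w (M w))
  have heg : ∀ w, g w * e w = 1 := by
    intro w
    simp only [g, e]
    rw [← Real.exp_add]
    have : -(1 / 2) * inner ℝ w (M w) + (1 / 2) * inner ℝ w (M w) = 0 := by ring
    rw [this, Real.exp_zero]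
  have hec : ContDiff ℝ ∞ e := (contDiff_const.mul hq).exp
  let u : Wsp dm → F := fun w => e w • f w
  have hu : ContDiff ℝ ∞ u := hec.smul hf.1
  have hucs : HasCompactSupport u := hf.2.smul_left
  let T : Fin 8 → Fin dm → Wsp dm → F := fun j B w => pf j B f w + ((M w (j, B) : ℝ) : ℂ) • f w
  have hpf : ∀ j B, Continuous (pf j B f) := fun j B =>
    (hf.1.continuous_fderiv (by simp)).clm_apply continuous_const
  have hMc : ∀ j B, Continuous fun w : Wsp dm => M w (j, B) := by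
    intro j B
    have := M.continuous
    fun_prop
  have hTc : ∀ j B, Continuous (T j B) := fun j B =>
    (hpf j B).add ((Complex.continuous_ofReal.comp (hMc j B)).smul hf.1.continuous)
  have hTs : ∀ j B, HasCompactSupport (T j B) := by
    intro j B
    refine HasCompactSupport.add ?_ hf.2.smul_left
    exact hf.2.fderiv_apply (𝕜 := ℝ) (EuclideanSpace.single (j, B) (1 : ℝ))
  -- derivative of u
  have hder : ∀ x v, fderiv ℝ u x v = e x • ∑ j, ∑ B, v (j, B) • T j B x := by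
    intro x v
    have h1 : HasFDerivAt (fun w : Wsp dm => inner ℝ w (M w))
        ((fderivInnerCLM ℝ (x, M x)).comp ((ContinuousLinearMap.id ℝ (Wsp dm)).prod M)) x :=
      (hasFDerivAt_id x).inner ℝ M.hasFDerivAt
    have h2 : HasFDerivAt e (e x • ((1 / 2 : ℝ) • ((fderivInnerCLM ℝ (x, M x)).comp
        ((ContinuousLinearMap.id ℝ (Wsp dm)).prod M)))) x := (h1.const_mul (1 / 2)).exp
    have h3 : HasFDerivAt u _ x := h2.smul ((hf.1.differentiable (by simp)) x).hasFDerivAt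
    rw [h3.fderiv]
    have hfd : fderiv ℝ f x v = ∑ j, ∑ B, v (j, B) • pf j B f x := by
      have hv : v = ∑ j, ∑ B, v (j, B) • (EuclideanSpace.single (j, B) (1 : ℝ) : Wsp dm) := by
        rw [← Fintype.sum_prod_type' (f := fun j B =>
          v (j, B) • (EuclideanSpace.single (j, B) (1 : ℝ) : Wsp dm))]
        ext p
        simp [Pi.single_apply]
      conv_lhs => rw [hv]
      simp only [map_sum, map_smul]
      rfl
    have hin : inner ℝ v (M x) = ∑ j, ∑ B, v (j, B) * M x (j, B) := by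
      rw [PiLp.inner_apply, Fintype.sum_prod_type]
      refine Finset.sum_congr rfl fun j _ => Finset.sum_congr rfl fun B _ => ?_
      simp [mul_comm]
    have hin2 : inner ℝ x (M v) = inner ℝ v (M x) := by
      rw [← hsym, real_inner_comm]
    simp only [_root_.add_apply, _root_.smul_apply,
      ContinuousLinearMap.smulRight_apply, ContinuousLinearMap.comp_apply,
      ContinuousLinearMap.prod_apply, ContinuousLinearMap.id_apply, fderivInnerCLM_apply,
      smul_eq_mul]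
    rw [hin2, hfd, hin]
    simp only [T, smul_add, Finset.sum_add_distrib]
    congr 1
    have hs : ∑ j, ∑ B, v (j, B) • ((M x (j, B) : ℝ) : ℂ) • f x =
        (∑ j, ∑ B, v (j, B) * M x (j, B)) • f x := by
      simp only [Finset.sum_smul, mul_smul, Complex.coe_smul]
    rw [hs, smul_smul]
    congr 1
    ring
  have hG : ∀ x v, ‖fderiv ℝ u x v‖ ^ 2 ≤ (e x ^ 2 * ∑ j, ∑ B, ‖T j B x‖ ^ 2) * ‖v‖ ^ 2 := by
    intro x v
    rw [hder, norm_smul, Real.norm_of_nonneg (Real.exp_pos _).le, mul_pow]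
    have h1 : ‖∑ j, ∑ B, v (j, B) • T j B x‖ ≤ ∑ p : Fin 8 × Fin dm, |v p| * ‖T p.1 p.2 x‖ := by
      rw [Fintype.sum_prod_type]
      refine (norm_sum_le _ _).trans (Finset.sum_le_sum fun j _ => ?_)
      refine (norm_sum_le _ _).trans (Finset.sum_le_sum fun B _ => ?_)
      rw [norm_smul, Real.norm_eq_abs]
    have h2 := Finset.sum_mul_sq_le_sq_mul_sq (Finset.univ : Finset (Fin 8 × Fin dm))
      (fun p => |v p|) (fun p => ‖T p.1 p.2 x‖)
    have h3 : ∑ p : Fin 8 × Fin dm, |v p| ^ 2 = ‖v‖ ^ 2 := by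
      rw [EuclideanSpace.norm_sq_eq]
      rfl
    rw [h3] at h2
    have h4 : ∑ p : Fin 8 × Fin dm, ‖T p.1 p.2 x‖ ^ 2 = ∑ j, ∑ B, ‖T j B x‖ ^ 2 := by
      rw [Fintype.sum_prod_type]
    rw [h4] at h2
    calc e x ^ 2 * ‖∑ j, ∑ B, v (j, B) • T j B x‖ ^ 2
        ≤ e x ^ 2 * (‖v‖ ^ 2 * ∑ j, ∑ B, ‖T j B x‖ ^ 2) :=
          mul_le_mul_of_nonneg_left ((pow_le_pow_left₀ (norm_nonneg _) h1 2).trans h2)
            (sq_nonneg _)
      _ = _ := by ring
  have hgG : ∀ x, g x ^ 2 * (e x ^ 2 * ∑ j, ∑ B, ‖T j B x‖ ^ 2) = ∑ j, ∑ B, ‖T j B x‖ ^ 2 := by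
    intro x
    rw [← mul_assoc, ← mul_pow, heg, one_pow, one_mul]
  have hTi : ∀ j B, Integrable (fun x => ‖T j B x‖ ^ 2) := by
    intro j B
    refine ((hTc j B).norm.pow 2).integrable_of_hasCompactSupport ?_
    refine (hTs j B).mono fun x hx => ?_
    rw [Function.mem_support] at hx ⊢
    intro h0
    apply hx
    simp [h0]
  have hTi2 : Integrable (fun x => ∑ j, ∑ B, ‖T j B x‖ ^ 2) :=
    integrable_finsetSum _ fun j _ => integrable_finsetSum _ fun B _ => hTi j B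
  have hrot : ∀ s c : ℝ, s ^ 2 + c ^ 2 = 1 → ∀ x y : Wsp dm,
      g (s • x + c • y) ^ 2 * g (c • x - s • y) ^ 2 = g x ^ 2 * g y ^ 2 := by
    intro s c hsc x y
    rw [hg2, hg2, hg2, hg2, ← Real.exp_add, ← Real.exp_add]
    congr 1
    simp only [map_add, map_sub, map_smul, inner_add_left, inner_add_right, inner_sub_left,
      inner_sub_right, inner_smul_left, inner_smul_right, conj_trivial]
    have : s ^ 2 = 1 - c ^ 2 := by linarith
    linear_combination (-(inner ℝ x (M x)) - inner ℝ y (M y)) * hsc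
  have hgi1 : Integrable (fun x => g x ^ 2) := by simpa only [hg2] using i1
  have hgi2 : Integrable (fun x => g x ^ 2 * ‖x‖ ^ 2) := by simpa only [hg2] using i2
  have hZ' : 0 < ∫ x, g x ^ 2 := by simpa only [hg2] using hZ
  have hW' : c * ∫ x, g x ^ 2 * ‖x‖ ^ 2 ≤ κ * ∫ x, g x ^ 2 := by simpa only [hg2] using hW
  have hmain := poi_u (hu.of_le (by simp)) hucs
    (G := fun x => e x ^ 2 * ∑ j, ∑ B, ‖T j B x‖ ^ 2)
    (by
      have h1 := hec.continuous
      exact (h1.pow 2).mul (continuous_finsetSum _ fun j _ => continuous_finsetSum _ fun B _ =>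
        (hTc j B).norm.pow 2))
    (fun x => by positivity) hG hgc hg0 hgi1 hgi2 (by simpa only [hgG] using hTi2) hZ' hrot
  simp only [hgG] at hmain
  rw [integral_finsetSum _ fun j _ => integrable_finsetSum _ fun B _ => hTi j B] at hmain
  have hsum : ∑ j, ∫ x, ∑ B, ‖T j B x‖ ^ 2 = ∑ j, ∑ B, nsf (T j B) := by
    refine Finset.sum_congr rfl fun j _ => ?_
    rw [integral_finsetSum _ fun B _ => hTi j B]
    rfl
  rw [hsum] at hmain
  have hLHS : nsf (fun w => f w - ((g w / ∫ w' : Wsp dm, g w' ^ 2 : ℝ) : ℂ) •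
        ∫ w', ((g w' : ℝ) : ℂ) • f w') =
      ∫ x, ‖g x • u x - (g x / ∫ w, g w ^ 2) • ∫ w, g w ^ 2 • u w‖ ^ 2 := by
    have e1 : ∀ x, g x • u x = f x := by
      intro x
      simp only [u]
      rw [smul_smul, heg, one_smul]
    have e2 : ∀ x, g x ^ 2 • u x = ((g x : ℝ) : ℂ) • f x := by
      intro x
      rw [pow_two, mul_smul, e1, Complex.coe_smul]
    unfold nsf
    simp only [e1, e2, Complex.coe_smul]
  change _ * _ * nsf (fun w => f w - ((g w / ∫ w' : Wsp dm, g w' ^ 2 : ℝ) : ℂ) •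
        ∫ w', ((g w' : ℝ) : ℂ) • f w') ≤ ∑ j, ∑ B, nsf (T j B)
  rw [hLHS]
  have hR0 : 0 ≤ ∑ j, ∑ B, nsf (T j B) :=
    Finset.sum_nonneg fun j _ => Finset.sum_nonneg fun B _ => integral_nonneg fun w => sq_nonneg _
  obtain ⟨R, hRe⟩ : ∃ R : ℝ, R = ∑ j, ∑ B, nsf (T j B) := ⟨_, rfl⟩
  rw [← hRe] at hmain hR0 ⊢
  obtain ⟨Z, hZe⟩ : ∃ Z : ℝ, Z = ∫ x, g x ^ 2 := ⟨_, rfl⟩
  obtain ⟨W, hWe⟩ : ∃ W : ℝ, W = ∫ x, g x ^ 2 * ‖x‖ ^ 2 := ⟨_, rfl⟩
  rw [← hZe] at hmain hZ' hW' ⊢
  rw [← hWe] at hmain hW'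
  have hP : 0 < (Real.pi / 2) ^ 2 := by positivity
  calc ((Real.pi / 2) ^ 2 * κ)⁻¹ * c *
        ∫ x, ‖g x • u x - (g x / Z) • ∫ w, g w ^ 2 • u w‖ ^ 2
      ≤ ((Real.pi / 2) ^ 2 * κ)⁻¹ * c * (Z⁻¹ * (Real.pi / 2) ^ 2 * W * R) :=
        mul_le_mul_of_nonneg_left hmain (by positivity)
    _ = (κ⁻¹ * Z⁻¹ * R) * (c * W) := by field_simp
    _ ≤ (κ⁻¹ * Z⁻¹ * R) * (κ * Z) := mul_le_mul_of_nonneg_left hW' (by positivity)
    _ = R := by field_simp

/-- **B-Poi** -/
theorem poi (dm : ℕ) (F : Type*) [NormedAddCommGroup F] [InnerProductSpace ℂ F]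
    [CompleteSpace F] : PoiStmt dm F := by
  obtain ⟨c1, hc1, h⟩ := poi_explicit dm F
  intro M hsym hM
  obtain ⟨c, hc, hcM⟩ := hM
  exact ⟨c1 * c, mul_pos hc1 hc, fun f hf => h M hsym c hc hcM f hf⟩

end Vale.Agent.P353.Z
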