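import Vale.Agent.P353.AN.B.Stmt

/-! # P353, all `N`, block B: the scaling `w ↦ √R w` of the fibre -/

open MeasureTheory Filter Topology Matrix
open scoped ContDiff

namespace Vale.Agent.P353.Z

variable {d dh dm : ℕ} {F : Type*} [NormedAddCommGroup F] [InnerProductSpace ℂ F]

private lemma scF_fin (dm : ℕ) : Module.finrank ℝ (Wsp dm) = 8 * dm := by
  rw [finrank_euclideanSpace, Fintype.card_prod, Fintype.card_fin, Fintype.card_fin]

private lemma scF_int {E : Type*} [NormedAddCommGroup E] [NormedSpace ℝ E] {R : ℝ} (hR : 0 < R)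
    (u : Wsp dm → E) :
    ∫ w, u (Real.sqrt R • w) = (Real.sqrt R ^ (8 * dm))⁻¹ • ∫ w, u w := by
  have h := Measure.integral_comp_smul (volume : Measure (Wsp dm)) u (Real.sqrt R)
  rw [scF_fin] at h
  rw [h, abs_of_nonneg]
  have := Real.sqrt_nonneg R
  positivity

private lemma scF_pf {f h : Wsp dm → F} {c : ℝ} (hf : ∀ w, f w = h (c • w)) (j : Fin 8)
    (B : Fin dm) (w : Wsp dm) : pf j B f w = (c : ℂ) • pf j B h (c • w) := by
  have h1 : f = (h <| c • ·) := funext hf
  unfold pf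
  rw [h1, fderiv_comp_smul, _root_.smul_apply, Complex.coe_smul]

private lemma scF_wt (c : ℝ) (w : Wsp dm) (i : Fin 9) : wt (c • w) i = c • wt w i := by
  funext B
  refine Fin.lastCases ?_ (fun j => ?_) i
  · simp only [wt, Pi.smul_apply, Fin.lastCases_last, smul_zero]
  · simp only [wt, Pi.smul_apply, Fin.lastCases_castSucc, PiLp.smul_apply]

private lemma scF_sV (D : Fin 9 → Matrix (Fin dm) (Fin dm) ℝ) (c : ℝ) (w : Wsp dm) :
    sV D (c • w) = c • sV D w := by
  unfold sV
  simp only [scF_wt, Matrix.mulVec_smul, ← Finset.smul_sum]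

private lemma scF_VV (D : Fin 9 → Matrix (Fin dm) (Fin dm) ℝ) (c : ℝ) (w : Wsp dm) (i : Fin 9) :
    VV D (c • w) i = c • VV D w i := by
  unfold VV
  rw [scF_wt, scF_sV, Matrix.mulVec_smul, smul_sub]

private lemma scF_qf (D : Fin 9 → Matrix (Fin dm) (Fin dm) ℝ) (Om : Matrix (Fin dm) (Fin dm) ℝ)
    (c : ℝ) (w : Wsp dm) : qf D Om (c • w) = c ^ 2 * qf D Om w := by
  unfold qf
  simp only [scF_VV, Matrix.mulVec_smul, smul_dotProduct, dotProduct_smul, smul_eq_mul,
    Finset.mul_sum]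
  exact Finset.sum_congr rfl fun i _ => by ring

private lemma scF_gR (D : Fin 9 → Matrix (Fin dm) (Fin dm) ℝ) (Om : Matrix (Fin dm) (Fin dm) ℝ)
    {R : ℝ} (hR : 0 < R) (w : Wsp dm) : gR D Om R w = gR D Om 1 (Real.sqrt R • w) := by
  unfold gR
  rw [scF_qf, Real.sq_sqrt hR.le]
  congr 1
  ring

private lemma scF_neg (D : Fin 9 → Matrix (Fin dm) (Fin dm) ℝ) (Om : Matrix (Fin dm) (Fin dm) ℝ)
    (R : ℝ) (w : Wsp dm) : gR D Om R (-w) = gR D Om R w := by
  unfold gR
  have h := scF_qf D Om (-1) w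
  rw [neg_one_smul] at h
  rw [h]
  congr 1
  ring

private lemma scF_inv {R : ℝ} (hR : R ≠ 0) (M : Matrix (Fin dm) (Fin dm) ℝ) :
    (R • M)⁻¹ = R⁻¹ • M⁻¹ := by
  by_cases h : IsUnit M.det
  · exact Matrix.inv_smul' M (Units.mk0 R hR) h
  · rw [Matrix.nonsing_inv_apply_not_isUnit _ h, smul_zero]
    refine Matrix.nonsing_inv_apply_not_isUnit _ ?_
    rw [Matrix.det_smul]
    intro h1
    exact h (isUnit_of_mul_isUnit_right h1)

theorem scaleF (S : Setup d F) (φ : Spl dh dm d) : ScaleFStmt S φ := by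
  intro hfin D D0 Om R hR f h hf hfh
  have hs0 : 0 < Real.sqrt R := Real.sqrt_pos.2 hR
  have hs2 : Real.sqrt R * Real.sqrt R = R := Real.mul_self_sqrt hR.le
  obtain ⟨s, hs⟩ : ∃ s, s = Real.sqrt R := ⟨_, rfl⟩
  have hh : h = fun w => f (s⁻¹ • w) := by
    funext w
    rw [hfh, ← hs, smul_smul, mul_inv_cancel₀ (by rw [hs]; exact hs0.ne'), one_smul]
  have hpf := fun (j : Fin 8) (B : Fin dm) (w : Wsp dm) => scF_pf (F := F) hfh j B w
  refine ⟨⟨?_, ?_⟩, ?_, fun j B => ?_, ?_, fun β w => ?_, fun w => ?_, fun hodd w => ?_⟩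
  · rw [hh]
    exact hf.1.comp (contDiff_const_smul _)
  · rw [hh]
    exact hf.2.comp_smul (by rw [hs]; exact inv_ne_zero hs0.ne')
  · unfold nsf
    simp only [hfh]
    exact scF_int hR fun w => ‖h w‖ ^ 2
  · unfold nsf
    have e : (fun w => ‖pf j B f w‖ ^ 2) =
        fun w => (fun v => R * ‖pf j B h v‖ ^ 2) (Real.sqrt R • w) := by
      funext w
      simp only []
      rw [hpf, norm_smul, mul_pow, Complex.norm_real, Real.norm_eq_abs, sq_abs,
        Real.sq_sqrt hR.le]
    rw [e]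
    refine (scF_int hR fun v => R * ‖pf j B h v‖ ^ 2).trans ?_
    rw [integral_const_mul, smul_eq_mul]
  · unfold nsf
    have e : (fun w : Wsp dm => ‖((‖w‖ : ℝ) : ℂ) • f w‖ ^ 2) =
        fun w => (fun v => R⁻¹ * ‖((‖v‖ : ℝ) : ℂ) • h v‖ ^ 2) (Real.sqrt R • w) := by
      funext w
      simp only []
      rw [hfh, norm_smul, norm_smul, mul_pow, mul_pow, Complex.norm_real, Complex.norm_real,
        norm_norm, norm_norm, norm_smul, mul_pow, Real.norm_eq_abs, sq_abs, Real.sq_sqrt hR.le]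
      field_simp
    rw [e]
    refine (scF_int hR fun v => R⁻¹ * ‖((‖v‖ : ℝ) : ℂ) • h v‖ ^ 2).trans ?_
    rw [integral_const_mul, smul_eq_mul]
  · -- the supercharge
    unfold Setup.q1
    have hR0 : (R : ℂ) ≠ 0 := Complex.ofReal_ne_zero.2 hR.ne'
    have hsC : ((Real.sqrt R : ℝ) : ℂ) * ((Real.sqrt R : ℝ) : ℂ) = (R : ℂ) := by
      rw [← Complex.ofReal_mul, hs2]
    rw [smul_add, smul_add]
    congr 1
    · congr 1
      · rw [smul_comm]
        congr 1
        rw [Finset.smul_sum]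
        refine Finset.sum_congr rfl fun j _ => ?_
        rw [Finset.smul_sum]
        refine Finset.sum_congr rfl fun B _ => ?_
        rw [hpf, map_smul]
      · rw [smul_comm]
        congr 1
        rw [Finset.smul_sum]
        refine Finset.sum_congr rfl fun B _ => ?_
        rw [← map_smul]
        congr 1
        rw [Finset.smul_sum]
        refine Finset.sum_congr rfl fun C _ => ?_
        rw [scF_inv hR.ne', smul_comm ((Real.sqrt R : ℝ) : ℂ), Matrix.smul_apply, smul_eq_mul,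
          Complex.ofReal_mul, mul_comm, mul_smul]
        congr 1
        rw [Finset.smul_sum, Finset.smul_sum]
        refine Finset.sum_congr rfl fun j _ => ?_
        rw [Finset.smul_sum, Finset.smul_sum]
        refine Finset.sum_congr rfl fun E _ => ?_
        beta_reduce
        rw [hpf, Matrix.smul_apply, smul_eq_mul, smul_smul, smul_smul, smul_smul]
        congr 1
        push_cast
        field_simp
    · rw [smul_comm]
      congr 1
      rw [Finset.smul_sum]
      refine Finset.sum_congr rfl fun B _ => ?_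
      rw [Finset.smul_sum]
      refine Finset.sum_congr rfl fun i _ => ?_
      rw [Finset.smul_sum]
      refine Finset.sum_congr rfl fun j _ => ?_
      rw [hfh, smul_smul, ← Complex.ofReal_mul]
      congr 2
      have e1 : ∀ (i j : Fin 9), ∑ C, (R • D i) B C * wt w j C =
          Real.sqrt R * ∑ C, D i B C * wt (Real.sqrt R • w) j C := by
        intro i j
        rw [Finset.mul_sum]
        refine Finset.sum_congr rfl fun C _ => ?_
        rw [scF_wt, Matrix.smul_apply, smul_eq_mul, Pi.smul_apply, smul_eq_mul]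
        linear_combination (-(D i B C * wt w j C)) * hs2
      rw [e1, e1]
      ring
  · -- the projection
    unfold Setup.PR
    have hc : (Real.sqrt R ^ (8 * dm))⁻¹ ≠ 0 := inv_ne_zero (pow_ne_zero _ hs0.ne')
    have e1 : ∫ w', gR D0 Om R w' ^ 2 =
        (Real.sqrt R ^ (8 * dm))⁻¹ * ∫ w', gR D0 Om 1 w' ^ 2 := by
      simp only [scF_gR D0 Om hR]
      exact scF_int hR fun w => gR D0 Om 1 w ^ 2
    have e2 : ∫ w', ((gR D0 Om R w' : ℝ) : ℂ) • f w' =
        (((Real.sqrt R ^ (8 * dm))⁻¹ : ℝ) : ℂ) • ∫ w', ((gR D0 Om 1 w' : ℝ) : ℂ) • h w' := by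
      simp only [scF_gR D0 Om hR, hfh]
      rw [Complex.coe_smul]
      exact scF_int hR fun w => ((gR D0 Om 1 w : ℝ) : ℂ) • h w
    rw [e1, e2, map_smul, smul_smul, scF_gR D0 Om hR, ← Complex.ofReal_mul]
    congr 2
    rw [div_mul_eq_mul_div, mul_comm (gR D0 Om 1 _), mul_div_mul_left _ _ hc]
  · -- odd functions
    unfold Setup.PR
    have e1 : ∫ w', ((gR D0 Om R w' : ℝ) : ℂ) • f w' = 0 := by
      have e2 := integral_neg_eq_self (fun w' : Wsp dm => ((gR D0 Om R w' : ℝ) : ℂ) • f w') volume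
      simp only [scF_neg, hodd, smul_neg, integral_neg] at e2
      have e3 : (2 : ℂ) • ∫ w', ((gR D0 Om R w' : ℝ) : ℂ) • f w' = 0 := by
        rw [two_smul]
        nth_rewrite 1 [← e2]
        exact neg_add_cancel _
      exact (smul_eq_zero.1 e3).resolve_left two_ne_zero
    rw [e1, map_zero, smul_zero]

end Vale.Agent.P353.Z
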