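import Vale.Agent.P353.AN.B.Om
import Vale.Agent.P353.AN.B.AlgQF
import Vale.Agent.P353.AN.B.En
import Vale.Agent.P353.AN.B.Lam
import Vale.Agent.P353.AN.B.FZero
import Vale.Agent.P353.AN.B.Poi
import Vale.Agent.P353.AN.B.Gap
import Vale.Agent.P353.AN.B.Coer
import Vale.Agent.P353.AN.B.Pert
import Vale.Agent.P353.AN.B.Scale
import Vale.Agent.P353.AN.B.Fib

/-! # P353, all `N`, block B: assembly (fibre facts, unconditional) -/

namespace Vale.Agent.P353.Z

variable {d dh dm : ℕ} {F : Type*} [NormedAddCommGroup F] [InnerProductSpace ℂ F]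

theorem gapAll (S : Setup d F) (φ : Spl dh dm d) : GapFStmt S φ := by
  intro hF
  have := FiniteDimensional.complete ℂ F
  exact gapF S φ qfS (enF S φ alg) (lamS S φ) (poi dm F) hF

theorem coerAll (S : Setup d F) (φ : Spl dh dm d) : CoerFStmt S φ := coerF S φ qfS (enF S φ alg) (lamS S φ)

/-- **B-Fib**, unconditional -/
theorem fibAll (S : Setup d F) (φ : Spl dh dm d) : FibStmt S φ :=
  fib S φ (gapAll S φ) (coerAll S φ) (pertF S φ) (scaleF S φ)

end Vale.Agent.P353.Z
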