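import Vale.Agent.P353.AN.A.Defs

/-! # P353, all `N`, block B: the fibre oscillator — definitions

For a fixed point `y` of the block diagonal part, `Q1_β` acts on functions of `w : Wsp dm` only; it depends on `y` through the nine
matrices `D_i = S.Dy φ i y`. Here `D : Fin 9 → Matrix (Fin dm) (Fin dm) ℝ` is arbitrary; `Frz D` = frozen (scalar) point. -/

open MeasureTheory Filter Topology Matrix
open scoped ContDiff

namespace Vale.Agent.P353.Z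

variable {d dh dm : ℕ} {F : Type*} [NormedAddCommGroup F] [InnerProductSpace ℂ F]

/-- partial derivative of a fibre function in the direction `w_j^B` -/
noncomputable def pf (j : Fin 8) (B : Fin dm) (f : Wsp dm → F) (w : Wsp dm) : F :=
  fderiv ℝ f w (EuclideanSpace.single (j, B) 1)

/-- fibre test functions -/
def FT (f : Wsp dm → F) : Prop := ContDiff ℝ ∞ f ∧ HasCompactSupport f

/-- squared `L²` norm on the fibre -/
noncomputable def nsf {E : Type*} [NormedAddCommGroup E] (f : Wsp dm → E) : ℝ := ∫ w, ‖f w‖ ^ 2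

/-- nine commuting antisymmetric matrices, the last one invertible -/
structure Frz (D : Fin 9 → Matrix (Fin dm) (Fin dm) ℝ) : Prop where
  anti : ∀ i, (D i)ᵀ = -D i
  comm : ∀ i j, D i * D j = D j * D i
  inv : (D 8).det ≠ 0

/-- `Ω = κ (-∑ D_i²)^{1/2}` -/
structure IsOm (κ : ℝ) (D : Fin 9 → Matrix (Fin dm) (Fin dm) ℝ) (Om : Matrix (Fin dm) (Fin dm) ℝ) : Prop where
  symm : Omᵀ = Om
  pos : ∀ v : Fin dm → ℝ, v ≠ 0 → 0 < v ⬝ᵥ (Om *ᵥ v)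
  sq : Om * Om = -(κ ^ 2 • ∑ i, D i * D i)
  comm : ∀ M : Matrix (Fin dm) (Fin dm) ℝ, M * (∑ i, D i * D i) = (∑ i, D i * D i) * M → M * Om = Om * M

/-- `T_i = D_8⁻¹ D_i` (so `T_8 = 1`) -/
noncomputable def tI (D : Fin 9 → Matrix (Fin dm) (Fin dm) ℝ) (i : Fin 9) : Matrix (Fin dm) (Fin dm) ℝ :=
  (D 8)⁻¹ * D i

/-- `∑ T_i²` -/
noncomputable def t2 (D : Fin 9 → Matrix (Fin dm) (Fin dm) ℝ) : Matrix (Fin dm) (Fin dm) ℝ :=
  ∑ i, tI D i * tI D i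

/-- `s(w) = (∑ T_i²)⁻¹ ∑_{j<8} T_j w_j` -/
noncomputable def sV (D : Fin 9 → Matrix (Fin dm) (Fin dm) ℝ) (w : Wsp dm) : Fin dm → ℝ :=
  (t2 D)⁻¹ *ᵥ ∑ i, tI D i *ᵥ wt w i

/-- transversal part `V_i = w_i - T_i s(w)` (`w_8 = 0`), `∑ T_i V_i = 0` -/
noncomputable def VV (D : Fin 9 → Matrix (Fin dm) (Fin dm) ℝ) (w : Wsp dm) (i : Fin 9) : Fin dm → ℝ :=
  wt w i - tI D i *ᵥ sV D w

/-- `⟨V, Ω V⟩` -/
noncomputable def qf (D : Fin 9 → Matrix (Fin dm) (Fin dm) ℝ) (Om : Matrix (Fin dm) (Fin dm) ℝ) (w : Wsp dm) : ℝ :=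
  ∑ i, VV D w i ⬝ᵥ (Om *ᵥ VV D w i)

/-- bosonic ground state at the frozen point `R D`: `exp(-R ⟨V, Ω V⟩ / 2)` -/
noncomputable def gR (D : Fin 9 → Matrix (Fin dm) (Fin dm) ℝ) (Om : Matrix (Fin dm) (Fin dm) ℝ) (R : ℝ) (w : Wsp dm) : ℝ :=
  Real.exp (-(R / 2) * qf D Om w)

/-- the derivative `∂_i`, `i < 9`, with `∂_8 = -∑_{j<8} T_j ∂_j` -/
noncomputable def dd (D : Fin 9 → Matrix (Fin dm) (Fin dm) ℝ) (i : Fin 9) (B : Fin dm) (f : Wsp dm → F) (w : Wsp dm) : F :=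
  Fin.lastCases (motive := fun _ => F)
    (-∑ C, (((D 8)⁻¹ B C : ℝ) : ℂ) • ∑ j : Fin 8, ∑ E, ((D j.castSucc C E : ℝ) : ℂ) • pf j E f w)
    (fun j => pf j B f w) i

namespace Setup

variable (S : Setup d F) (φ : Spl dh dm d) (D : Fin 9 → Matrix (Fin dm) (Fin dm) ℝ)
  (Om : Matrix (Fin dm) (Fin dm) ℝ)

/-- fibre supercharge with the matrices `D` -/
noncomputable def q1 (β : Fin 16) (f : Wsp dm → F) (w : Wsp dm) : F :=
  (-Complex.I) • (∑ j : Fin 8, ∑ B, S.vec (S.g j.castSucc) (φ (Sum.inr B)) β (pf j B f w)) +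
    Complex.I • (∑ B, S.vec (S.g 8) (φ (Sum.inr B)) β
      (∑ C, (((D 8)⁻¹ B C : ℝ) : ℂ) • ∑ j : Fin 8, ∑ E, ((D j.castSucc C E : ℝ) : ℂ) • pf j E f w)) +
    (1 / 2 : ℂ) • ∑ B, ∑ i, ∑ j, ((S.κ * ((∑ C, D i B C * wt w j C) - ∑ C, D j B C * wt w i C) : ℝ) : ℂ) •
      S.vec (S.g2 i j) (φ (Sum.inr B)) β (f w)

/-- fibre energy `(1/16) ∑_β |q1_β f|²` -/
noncomputable def e1 (f : Wsp dm → F) : ℝ := (1 / 16) * ∑ β, nsf (S.q1 φ D β f)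

/-- `P_{(α,A),(β,B)} = κ ∑_i γ^i_{αβ} (D_i)_{AB}` -/
noncomputable def PP : Matrix (Fin 16 × Fin dm) (Fin 16 × Fin dm) ℂ :=
  Matrix.of fun p q => (S.κ : ℂ) * ∑ i, S.g i p.1 q.1 * ((D i p.2 q.2 : ℝ) : ℂ)

/-- `Λ = (1/2)(Ω - i P)` -/
noncomputable def Lam : Matrix (Fin 16 × Fin dm) (Fin 16 × Fin dm) ℂ :=
  Matrix.of fun p q => (1 / 2 : ℂ) * ((if p.1 = q.1 then ((Om p.2 q.2 : ℝ) : ℂ) else 0) - Complex.I * S.PP D p q)

/-- `(Λ θ)_p` -/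
noncomputable def Lth (p : Fin 16 × Fin dm) : F →L[ℂ] F :=
  ∑ q : Fin 16 × Fin dm, S.Lam D Om p q • S.th q.1 (φ (Sum.inr q.2))

/-- fermionic energy `N = ∑ Λ_{pq} θ_p θ_q` -/
noncomputable def NF : F →L[ℂ] F :=
  ∑ p : Fin 16 × Fin dm, S.th p.1 (φ (Sum.inr p.2)) * S.Lth φ D Om p

/-- fermionic vacuum space -/
noncomputable def F0 : Submodule ℂ F where
  carrier := {v | ∀ p, S.Lth φ D Om p v = 0}
  add_mem' := by
    intro a b ha hb p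
    rw [map_add, ha p, hb p, add_zero]
  zero_mem' := fun p => map_zero _
  smul_mem' := by
    intro c a ha p
    rw [map_smul, ha p, smul_zero]

/-- frozen vacuum projection at `R D`: `P_R f = g_R Π_0 (∫ g_R f) / ∫ g_R²` -/
noncomputable def PR [FiniteDimensional ℂ F] (R : ℝ) (f : Wsp dm → F) (w : Wsp dm) : F :=
  ((gR D Om R w / ∫ w', gR D Om R w' ^ 2 : ℝ) : ℂ) •
    (S.F0 φ D Om).starProjection (∫ w', ((gR D Om R w' : ℝ) : ℂ) • f w')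

end Setup

lemma Setup.Q1_eq (S : Setup d F) (φ : Spl dh dm d) (β : Fin 16) (v : Cfg dh → Wsp dm → F) (y : Cfg dh)
    (w : Wsp dm) : S.Q1 φ β v y w = S.q1 φ (fun i => S.Dy φ i y) β (v y) w := rfl

end Vale.Agent.P353.Z
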