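import Vale.Agent.P353.AN.B.Stmt
import Vale.Agent.P353.Z.U.En

/-! # P353, all `N`, block B: fibre calculus (directional derivatives, integration by parts) -/

open MeasureTheory Filter Topology Matrix
open scoped ContDiff

namespace Vale.Agent.P353.Z.EnFib

variable {dm : ℕ} {F : Type*} [NormedAddCommGroup F] [InnerProductSpace ℂ F]

/-! ### analysis on the fibre -/

lemma int_fd0 {G : Type*} [NormedAddCommGroup G] [NormedSpace ℝ G] (w : Wsp dm → G)
    (hw : ContDiff ℝ 1 w) (hc : HasCompactSupport w) (e : Wsp dm) :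
    ∫ x, fderiv ℝ w x e = 0 := by
  have h := integral_smul_fderiv_eq_neg_fderiv_smul_of_integrable (μ := volume)
    (f := fun _ : Wsp dm => (1 : ℝ)) (g := w) (v := e) (𝕜 := ℝ) ?_ ?_ ?_ ?_ ?_
  · simpa using h
  · simp
  · simp only [one_smul]
    exact ((hw.continuous_fderiv (by simp)).clm_apply continuous_const).integrable_of_hasCompactSupport
      (hc.fderiv_apply (𝕜 := ℝ) e)
  · simp only [one_smul]
    exact hw.continuous.integrable_of_hasCompactSupport hc
  · intro x _; exact differentiableAt_const _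
  · intro x _; exact (hw.differentiable (by simp)) x

/-- directional derivative -/
noncomputable def dr (e : Wsp dm) (f : Wsp dm → F) (w : Wsp dm) : F := fderiv ℝ f w e

lemma FT.dr {f : Wsp dm → F} (hf : FT f) (e : Wsp dm) : FT (dr e f) := by
  constructor
  · exact (hf.1.fderiv_right (m := ∞) (by simp)).clm_apply contDiff_const
  · exact hf.2.fderiv_apply (𝕜 := ℝ) e

lemma ft_diff {f : Wsp dm → F} (hf : FT f) (w : Wsp dm) : DifferentiableAt ℝ f w :=
  hf.1.differentiable (by simp) w

lemma ft_add {f g : Wsp dm → F} (hf : FT f) (hg : FT g) : FT (fun w => f w + g w) :=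
  ⟨hf.1.add hg.1, hf.2.add hg.2⟩

lemma ft_zero : FT (fun _ : Wsp dm => (0 : F)) :=
  ⟨contDiff_const, HasCompactSupport.zero⟩

lemma ft_sum {ι : Type*} (s : Finset ι) {f : ι → Wsp dm → F} (hf : ∀ i ∈ s, FT (f i)) :
    FT (fun w => ∑ i ∈ s, f i w) := by
  classical
  induction s using Finset.induction_on with
  | empty => simpa using (ft_zero (dm := dm) (F := F))
  | insert a s ha ih =>
    simp only [Finset.sum_insert ha]
    exact ft_add (hf a (Finset.mem_insert_self a s)) (ih fun i hi => hf i (Finset.mem_insert_of_mem hi))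

lemma ft_clm {f : Wsp dm → F} (T : F →L[ℂ] F) (hf : FT f) : FT (fun w => T (f w)) := by
  constructor
  · exact (T.restrictScalars ℝ).contDiff.comp hf.1
  · exact hf.2.comp_left (g := fun v => T v) (map_zero T)

lemma ft_smul {f : Wsp dm → F} (c : ℂ) (hf : FT f) : FT (fun w => c • f w) := by
  have := ft_clm (c • (1 : F →L[ℂ] F)) hf
  simpa using this

lemma ft_rsmul {f : Wsp dm → F} {L : Wsp dm → ℝ} (hL : ContDiff ℝ ∞ L) (hf : FT f) :
    FT (fun w => ((L w : ℝ) : ℂ) • f w) := by
  constructor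
  · exact (Complex.ofRealCLM.contDiff.comp hL).smul hf.1
  · exact hf.2.smul_left (f := fun w => ((L w : ℝ) : ℂ))

lemma ft_inner_int {f g : Wsp dm → F} (hf : FT f) (hg : Continuous g) :
    Integrable (fun w => inner ℂ (f w) (g w)) := by
  refine (hf.1.continuous.inner hg).integrable_of_hasCompactSupport ?_
  refine hf.2.mono ?_
  intro x hx
  simp only [Function.mem_support] at hx ⊢
  intro h0
  exact hx (by rw [h0, inner_zero_left])

lemma ft_inner_int' {f g : Wsp dm → F} (hf : FT f) (hg : Continuous g) :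
    Integrable (fun w => inner ℂ (g w) (f w)) := by
  refine (hg.inner hf.1.continuous).integrable_of_hasCompactSupport ?_
  refine hf.2.mono ?_
  intro x hx
  simp only [Function.mem_support] at hx ⊢
  intro h0
  exact hx (by rw [h0, inner_zero_right])

lemma ft_mul_int {f : Wsp dm → F} {L : Wsp dm → ℝ} (hL : Continuous L) (hf : FT f) :
    Integrable (fun w => L w * ‖f w‖ ^ 2) := by
  refine (hL.mul (hf.1.continuous.norm.pow 2)).integrable_of_hasCompactSupport ?_
  refine hf.2.mono ?_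
  intro x hx
  simp only [Function.mem_support] at hx ⊢
  intro h0
  exact hx (by simp [h0])

lemma ft_sq_int {f : Wsp dm → F} (hf : FT f) : Integrable (fun w => ‖f w‖ ^ 2) := by
  simpa using ft_mul_int (L := fun _ => 1) continuous_const hf

lemma nsf_ofReal {f : Wsp dm → F} : ((nsf f : ℝ) : ℂ) = ∫ w, inner ℂ (f w) (f w) := by
  rw [nsf, ← integral_complex_ofReal]
  congr 1
  ext x
  rw [inner_self_eq_norm_sq_to_K]
  norm_cast

/-- integration by parts -/
lemma ibp {f g : Wsp dm → F} (hf : FT f) (hg : ContDiff ℝ 1 g) (e : Wsp dm) :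
    ∫ w, inner ℂ (dr e f w) (g w) = -∫ w, inner ℂ (f w) (dr e g w) := by
  have hf1 : ContDiff ℝ 1 f := hf.1.of_le (by simp)
  have hw : ContDiff ℝ 1 (fun x => inner ℂ (f x) (g x)) := hf1.inner ℂ hg
  have hcw : HasCompactSupport (fun x => inner ℂ (f x) (g x)) := by
    refine hf.2.mono ?_
    intro x hx
    simp only [Function.mem_support] at hx ⊢
    intro h0
    exact hx (by rw [h0, inner_zero_left])
  have h := int_fd0 _ hw hcw e
  have hd : ∀ x, fderiv ℝ (fun x => inner ℂ (f x) (g x)) x e =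
      inner ℂ (f x) (dr e g x) + inner ℂ (dr e f x) (g x) := by
    intro x
    rw [fderiv_inner_apply ℂ ((hf1.differentiable (by simp)) x) ((hg.differentiable (by simp)) x)]
    rfl
  simp only [hd] at h
  have i1 : Integrable (fun x => inner ℂ (f x) (dr e g x)) :=
    ft_inner_int hf ((hg.continuous_fderiv (by simp)).clm_apply continuous_const)
  have i2 : Integrable (fun x => inner ℂ (dr e f x) (g x)) := ft_inner_int (FT.dr hf e) hg.continuous
  rw [integral_add i1 i2] at h
  linear_combination h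

/-- completing the square -/
lemma nsf_sq {f : Wsp dm → F} (hf : FT f) {L : Wsp dm → ℝ} (hL : ContDiff ℝ ∞ L) (e : Wsp dm) (c : ℝ)
    (hc : ∀ w, fderiv ℝ L w e = c) :
    nsf (fun w => dr e f w + ((L w : ℝ) : ℂ) • f w) =
      nsf (dr e f) + (∫ w, L w ^ 2 * ‖f w‖ ^ 2) - c * nsf f := by
  have hLf : FT (fun w => ((L w : ℝ) : ℂ) • f w) := ft_rsmul hL hf
  have h0 := ibp hf (hLf.1.of_le (by simp)) e
  have hd : ∀ w, dr e (fun w => ((L w : ℝ) : ℂ) • f w) w =
      ((L w : ℝ) : ℂ) • dr e f w + (c : ℂ) • f w := by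
    intro w
    have hdL : DifferentiableAt ℝ L w := hL.differentiable (by simp) w
    have hdv := ft_diff hf w
    have h1 : DifferentiableAt ℝ (fun w => ((L w : ℝ) : ℂ)) w :=
      (Complex.ofRealCLM.differentiableAt).comp w hdL
    have h2 : fderiv ℝ (fun w => ((L w : ℝ) : ℂ)) w e = ((c : ℝ) : ℂ) := by
      have := (Complex.ofRealCLM.hasFDerivAt (x := L w)).comp w hdL.hasFDerivAt
      have h3 : fderiv ℝ (fun w => ((L w : ℝ) : ℂ)) w = Complex.ofRealCLM.comp (fderiv ℝ L w) :=
        this.fderiv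
      rw [h3]
      simp [hc]
    unfold dr
    rw [fderiv_fun_smul h1 hdv]
    simp only [_root_.add_apply, _root_.smul_apply, ContinuousLinearMap.smulRight_apply, h2]
  simp only [hd] at h0
  have j1 : Integrable (fun w => inner ℂ (f w) (((L w : ℝ) : ℂ) • dr e f w)) :=
    ft_inner_int hf ((Complex.continuous_ofReal.comp hL.continuous).smul (FT.dr hf e).1.continuous)
  have j3 : Integrable (fun w => (c : ℂ) * inner ℂ (f w) (f w)) :=
    (ft_inner_int hf hf.1.continuous).const_mul _
  have j2 : Integrable (fun w => inner ℂ (dr e f w) (((L w : ℝ) : ℂ) • f w)) :=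
    ft_inner_int (FT.dr hf e) ((Complex.continuous_ofReal.comp hL.continuous).smul hf.1.continuous)
  simp only [inner_add_right] at h0
  have h0' : ∫ w, inner ℂ (dr e f w) (((L w : ℝ) : ℂ) • f w) =
      -((∫ w, inner ℂ (f w) (((L w : ℝ) : ℂ) • dr e f w)) + (c : ℂ) * ((nsf f : ℝ) : ℂ)) := by
    rw [h0, integral_add j1 (by simpa only [inner_smul_right] using j3)]
    simp only [inner_smul_right (f _) (f _)]
    rw [integral_const_mul, nsf_ofReal]
  have hre := congrArg Complex.re h0'
  rw [Complex.neg_re, Complex.add_re, ← Complex.ofReal_mul, Complex.ofReal_re] at hre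
  have e1 : (∫ w, inner ℂ (f w) (((L w : ℝ) : ℂ) • dr e f w)).re =
      (∫ w, inner ℂ (dr e f w) (((L w : ℝ) : ℂ) • f w)).re := by
    have a1 := integral_re j1
    have a2 := integral_re j2
    change ∫ w, (inner ℂ (f w) (((L w : ℝ) : ℂ) • dr e f w)).re = _ at a1
    change ∫ w, (inner ℂ (dr e f w) (((L w : ℝ) : ℂ) • f w)).re = _ at a2
    refine (a1.symm.trans ?_).trans a2
    refine integral_congr_ae (Filter.Eventually.of_forall fun w => ?_)
    change (inner ℂ (f w) (((L w : ℝ) : ℂ) • dr e f w)).re = (inner ℂ (dr e f w) (((L w : ℝ) : ℂ) • f w)).re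
    rw [inner_smul_right, inner_smul_right, Complex.re_ofReal_mul, Complex.re_ofReal_mul]
    congr 1
    exact inner_re_symm (𝕜 := ℂ) (f w) (dr e f w)
  rw [e1] at hre
  have hpt : ∀ w, ‖dr e f w + ((L w : ℝ) : ℂ) • f w‖ ^ 2 = ‖dr e f w‖ ^ 2 +
      L w ^ 2 * ‖f w‖ ^ 2 + 2 * (inner ℂ (dr e f w) (((L w : ℝ) : ℂ) • f w)).re := by
    intro w
    have h := norm_add_sq (𝕜 := ℂ) (dr e f w) (((L w : ℝ) : ℂ) • f w)
    rw [h, norm_smul, mul_pow]
    have hn : ‖((L w : ℝ) : ℂ)‖ ^ 2 = L w ^ 2 := by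
      rw [Complex.norm_real, Real.norm_eq_abs, sq_abs]
    rw [hn]
    change ‖dr e f w‖ ^ 2 + 2 * (inner ℂ (dr e f w) (((L w : ℝ) : ℂ) • f w)).re +
      L w ^ 2 * ‖f w‖ ^ 2 = _
    ring
  have k1 : Integrable (fun w => ‖dr e f w‖ ^ 2) := ft_sq_int (FT.dr hf e)
  have k2 : Integrable (fun w => L w ^ 2 * ‖f w‖ ^ 2) := ft_mul_int (hL.continuous.pow 2) hf
  have k3 : Integrable (fun w => 2 * (inner ℂ (dr e f w) (((L w : ℝ) : ℂ) • f w)).re) :=
    (j2.re).const_mul 2
  have k12 : Integrable (fun w => ‖dr e f w‖ ^ 2 + L w ^ 2 * ‖f w‖ ^ 2) := k1.add k2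
  have e2 : ∫ w, 2 * (inner ℂ (dr e f w) (((L w : ℝ) : ℂ) • f w)).re =
      2 * (∫ w, inner ℂ (dr e f w) (((L w : ℝ) : ℂ) • f w)).re := by
    rw [integral_const_mul]
    congr 1
    exact integral_re j2
  rw [nsf]
  simp only [hpt]
  rw [integral_add k12 k3, integral_add k1 k2, e2]
  change nsf (dr e f) + _ + _ = _
  linarith

end Vale.Agent.P353.Z.EnFib
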