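import Vale.Agent.P353.AN.B.Stmt

/-! # P353, all `N`, block B: matrix algebra of the fibre oscillator -/

open MeasureTheory Filter Topology Matrix
open scoped ContDiff

namespace Vale.Agent.P353.Z.EnFib

variable {dm : ℕ}

lemma adj_anti {A : Matrix (Fin dm) (Fin dm) ℝ} (hA : Aᵀ = -A) (u v : Fin dm → ℝ) :
    (A *ᵥ u) ⬝ᵥ v = -(u ⬝ᵥ (A *ᵥ v)) := by
  rw [Matrix.dotProduct_mulVec, ← Matrix.mulVec_transpose, hA, Matrix.neg_mulVec, neg_dotProduct, neg_neg]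

lemma adj_symm {A : Matrix (Fin dm) (Fin dm) ℝ} (hA : Aᵀ = A) (u v : Fin dm → ℝ) :
    (A *ᵥ u) ⬝ᵥ v = u ⬝ᵥ (A *ᵥ v) := by
  rw [Matrix.dotProduct_mulVec, ← Matrix.mulVec_transpose, hA]

lemma pot {κ : ℝ} {D : Fin 9 → Matrix (Fin dm) (Fin dm) ℝ} {Om : Matrix (Fin dm) (Fin dm) ℝ}
    (hF : Frz D) (hO : IsOm κ D Om) (V : Fin 9 → Fin dm → ℝ) (h0 : ∑ i, D i *ᵥ V i = 0) :
    ∑ A, ∑ i, ∑ j, (κ * ((D i *ᵥ V j) A - (D j *ᵥ V i) A)) ^ 2 = 2 * ∑ i, ∑ B, ((Om *ᵥ V i) B) ^ 2 := by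
  have e1 : ∑ A, ∑ i, ∑ j, (κ * ((D i *ᵥ V j) A - (D j *ᵥ V i) A)) ^ 2 =
      ∑ i, ∑ j, κ ^ 2 * ((D i *ᵥ V j) ⬝ᵥ (D i *ᵥ V j) + (D j *ᵥ V i) ⬝ᵥ (D j *ᵥ V i) -
        2 * ((D i *ᵥ V j) ⬝ᵥ (D j *ᵥ V i))) := by
    rw [Finset.sum_comm]
    refine Finset.sum_congr rfl fun i _ => ?_
    rw [Finset.sum_comm]
    refine Finset.sum_congr rfl fun j _ => ?_
    simp only [dotProduct, Finset.mul_sum, ← Finset.sum_add_distrib, ← Finset.sum_sub_distrib]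
    exact Finset.sum_congr rfl fun A _ => by ring
  have e2 : ∀ j, κ ^ 2 * ∑ i, (D i *ᵥ V j) ⬝ᵥ (D i *ᵥ V j) = ∑ B, ((Om *ᵥ V j) B) ^ 2 := by
    intro j
    have h1 : ∀ i, (D i *ᵥ V j) ⬝ᵥ (D i *ᵥ V j) = -(V j ⬝ᵥ ((D i * D i) *ᵥ V j)) := by
      intro i
      rw [adj_anti (hF.anti i), Matrix.mulVec_mulVec]
    have h2 : ∑ B, ((Om *ᵥ V j) B) ^ 2 = V j ⬝ᵥ ((Om * Om) *ᵥ V j) := by
      rw [← Matrix.mulVec_mulVec, ← adj_symm hO.symm]
      simp only [dotProduct]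
      exact Finset.sum_congr rfl fun B _ => by ring
    rw [h2, hO.sq, Matrix.neg_mulVec, dotProduct_neg, Matrix.smul_mulVec, dotProduct_smul, smul_eq_mul,
      Matrix.sum_mulVec, dotProduct_sum]
    rw [Finset.sum_congr rfl fun i _ => h1 i, Finset.sum_neg_distrib, mul_neg]
  have e3 : ∑ i, ∑ j, (D i *ᵥ V j) ⬝ᵥ (D j *ᵥ V i) = 0 := by
    have h1 : ∀ i j, (D i *ᵥ V j) ⬝ᵥ (D j *ᵥ V i) = (D j *ᵥ V j) ⬝ᵥ (D i *ᵥ V i) := by
      intro i j
      rw [adj_anti (hF.anti i), adj_anti (hF.anti j), Matrix.mulVec_mulVec, Matrix.mulVec_mulVec, hF.comm]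
    rw [Finset.sum_congr rfl fun i _ => Finset.sum_congr rfl fun j _ => h1 i j]
    have h2 : ∑ i, ∑ j, (D j *ᵥ V j) ⬝ᵥ (D i *ᵥ V i) = (∑ j, D j *ᵥ V j) ⬝ᵥ (∑ i, D i *ᵥ V i) := by
      rw [dotProduct_sum]
      exact Finset.sum_congr rfl fun i _ => by rw [sum_dotProduct]
    rw [h2, h0, dotProduct_zero]
  rw [e1]
  have e4 : ∑ i, ∑ j, κ ^ 2 * ((D i *ᵥ V j) ⬝ᵥ (D i *ᵥ V j) + (D j *ᵥ V i) ⬝ᵥ (D j *ᵥ V i) -
        2 * ((D i *ᵥ V j) ⬝ᵥ (D j *ᵥ V i))) =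
      (∑ i, ∑ j, κ ^ 2 * ((D i *ᵥ V j) ⬝ᵥ (D i *ᵥ V j))) + (∑ i, ∑ j, κ ^ 2 * ((D j *ᵥ V i) ⬝ᵥ (D j *ᵥ V i))) -
        2 * κ ^ 2 * ∑ i, ∑ j, (D i *ᵥ V j) ⬝ᵥ (D j *ᵥ V i) := by
    simp only [Finset.mul_sum, ← Finset.sum_add_distrib, ← Finset.sum_sub_distrib]
    exact Finset.sum_congr rfl fun i _ => Finset.sum_congr rfl fun j _ => by ring
  rw [e4, e3, mul_zero, sub_zero, Finset.sum_comm]
  simp only [← Finset.mul_sum, e2]
  ring

/-- direction vectors of the derivatives `dd` -/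
noncomputable def dv (D : Fin 9 → Matrix (Fin dm) (Fin dm) ℝ) (i : Fin 9) (B : Fin dm) : Wsp dm :=
  Fin.lastCases (motive := fun _ => Wsp dm)
    (-∑ j : Fin 8, ∑ E, (∑ C, (D 8)⁻¹ B C * D j.castSucc C E) • EuclideanSpace.single (j, E) (1 : ℝ))
    (fun j => EuclideanSpace.single (j, B) (1 : ℝ)) i

lemma dv_castSucc (D : Fin 9 → Matrix (Fin dm) (Fin dm) ℝ) (j : Fin 8) (B : Fin dm) :
    dv D j.castSucc B = EuclideanSpace.single (j, B) (1 : ℝ) := by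
  simp [dv]

lemma dv_last (D : Fin 9 → Matrix (Fin dm) (Fin dm) ℝ) (B : Fin dm) :
    dv D (Fin.last 8) B = -∑ j : Fin 8, ∑ E, (∑ C, (D 8)⁻¹ B C * D j.castSucc C E) •
      EuclideanSpace.single (j, E) (1 : ℝ) := by
  rw [dv, Fin.lastCases_last]

lemma wt_castSucc (w : Wsp dm) (j : Fin 8) (B : Fin dm) : wt w j.castSucc B = w (j, B) := by
  simp [wt]

lemma wt_last (w : Wsp dm) : wt w (Fin.last 8) = 0 := by
  funext B
  rw [wt, Fin.lastCases_last]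
  rfl

lemma dv_last_apply (D : Fin 9 → Matrix (Fin dm) (Fin dm) ℝ) (B : Fin dm) (j : Fin 8) (E : Fin dm) :
    dv D (Fin.last 8) B (j, E) = -(tI D j.castSucc) B E := by
  rw [dv_last]
  simp only [PiLp.neg_apply, WithLp.ofLp_sum, WithLp.ofLp_smul, Finset.sum_apply, Pi.smul_apply, PiLp.single_apply,
    smul_eq_mul, Prod.mk.injEq, neg_inj]
  rw [Finset.sum_eq_single j, Finset.sum_eq_single E]
  · simp [tI, Matrix.mul_apply]
  · intro C _ hC
    simp [Ne.symm hC]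
  · intro h; exact absurd (Finset.mem_univ _) h
  · intro i _ hi
    refine Finset.sum_eq_zero fun C _ => ?_
    simp [Ne.symm hi]
  · intro h; exact absurd (Finset.mem_univ _) h

lemma tr8 {κ : ℝ} {D : Fin 9 → Matrix (Fin dm) (Fin dm) ℝ} {Om : Matrix (Fin dm) (Fin dm) ℝ}
    (hA : AlgStmt) (hk : 0 < κ) (hF : Frz D) (hO : IsOm κ D Om) :
    ∑ i, ∑ B, (Om *ᵥ VV D (dv D i B) i) B = 8 * Om.trace := by
  obtain ⟨a1, a2, a3, -, -, a6, -⟩ := hA dm κ D Om hk hF hO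
  have a3' : tI D (Fin.last 8) = 1 := a3
  have hs : ∀ i, (∑ C, (tI D i * (t2 D)⁻¹ * tI D i) C C) = (tI D i * (t2 D)⁻¹ * tI D i).trace := fun i => rfl
  -- the value of `VV`
  have hv : ∀ i B, VV D (dv D i B) i = (1 - tI D i * (t2 D)⁻¹ * tI D i) *ᵥ Pi.single B 1 := by
    intro i B
    refine Fin.lastCases ?_ (fun j => ?_) i
    · have h1 : ∀ j : Fin 8, wt (dv D (Fin.last 8) B) j.castSucc = -(tI D j.castSucc *ᵥ Pi.single B 1) := by
        intro j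
        funext E
        rw [wt_castSucc, dv_last_apply, Pi.neg_apply, Matrix.mulVec_single_one]
        change _ = -(tI D j.castSucc E B)
        have := congrFun (congrFun (a1 j.castSucc) E) B
        rw [← this, Matrix.transpose_apply]
      have h2 : ∑ k, tI D k *ᵥ wt (dv D (Fin.last 8) B) k = -((t2 D - 1) *ᵥ Pi.single B 1) := by
        have h3 : t2 D = (∑ j : Fin 8, tI D j.castSucc * tI D j.castSucc) + 1 := by
          rw [t2, Fin.sum_univ_castSucc, a3', Matrix.mul_one]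
        rw [Fin.sum_univ_castSucc, wt_last, Matrix.mulVec_zero, add_zero, h3, add_sub_cancel_right,
          Matrix.sum_mulVec, ← Finset.sum_neg_distrib]
        refine Finset.sum_congr rfl fun j _ => ?_
        rw [h1, Matrix.mulVec_neg, Matrix.mulVec_mulVec]
      rw [VV, sV, h2, wt_last, a3', Matrix.one_mul, Matrix.mul_one, Matrix.one_mulVec, Matrix.mulVec_neg,
        Matrix.mulVec_mulVec, Matrix.mul_sub, Matrix.nonsing_inv_mul _ (isUnit_iff_ne_zero.2 a6), Matrix.mul_one,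
        zero_sub, neg_neg]
    · have h1 : ∀ k, wt (dv D j.castSucc B) k = if k = j.castSucc then Pi.single B 1 else 0 := by
        intro k
        refine Fin.lastCases ?_ (fun l => ?_) k
        · rw [wt_last, if_neg (Fin.castSucc_ne_last j).symm]
        · funext E
          rw [wt_castSucc, dv_castSucc, PiLp.single_apply]
          by_cases hl : l = j
          · subst hl
            simp [Pi.single_apply]
          · have hl' : l.castSucc ≠ j.castSucc := fun h => hl (Fin.castSucc_injective _ h)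
            simp [hl, hl']
      have h2 : ∑ k, tI D k *ᵥ wt (dv D j.castSucc B) k = tI D j.castSucc *ᵥ Pi.single B 1 := by
        rw [Finset.sum_eq_single j.castSucc]
        · rw [h1, if_pos rfl]
        · intro k _ hk
          rw [h1, if_neg hk, Matrix.mulVec_zero]
        · intro h; exact absurd (Finset.mem_univ _) h
      rw [VV, sV, h2, h1, if_pos rfl, Matrix.sub_mulVec, Matrix.one_mulVec, Matrix.mulVec_mulVec,
        Matrix.mulVec_mulVec, Matrix.mul_assoc]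
  have hc : ∀ i B, (Om *ᵥ VV D (dv D i B) i) B = (Om * (1 - tI D i * (t2 D)⁻¹ * tI D i)) B B := by
    intro i B
    rw [hv, Matrix.mulVec_mulVec, Matrix.mulVec_single_one]
    rfl
  have ht : ∀ i, tI D i * (t2 D)⁻¹ = (t2 D)⁻¹ * tI D i := by
    intro i
    have h1 : tI D i * t2 D = t2 D * tI D i := by
      rw [t2, Finset.mul_sum, Finset.sum_mul]
      refine Finset.sum_congr rfl fun k _ => ?_
      rw [← Matrix.mul_assoc, a2 i k, Matrix.mul_assoc, a2 i k, Matrix.mul_assoc]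
    have hu := isUnit_iff_ne_zero.2 a6
    calc tI D i * (t2 D)⁻¹ = (t2 D)⁻¹ * t2 D * (tI D i * (t2 D)⁻¹) := by
          rw [Matrix.nonsing_inv_mul _ hu, Matrix.one_mul]
      _ = (t2 D)⁻¹ * (t2 D * tI D i) * (t2 D)⁻¹ := by simp only [Matrix.mul_assoc]
      _ = (t2 D)⁻¹ * (tI D i * t2 D) * (t2 D)⁻¹ := by rw [h1]
      _ = (t2 D)⁻¹ * tI D i * (t2 D * (t2 D)⁻¹) := by simp only [Matrix.mul_assoc]
      _ = _ := by rw [Matrix.mul_nonsing_inv _ hu, Matrix.mul_one]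
  simp only [hc]
  have hsum : ∑ i, (Om * (1 - tI D i * (t2 D)⁻¹ * tI D i)) = (8 : ℝ) • Om := by
    have h1 : ∑ i, tI D i * (t2 D)⁻¹ * tI D i = 1 := by
      have : ∀ i, tI D i * (t2 D)⁻¹ * tI D i = (t2 D)⁻¹ * (tI D i * tI D i) := by
        intro i
        rw [ht, Matrix.mul_assoc]
      simp only [this]
      rw [← Finset.mul_sum]
      exact Matrix.nonsing_inv_mul _ (isUnit_iff_ne_zero.2 a6)
    simp only [Matrix.mul_sub, Matrix.mul_one, Finset.sum_sub_distrib]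
    rw [← Finset.mul_sum, h1, Matrix.mul_one, Finset.sum_const, Finset.card_univ, Fintype.card_fin,
      ← Nat.cast_smul_eq_nsmul ℝ]
    rw [show ((9 : ℕ) : ℝ) • Om - Om = ((9 : ℕ) : ℝ) • Om - (1 : ℝ) • Om by rw [one_smul], ← sub_smul]
    norm_num
  have h2 := congrArg Matrix.trace hsum
  rw [Matrix.trace_sum, Matrix.trace_smul, smul_eq_mul] at h2
  exact h2

lemma shift {κ : ℝ} {D : Fin 9 → Matrix (Fin dm) (Fin dm) ℝ} {Om : Matrix (Fin dm) (Fin dm) ℝ}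
    (hA : AlgStmt) (hk : 0 < κ) (hF : Frz D) (hO : IsOm κ D Om) (x : Fin 9 → Fin dm → ℝ) (μ : Fin dm → ℝ)
    (i j : Fin 9) : D i *ᵥ (x j - tI D j *ᵥ μ) - D j *ᵥ (x i - tI D i *ᵥ μ) = D i *ᵥ x j - D j *ᵥ x i := by
  obtain ⟨-, a2, -, -, -, -, a7, -⟩ := hA dm κ D Om hk hF hO
  have h : D i * tI D j = D j * tI D i := by
    rw [a7 i, a7 j, Matrix.mul_assoc, Matrix.mul_assoc, a2 i j]
  rw [Matrix.mulVec_sub, Matrix.mulVec_sub, Matrix.mulVec_mulVec, Matrix.mulVec_mulVec, h]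
  abel

end Vale.Agent.P353.Z.EnFib
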