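import Vale.Agent.P353.AN.B.EnA
import Vale.Agent.P353.AN.B.EnB

/-! # P353, all `N`, block B: the fibre supercharge as a supercharge with linear multiplier -/

open MeasureTheory Filter Topology Matrix
open scoped ContDiff

namespace Vale.Agent.P353.Z.EnFib

variable {d dh dm : ℕ} {F : Type*} [NormedAddCommGroup F] [InnerProductSpace ℂ F]

/-- the fermions of the complement as a setup -/
noncomputable def sm (S : Setup d F) (φ : Spl dh dm d) : Setup dm F where
  g := S.g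
  g_symm := S.g_symm
  g_anti := S.g_anti
  th := fun α A => S.th α (φ (Sum.inr A))
  th_anti := by
    intro α A β B
    rw [S.th_anti]
    simp only [EmbeddingLike.apply_eq_iff_eq, Sum.inr.injEq]
  κ := S.κ
  κ_pos := S.κ_pos
  f := fun _ _ _ => 0
  f_swap := fun _ _ _ => by simp
  f_cyc := fun _ _ _ => rfl
  f_jac := fun _ _ _ _ => by simp
  g_real := S.g_real
  th_sa := fun α A v w => S.th_sa α _ v w

/-- coefficient matrices of the multiplier -/
noncomputable def Nc (S : Setup d F) (D : Fin 9 → Matrix (Fin dm) (Fin dm) ℝ) (j : Fin 9) (C A : Fin dm) :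
    Matrix (Fin 16) (Fin 16) ℂ := ∑ i, ((S.κ * D i A C : ℝ) : ℂ) • S.g2 i j

/-- `κ (D_i x_j - D_j x_i)^A` -/
noncomputable def LL (κ : ℝ) (D : Fin 9 → Matrix (Fin dm) (Fin dm) ℝ) (x : Fin 9 → Fin dm → ℝ) (A : Fin dm)
    (i j : Fin 9) : ℝ := κ * ((D i *ᵥ x j) A - (D j *ᵥ x i) A)

lemma LL_swap (κ : ℝ) (D : Fin 9 → Matrix (Fin dm) (Fin dm) ℝ) (x : Fin 9 → Fin dm → ℝ) (A : Fin dm)
    (i j : Fin 9) : LL κ D x A i j = -LL κ D x A j i := by
  unfold LL; ring

/-- coordinates -/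
def xv (x : Cfg dm) (i : Fin 9) (B : Fin dm) : ℝ := x (i, B)

/-- the matrix in front of `θ^A` -/
noncomputable def MA (S : Setup d F) (D : Fin 9 → Matrix (Fin dm) (Fin dm) ℝ) (x : Fin 9 → Fin dm → ℝ) (A : Fin dm) :
    Matrix (Fin 16) (Fin 16) ℂ :=
  (1 / 2 : ℂ) • ∑ i, ∑ j, ((LL S.κ D x A i j : ℝ) : ℂ) • S.g2 i j

lemma NX_eq (S : Setup d F) (D : Fin 9 → Matrix (Fin dm) (Fin dm) ℝ) (x : Cfg dm) (A : Fin dm) :
    U.En.NX (Nc S D) x A = MA S D (xv x) A := by
  have h1 : U.En.NX (Nc S D) x A = ∑ i, ∑ j, ((S.κ * (D i *ᵥ xv x j) A : ℝ) : ℂ) • S.g2 i j := by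
    unfold U.En.NX Nc
    rw [Finset.sum_comm (s := Finset.univ) (t := Finset.univ) (f := fun i j => ((S.κ * (D i *ᵥ xv x j) A : ℝ) : ℂ) • S.g2 i j)]
    refine Finset.sum_congr rfl fun j _ => ?_
    simp only [Finset.smul_sum]
    rw [Finset.sum_comm]
    refine Finset.sum_congr rfl fun i _ => ?_
    simp only [smul_smul]
    rw [← Finset.sum_smul]
    congr 1
    rw [Matrix.mulVec, dotProduct, Finset.mul_sum, Complex.ofReal_sum]
    refine Finset.sum_congr rfl fun C _ => ?_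
    rw [← Complex.ofReal_mul]
    congr 1
    unfold xv
    ring
  have h2 : ∑ i, ∑ j, ((S.κ * (D i *ᵥ xv x j) A : ℝ) : ℂ) • S.g2 i j =
      -∑ i, ∑ j, ((S.κ * (D j *ᵥ xv x i) A : ℝ) : ℂ) • S.g2 i j := by
    rw [Finset.sum_comm, ← Finset.sum_neg_distrib]
    refine Finset.sum_congr rfl fun i _ => ?_
    rw [← Finset.sum_neg_distrib]
    refine Finset.sum_congr rfl fun j _ => ?_
    rw [S.g2_swap i j, smul_neg, neg_neg]
  have h3 : ∑ i, ∑ j, ((LL S.κ D (xv x) A i j : ℝ) : ℂ) • S.g2 i j =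
      (∑ i, ∑ j, ((S.κ * (D i *ᵥ xv x j) A : ℝ) : ℂ) • S.g2 i j) -
        ∑ i, ∑ j, ((S.κ * (D j *ᵥ xv x i) A : ℝ) : ℂ) • S.g2 i j := by
    simp only [← Finset.sum_sub_distrib, ← sub_smul]
    refine Finset.sum_congr rfl fun i _ => Finset.sum_congr rfl fun j _ => ?_
    congr 1
    rw [← Complex.ofReal_sub]
    congr 1
    unfold LL
    ring
  rw [h1, MA, h3]
  nth_rewrite 2 [h2]
  rw [show (-∑ i, ∑ j, ((S.κ * (D j *ᵥ xv x i) A : ℝ) : ℂ) • S.g2 i j) -
    ∑ i, ∑ j, ((S.κ * (D j *ᵥ xv x i) A : ℝ) : ℂ) • S.g2 i j =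
      (-2 : ℂ) • ∑ i, ∑ j, ((S.κ * (D j *ᵥ xv x i) A : ℝ) : ℂ) • S.g2 i j by module, smul_smul, h2]
  rw [show (1 / 2 : ℂ) * -2 = -1 by norm_num, neg_one_smul]

/-- embedding of the fibre -/
noncomputable def ex (w : Wsp dm) : Cfg dm := WithLp.toLp 2 fun p => wt w p.1 p.2

lemma xv_ex (w : Wsp dm) : xv (ex w) = wt w := rfl

/-- `x_i ↦ x_i - T_i x_8` -/
noncomputable def wl (D : Fin 9 → Matrix (Fin dm) (Fin dm) ℝ) : Cfg dm →L[ℝ] Wsp dm :=
  LinearMap.toContinuousLinearMap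
    { toFun := fun x => WithLp.toLp 2 fun p =>
        x (p.1.castSucc, p.2) - ∑ E, tI D p.1.castSucc p.2 E * x (Fin.last 8, E)
      map_add' := by
        intro x y
        ext p
        simp only [PiLp.add_apply, mul_add, Finset.sum_add_distrib]
        ring
      map_smul' := by
        intro c x
        ext p
        simp only [PiLp.smul_apply, smul_eq_mul, RingHom.id_apply, mul_sub, Finset.mul_sum]
        congr 1
        exact Finset.sum_congr rfl fun E _ => by ring }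

lemma wl_apply (D : Fin 9 → Matrix (Fin dm) (Fin dm) ℝ) (x : Cfg dm) (j : Fin 8) (B : Fin dm) :
    wl D x (j, B) = xv x j.castSucc B - (tI D j.castSucc *ᵥ xv x (Fin.last 8)) B := rfl

lemma wt_wl {D : Fin 9 → Matrix (Fin dm) (Fin dm) ℝ} (h8 : tI D 8 = 1) (x : Cfg dm) (i : Fin 9) :
    wt (wl D x) i = xv x i - tI D i *ᵥ xv x 8 := by
  refine Fin.lastCases ?_ (fun j => ?_) i
  · rw [wt_last, show (Fin.last 8) = (8 : Fin 9) from rfl, h8, Matrix.one_mulVec, sub_self]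
  · funext B
    rw [wt_castSucc, wl_apply]
    rfl

lemma wl_ex (D : Fin 9 → Matrix (Fin dm) (Fin dm) ℝ) (w : Wsp dm) : wl D (ex w) = w := by
  ext p
  obtain ⟨j, B⟩ := p
  rw [wl_apply, xv_ex, wt_castSucc, wt_last, Matrix.mulVec_zero]
  simp

lemma wl_single {D : Fin 9 → Matrix (Fin dm) (Fin dm) ℝ} (hT : ∀ i, (tI D i)ᵀ = tI D i) (i : Fin 9) (B : Fin dm) :
    wl D (EuclideanSpace.single (i, B) (1 : ℝ)) = dv D i B := by
  refine Fin.lastCases ?_ (fun j => ?_) i
  · ext p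
    obtain ⟨l, E⟩ := p
    rw [wl_apply, dv_last_apply]
    have h1 : xv (EuclideanSpace.single (Fin.last 8, B) (1 : ℝ)) l.castSucc E = 0 := by
      rw [xv, PiLp.single_apply, if_neg]
      intro h
      exact Fin.castSucc_ne_last l (congrArg Prod.fst h)
    have h2 : xv (EuclideanSpace.single (Fin.last 8, B) (1 : ℝ)) (Fin.last 8) = Pi.single B 1 := by
      funext E
      rw [xv, PiLp.single_apply, Pi.single_apply]
      simp
    rw [h1, h2, Matrix.mulVec_single_one, zero_sub]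
    change -(tI D l.castSucc E B) = _
    rw [← congrFun (congrFun (hT l.castSucc) E) B, Matrix.transpose_apply]
  · ext p
    obtain ⟨l, E⟩ := p
    rw [wl_apply, dv_castSucc]
    have h2 : xv (EuclideanSpace.single (j.castSucc, B) (1 : ℝ)) (Fin.last 8) = 0 := by
      funext E
      rw [xv, PiLp.single_apply, if_neg, Pi.zero_apply]
      intro h
      exact Fin.castSucc_ne_last j (congrArg Prod.fst h).symm
    rw [h2, Matrix.mulVec_zero, Pi.zero_apply, sub_zero, xv, PiLp.single_apply, PiLp.single_apply]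
    by_cases h : l = j
    · subst h
      simp
    · have h' : l.castSucc ≠ j.castSucc := fun hh => h (Fin.castSucc_injective _ hh)
      simp [h, h']

lemma dd_eq (D : Fin 9 → Matrix (Fin dm) (Fin dm) ℝ) (i : Fin 9) (B : Fin dm) (f : Wsp dm → F) (w : Wsp dm) :
    dd D i B f w = dr (dv D i B) f w := by
  refine Fin.lastCases ?_ (fun j => ?_) i
  · rw [dd, Fin.lastCases_last, dr, dv_last, map_neg, map_sum]
    congr 1
    simp only [map_sum, map_smul, Finset.sum_smul, Finset.smul_sum]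
    rw [Finset.sum_comm]
    refine Finset.sum_congr rfl fun j _ => ?_
    rw [Finset.sum_comm]
    refine Finset.sum_congr rfl fun E _ => Finset.sum_congr rfl fun C _ => ?_
    rw [smul_smul, ← Complex.ofReal_mul, Complex.coe_smul]
    rfl
  · rw [dd, Fin.lastCases_castSucc, dr, dv_castSucc, pf]

lemma FT.dd {f : Wsp dm → F} (hf : FT f) (D : Fin 9 → Matrix (Fin dm) (Fin dm) ℝ) (i : Fin 9) (B : Fin dm) :
    FT (Z.dd D i B f) := by
  have : Z.dd D i B f = EnFib.dr (dv D i B) f := funext fun w => dd_eq D i B f w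
  rw [this]
  exact FT.dr hf _

lemma pd_comp {D : Fin 9 → Matrix (Fin dm) (Fin dm) ℝ} (hT : ∀ i, (tI D i)ᵀ = tI D i) {f : Wsp dm → F}
    (hf : FT f) (i : Fin 9) (B : Fin dm) :
    pd i B (fun x => f (wl D x)) = fun x => dd D i B f (wl D x) := by
  funext x
  rw [pd, dd_eq, dr, ← wl_single hT]
  have h := (ft_diff hf (wl D x)).hasFDerivAt.comp x (wl D).hasFDerivAt
  have h' : fderiv ℝ (fun x => f (wl D x)) x = (fderiv ℝ f (wl D x)).comp (wl D) := h.fderiv
  rw [h']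
  rfl

lemma q1_eq (S : Setup d F) (φ : Spl dh dm d) (D : Fin 9 → Matrix (Fin dm) (Fin dm) ℝ) (β : Fin 16)
    (f : Wsp dm → F) (w : Wsp dm) :
    S.q1 φ D β f w = (-Complex.I) • ∑ i, ∑ B, S.vec (S.g i) (φ (Sum.inr B)) β (dd D i B f w) +
      (∑ B, S.vec (MA S D (wt w) B) (φ (Sum.inr B)) β) (f w) := by
  have h1 : ∑ i, ∑ B, S.vec (S.g i) (φ (Sum.inr B)) β (dd D i B f w) =
      (∑ j : Fin 8, ∑ B, S.vec (S.g j.castSucc) (φ (Sum.inr B)) β (pf j B f w)) -
      ∑ B, S.vec (S.g 8) (φ (Sum.inr B)) β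
      (∑ C, (((D 8)⁻¹ B C : ℝ) : ℂ) • ∑ j : Fin 8, ∑ E, ((D j.castSucc C E : ℝ) : ℂ) • pf j E f w) := by
    have hc : ∀ j : Fin 8, ∑ B, S.vec (S.g j.castSucc) (φ (Sum.inr B)) β (dd D j.castSucc B f w) =
        ∑ B, S.vec (S.g j.castSucc) (φ (Sum.inr B)) β (pf j B f w) := by
      intro j
      refine Finset.sum_congr rfl fun B _ => ?_
      rw [dd, Fin.lastCases_castSucc]
    have hl : ∑ B, S.vec (S.g (Fin.last 8)) (φ (Sum.inr B)) β (dd D (Fin.last 8) B f w) =
        -∑ B, S.vec (S.g 8) (φ (Sum.inr B)) β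
      (∑ C, (((D 8)⁻¹ B C : ℝ) : ℂ) • ∑ j : Fin 8, ∑ E, ((D j.castSucc C E : ℝ) : ℂ) • pf j E f w) := by
      rw [← Finset.sum_neg_distrib]
      refine Finset.sum_congr rfl fun B _ => ?_
      rw [dd, Fin.lastCases_last, map_neg]
      rfl
    rw [Fin.sum_univ_castSucc, Finset.sum_congr rfl fun j _ => hc j, hl, sub_eq_add_neg]
  have h2 : (∑ B, S.vec (MA S D (wt w) B) (φ (Sum.inr B)) β) (f w) = (1 / 2 : ℂ) • ∑ B, ∑ i, ∑ j,
      ((S.κ * ((∑ C, D i B C * wt w j C) - ∑ C, D j B C * wt w i C) : ℝ) : ℂ) •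
      S.vec (S.g2 i j) (φ (Sum.inr B)) β (f w) := by
    rw [_root_.sum_apply, Finset.smul_sum]
    refine Finset.sum_congr rfl fun B _ => ?_
    rw [MA, S.vec_smul, S.vec_sum, _root_.smul_apply, _root_.sum_apply]
    congr 1
    refine Finset.sum_congr rfl fun i _ => ?_
    rw [S.vec_sum, _root_.sum_apply]
    refine Finset.sum_congr rfl fun j _ => ?_
    rw [S.vec_smul, _root_.smul_apply]
    rfl
  rw [Setup.q1, h1, h2, smul_sub, sub_eq_add_neg, ← neg_smul, neg_neg]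

/-- the fibre supercharge through the extended function -/
lemma QT_eq (S : Setup d F) (φ : Spl dh dm d) {D : Fin 9 → Matrix (Fin dm) (Fin dm) ℝ}
    {Om : Matrix (Fin dm) (Fin dm) ℝ} (hA : AlgStmt) (hF : Frz D) (hO : IsOm S.κ D Om) (β : Fin 16)
    {f : Wsp dm → F} (hf : FT f) :
    U.En.QT (sm S φ) (Nc S D) β (fun x => f (wl D x)) = fun x => S.q1 φ D β f (wl D x) := by
  obtain ⟨a1, a2, a3, -⟩ := hA dm S.κ D Om S.κ_pos hF hO
  funext x
  rw [U.En.QT, Setup.Q0, q1_eq, U.En.TT_eq]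
  congr 1
  · congr 1
    refine Finset.sum_congr rfl fun i _ => Finset.sum_congr rfl fun B _ => ?_
    rw [pd_comp a1 hf]
    rfl
  · congr 1
    refine Finset.sum_congr rfl fun B _ => ?_
    rw [NX_eq]
    change S.vec (MA S D (xv x) B) (φ (Sum.inr B)) β = _
    congr 1
    unfold MA
    congr 1
    refine Finset.sum_congr rfl fun i _ => Finset.sum_congr rfl fun j _ => ?_
    congr 2
    unfold LL
    have h := congrFun (shift hA S.κ_pos hF hO (xv x) (xv x 8) i j) B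
    rw [wt_wl a3, wt_wl a3]
    rw [Pi.sub_apply, Pi.sub_apply] at h
    rw [h]

lemma contDiff_MA (S : Setup d F) (φ : Spl dh dm d) (D : Fin 9 → Matrix (Fin dm) (Fin dm) ℝ) (β : Fin 16) :
    ContDiff ℝ ∞ (fun w : Wsp dm => (∑ B, S.vec (MA S D (wt w) B) (φ (Sum.inr B)) β : F →L[ℂ] F)) := by
  have hw : ∀ i C, ContDiff ℝ ∞ (fun w : Wsp dm => wt w i C) := by
    intro i C
    refine Fin.lastCases ?_ (fun j => ?_) i
    · simp only [wt_last]
      exact contDiff_const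
    · simp only [wt_castSucc]
      exact (EuclideanSpace.proj (𝕜 := ℝ) (j, C) : Wsp dm →L[ℝ] ℝ).contDiff
  have hL : ∀ B i j, ContDiff ℝ ∞ (fun w : Wsp dm => LL S.κ D (wt w) B i j) := by
    intro B i j
    unfold LL
    simp only [Matrix.mulVec, dotProduct]
    refine contDiff_const.mul (ContDiff.sub ?_ ?_)
    · exact ContDiff.sum fun C _ => contDiff_const.mul (hw j C)
    · exact ContDiff.sum fun C _ => contDiff_const.mul (hw i C)
  simp only [MA, S.vec_smul, S.vec_sum]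
  refine ContDiff.sum fun B _ => ContDiff.const_smul _ (ContDiff.sum fun i _ => ContDiff.sum fun j _ => ?_)
  exact (Complex.ofRealCLM.contDiff.comp (hL B i j)).smul contDiff_const

lemma contDiff_clmW {T : Wsp dm → F →L[ℂ] F} {u : Wsp dm → F} (hT : ContDiff ℝ ∞ T)
    (hu : ContDiff ℝ ∞ u) : ContDiff ℝ ∞ (fun x => T x (u x)) := by
  have hB : IsBoundedBilinearMap ℝ (fun p : (F →L[ℂ] F) × F => p.1 p.2) := by
    have h := (isBoundedBilinearMap_apply (𝕜 := ℂ) (E := F) (F := F))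
    refine ⟨fun a b c => by simp, fun c a b => ?_, fun a b c => by simp, fun c a b => ?_, ?_⟩
    · simp
    · simp
    · obtain ⟨C, hC, hb⟩ := h.bound
      exact ⟨C, hC, hb⟩
  exact hB.contDiff.comp (hT.prodMk hu)

lemma FT.q1 {f : Wsp dm → F} (hf : FT f) (S : Setup d F) (φ : Spl dh dm d)
    (D : Fin 9 → Matrix (Fin dm) (Fin dm) ℝ) (β : Fin 16) : FT (S.q1 φ D β f) := by
  have h : S.q1 φ D β f = fun w => (-Complex.I) • ∑ i, ∑ B, S.vec (S.g i) (φ (Sum.inr B)) β (Z.dd D i B f w) +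
      (∑ B, S.vec (MA S D (wt w) B) (φ (Sum.inr B)) β) (f w) := funext fun w => q1_eq S φ D β f w
  rw [h]
  refine ft_add (ft_smul _ (ft_sum _ fun i _ => ft_sum _ fun B _ => ft_clm _ (FT.dd hf D i B))) ?_
  constructor
  · exact contDiff_clmW (contDiff_MA S φ D β) hf.1
  · refine hf.2.mono ?_
    intro x hx
    simp only [Function.mem_support] at hx ⊢
    intro h0
    exact hx (by rw [h0, map_zero])

end Vale.Agent.P353.Z.EnFib
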