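import Vale.Agent.P353.AN.B.Defs

/-! # P353, all `N`, block B: statements (fibre oscillator)

A prover delivers `theorem <name> (S : Setup d F) … : XxStmt S …` in `Vale/Agent/P353/AN/B/<Task>.lean`, importing only this file,
`Vale.Agent.P353.Z.U.*` and landed files, with other statements as hypotheses. Notation: `∂_i = dd D i`, `|f|² = nsf f`. -/

open MeasureTheory Filter Topology Matrix
open scoped ContDiff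

namespace Vale.Agent.P353.Z

variable {d dh dm : ℕ} {F : Type*} [NormedAddCommGroup F] [InnerProductSpace ℂ F]

/-- **B-Om** existence of `Ω`. PROOF: `A = -κ²∑D_i²` is symmetric and `vᵀAv = κ²∑|D_iv|² ≥ κ²|D_8v|² > 0`. Take the positive square root
(spectral theorem); it is a polynomial in `A` (interpolate `√` at the eigenvalues), so it commutes with everything that commutes
with `∑D_i²`. -/
def OmStmt : Prop := ∀ (dm : ℕ) (κ : ℝ) (D : Fin 9 → Matrix (Fin dm) (Fin dm) ℝ), 0 < κ → Frz D →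
  ∃ Om, IsOm κ D Om

/-- **B-Alg** algebra at a frozen point. PROOF: `D_8⁻¹` is antisymmetric and commutes with all `D_i`, so `T_i` is symmetric, the `T_i`
commute, `T_8 = 1`, `t2 = 1 + ∑_{j<8}T_j²` is positive definite; `∑T_iV_i = ∑T_iw_i - t2·s = 0`. -/
def AlgStmt : Prop := ∀ (dm : ℕ) (κ : ℝ) (D : Fin 9 → Matrix (Fin dm) (Fin dm) ℝ) (Om : Matrix (Fin dm) (Fin dm) ℝ),
  0 < κ → Frz D → IsOm κ D Om →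
  (∀ i, (tI D i)ᵀ = tI D i) ∧ (∀ i j, tI D i * tI D j = tI D j * tI D i) ∧ tI D 8 = 1 ∧
  (∀ i, tI D i * Om = Om * tI D i) ∧ (∀ i, D i * Om = Om * D i) ∧ (t2 D).det ≠ 0 ∧ (∀ i, D i = D 8 * tI D i) ∧
  (∀ w : Wsp dm, ∑ i, tI D i *ᵥ VV D w i = 0) ∧ (∀ w : Wsp dm, ∑ i, D i *ᵥ VV D w i = 0) ∧
  (∀ (w : Wsp dm) (i j : Fin 9), D i *ᵥ wt w j - D j *ᵥ wt w i = D i *ᵥ VV D w j - D j *ᵥ VV D w i) ∧
  (∀ (w : Wsp dm) (j : Fin 8), wt w j.castSucc = VV D w j.castSucc - tI D j.castSucc *ᵥ VV D w 8)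

/-- **B-QF** the quadratic form `qf` is `⟨w, M w⟩` with `M` symmetric positive definite and `(M w)_{jB} = (Ω V_j)_B` for `j < 8`.
PROOF: with B-Alg; `w ↦ V` is linear; `qf(w) = ∑_i⟨V_i(w),ΩV_i(w)⟩`; polarisation: `∑_i⟨V_i(w'),ΩV_i(w)⟩ = ∑_i⟨w'_i - T_is(w'),ΩV_i(w)⟩ =
∑_{j<8}⟨w'_j,ΩV_j(w)⟩ - ⟨s(w'),Ω∑T_iV_i(w)⟩`, the last term is `0`. Positive: `qf(w) = 0` gives `V = 0`, then `w_j = V_j - T_jV_8 = 0`.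
The constant `c` by compactness of the unit sphere (or smallest eigenvalue). -/
def QFStmt : Prop := ∀ (dm : ℕ) (κ : ℝ) (D : Fin 9 → Matrix (Fin dm) (Fin dm) ℝ) (Om : Matrix (Fin dm) (Fin dm) ℝ),
  0 < κ → Frz D → IsOm κ D Om →
  ∃ M : Wsp dm →L[ℝ] Wsp dm, (∀ v w, inner ℝ (M v) w = inner ℝ v (M w)) ∧ (∀ w, qf D Om w = inner ℝ w (M w)) ∧
    (∀ (w : Wsp dm) (j : Fin 8) (B : Fin dm), M w (j, B) = (Om *ᵥ VV D w j.castSucc) B) ∧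
    ∃ c : ℝ, 0 < c ∧ ∀ w, c * ‖w‖ ^ 2 ≤ inner ℝ w (M w)

/-- **B-En** exact energy identity at a frozen point.
PROOF. Extend `f` to `u : Cfg dm → F`, `u(x) = f(w(x))`, `w(x)_j = x_j - T_jx_8`: then `(∂_i^B u)(x) = (dd D i B f)(w(x))` for all `i < 9`
(`dd D 8` by the chain rule) and `q1_β f(w(x)) = (QT N β u)(x)` for the setup with colours `m` (`th α B := th α (φ (inr B))`, `f := 0`) and
`N j C A = κ∑_i (D_i)_{AC} g2 i j` (`En.QT`, `En.sum_QTQT` in `Z/U/EnGen.lean`; the potential `κ∑_{ij}(D_ix_j)γ^{ij}` is invariant under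
`x_i ↦ x_i + D_iλ`). Hence pointwise `∑_β q1_β q1_β f = -8∑_{i≤8,B}∂_i^B∂_i^B f + 16·(1/2)|ΩV|²f·… + KT f`, where the potential is
`(1/2)κ²∑_{i,j}|D_iw_j - D_jw_i|²·8 = 8κ²∑_{i,j}…/…`: precisely `∑_β(multiplier)² = 8∑_{i,B}((ΩV_i)_B)²` since
`∑_{i<j}|D_iV_j - D_jV_i|² = ∑_{i,j}|D_iV_j|² - |∑D_iV_i|²` and `κ²∑_i|D_iV_j|² = |ΩV_j|²`, and
`KT = -(i/…)`: `KT/16 = -(i/2)∑P_{pq}θ_pθ_q = N - 4 tr Ω` (`N = ∑Λ_{pq}θ_pθ_q`, `∑_{p}(1/2)Ω_{pp}θ_p² = 4 tr Ω`).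
`q1_β` is symmetric on test functions, so `∑|q1_βf|² = ⟨f,∑q1_βq1_βf⟩`. Complete the square: `∑_{i,B}|(∂_i^B + (ΩV_i)_B)f|² =
∑|∂_i^Bf|² + ∑|(ΩV_i)_Bf|² - (∑_{i,B}∂_i^B(ΩV_i)_B)|f|²` and `∑_{i,B}∂_i^B(ΩV_i)_B = 8 tr Ω` (trace of `Ω` on `{∑T_iV_i = 0}`). -/
def EnFStmt (S : Setup d F) (φ : Spl dh dm d) : Prop :=
  ∀ (D : Fin 9 → Matrix (Fin dm) (Fin dm) ℝ) (Om : Matrix (Fin dm) (Fin dm) ℝ), Frz D → IsOm S.κ D Om →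
  ∀ f : Wsp dm → F, FT f →
    S.e1 φ D f = (1 / 2) * (∑ i, ∑ B, nsf (fun w => dd D i B f w + (((Om *ᵥ VV D w i) B : ℝ) : ℂ) • f w)) +
      (∫ w, inner ℂ (f w) (S.NF φ D Om (f w))).re

/-- **B-Lam** the fermionic energy. PROOF: `P` is real antisymmetric (`γ^i` symmetric, `D_i` antisymmetric) and
`P² = κ²∑_{i,j}γ^iγ^jD_iD_j = κ²∑D_i² = -Ω²`, so `Λ = ½(Ω - iP)` is Hermitian and `Λ² = ½(Ω² - iΩP) = ΩΛ = ΛΩ`; with `Θ_p = θ_pv`: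
`⟨v,Nv⟩ = ∑Λ_{pq}⟨Θ_p,Θ_q⟩ = ∑_p⟨(Ω^{-1/2}ΛΘ)_p,(Ω^{-1/2}ΛΘ)_p⟩ ≥ ω^{-1}∑_p‖(Λθ)_pv‖²` (`Ω ≤ ω`). So `N ≥ 0`, `N` is self-adjoint and
`⟨v,Nv⟩ = 0` iff `v ∈ F0`; a self-adjoint nonnegative operator in finite dimension has a gap above its kernel. -/
def LamStmt (S : Setup d F) (φ : Spl dh dm d) : Prop := FiniteDimensional ℂ F →
  ∀ (D : Fin 9 → Matrix (Fin dm) (Fin dm) ℝ) (Om : Matrix (Fin dm) (Fin dm) ℝ), Frz D → IsOm S.κ D Om →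
  ∃ c : ℝ, 0 < c ∧ ∀ v : F, (∃ v0 ∈ S.F0 φ D Om, (∀ u ∈ S.F0 φ D Om, inner ℂ u (v - v0) = 0) ∧
    c * ‖v - v0‖ ^ 2 ≤ (inner ℂ v (S.NF φ D Om v)).re)

/-- **B-F0** the block diagonal fermions preserve `F0` (they anticommute with `(Λθ)_p`), and `F0` does not change under `D ↦ R D`. -/
def F0Stmt (S : Setup d F) (φ : Spl dh dm d) : Prop :=
  ∀ (D : Fin 9 → Matrix (Fin dm) (Fin dm) ℝ) (Om : Matrix (Fin dm) (Fin dm) ℝ),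
  (∀ α (A : Fin dh), ∀ v ∈ S.F0 φ D Om, S.th α (φ (Sum.inl A)) v ∈ S.F0 φ D Om) ∧
  ∀ R : ℝ, 0 < R → S.F0 φ (fun i => R • D i) (R • Om) = S.F0 φ D Om

/-- **B-Poi** Poincaré inequality for Gaussians (any constant). PROOF (Maurey–Pisier). `g(w) = exp(-½⟨w,Mw⟩)`, `u = f/g` smooth compactly
supported, `∂_nf + (Mw)_nf = g·∂_nu`, `dμ = g²dw`, `Z = ∫g²`. For `x,y ∈ E` and `X_θ = x sin θ + y cos θ`, `X_θ' = x cos θ - y sin θ`: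
`u(x) - u(y) = ∫_0^{π/2} Du(X_θ)X_θ' dθ`, so `|u(x)-u(y)|² ≤ (π/2)∫_0^{π/2}|Du(X_θ)|²|X_θ'|²dθ`; integrate over `μ⊗μ`; the rotation
`(x,y) ↦ (X_θ,X_θ')` preserves Lebesgue measure on `E × E` and `⟨x,Mx⟩+⟨y,My⟩`: `∬|u(x)-u(y)|²dμdμ ≤ (π²/4)∫|Du|²dμ·∫|y|²dμ`. Finally
`Z∫|u - ū|²dμ = ½∬|u(x)-u(y)|²dμdμ` with `ū = Z⁻¹∫u dμ`, and `g·ū = Z⁻¹g∫gf`. (`|Du(x)v|² ≤ |v|²∑_n|∂_nu|²`.) -/
def PoiStmt (dm : ℕ) (F : Type*) [NormedAddCommGroup F] [InnerProductSpace ℂ F] : Prop :=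
  ∀ M : Wsp dm →L[ℝ] Wsp dm, (∀ v w, inner ℝ (M v) w = inner ℝ v (M w)) →
  (∃ c : ℝ, 0 < c ∧ ∀ w, c * ‖w‖ ^ 2 ≤ inner ℝ w (M w)) →
  ∃ c : ℝ, 0 < c ∧ ∀ f : Wsp dm → F, FT f →
    c * nsf (fun w => f w - ((Real.exp (-(1 / 2) * inner ℝ w (M w)) /
      ∫ w' : Wsp dm, Real.exp (-(1 / 2) * inner ℝ w' (M w')) ^ 2 : ℝ) : ℂ) •
        ∫ w', ((Real.exp (-(1 / 2) * inner ℝ w' (M w')) : ℝ) : ℂ) • f w') ≤
      ∑ j, ∑ B, nsf (fun w => pf j B f w + ((M w (j, B) : ℝ) : ℂ) • f w)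

/-- **B-Gap** gap at the frozen point, `R = 1`. PROOF: B-En; drop `i = 8` (`dd D j.castSucc = pf j`); B-QF (`(ΩV_j)_B = (Mw)_{jB}`) and
B-Poi for the bosonic part, B-Lam for the fermionic part: with `Π = ` bosonic projection, `Π_0` = projection onto `F0` (they commute),
`|f - Π_0Πf|² ≤ |f - Πf|² + |f - Π_0f|²`. -/
def GapFStmt (S : Setup d F) (φ : Spl dh dm d) : Prop := ∀ _ : FiniteDimensional ℂ F,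
  ∀ (D : Fin 9 → Matrix (Fin dm) (Fin dm) ℝ) (Om : Matrix (Fin dm) (Fin dm) ℝ), Frz D → IsOm S.κ D Om →
  ∃ c : ℝ, 0 < c ∧ ∀ f : Wsp dm → F, FT f →
    c * nsf (fun w => f w - S.PR φ D Om 1 f w) ≤ S.e1 φ D f

/-- **B-Coer** coercivity at the frozen point, `R = 1`. PROOF: B-En, drop `i = 8` and the fermionic part (`≥ 0` by B-Lam);
`∑_{jB}|(∂_{jB} + (Mw)_{jB})f|² = ∑|∂_{jB}f|² + ||Mw|f|² - tr(M)|f|²` (integration by parts), `|Mw| ≥ c|w|`. -/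
def CoerFStmt (S : Setup d F) (φ : Spl dh dm d) : Prop := FiniteDimensional ℂ F →
  ∀ (D : Fin 9 → Matrix (Fin dm) (Fin dm) ℝ) (Om : Matrix (Fin dm) (Fin dm) ℝ), Frz D → IsOm S.κ D Om →
  ∃ C : ℝ, 0 < C ∧ ∀ f : Wsp dm → F, FT f →
    (∑ j, ∑ B, nsf (pf j B f)) + nsf (fun w => ((‖w‖ : ℝ) : ℂ) • f w) ≤ C * (S.e1 φ D f + nsf f)

/-- **B-Pert** dependence on `D`, `R = 1`. PROOF: all coefficients of `q1` are polynomials in `D_i` and `D_8⁻¹`; for `ε` small `D_8'` is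
invertible and `|D_8'⁻¹ - D_8⁻¹| ≤ Cε` (entries). -/
def PertFStmt (S : Setup d F) (φ : Spl dh dm d) : Prop :=
  ∀ (D : Fin 9 → Matrix (Fin dm) (Fin dm) ℝ), (D 8).det ≠ 0 →
  ∃ C ε0 : ℝ, 0 < C ∧ 0 < ε0 ∧ ∀ ε : ℝ, 0 ≤ ε → ε ≤ ε0 → ∀ D' : Fin 9 → Matrix (Fin dm) (Fin dm) ℝ,
    (∀ i A B, |D' i A B - D i A B| ≤ ε) → (D' 8).det ≠ 0 ∧ ∀ f : Wsp dm → F, FT f →
    ∀ β, nsf (fun w => S.q1 φ D' β f w - S.q1 φ D β f w) ≤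
      C * ε ^ 2 * ((∑ j, ∑ B, nsf (pf j B f)) + nsf (fun w => ((‖w‖ : ℝ) : ℂ) • f w))

/-- **B-Scale** scaling `w ↦ √R w`. PROOF: substitution; `n = 8 dm` is the dimension of `Wsp dm`. -/
def ScaleFStmt (S : Setup d F) (φ : Spl dh dm d) : Prop := ∀ _ : FiniteDimensional ℂ F,
  ∀ (D D0 : Fin 9 → Matrix (Fin dm) (Fin dm) ℝ) (Om : Matrix (Fin dm) (Fin dm) ℝ) (R : ℝ), 0 < R →
  ∀ f h : Wsp dm → F, FT f → (∀ w, f w = h (Real.sqrt R • w)) →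
    FT h ∧ nsf f = (Real.sqrt R ^ (8 * dm))⁻¹ * nsf h ∧
    (∀ j B, nsf (pf j B f) = (Real.sqrt R ^ (8 * dm))⁻¹ * (R * nsf (pf j B h))) ∧
    nsf (fun w => ((‖w‖ : ℝ) : ℂ) • f w) = (Real.sqrt R ^ (8 * dm))⁻¹ * (R⁻¹ * nsf (fun w => ((‖w‖ : ℝ) : ℂ) • h w)) ∧
    (∀ β w, S.q1 φ (fun i => R • D i) β f w = ((Real.sqrt R : ℝ) : ℂ) • S.q1 φ D β h (Real.sqrt R • w)) ∧
    (∀ w, S.PR φ D0 Om R f w = S.PR φ D0 Om 1 h (Real.sqrt R • w)) ∧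
    ((∀ w, f (-w) = -f w) → ∀ w, S.PR φ D0 Om R f w = 0)

/-- **B-Fib** FIBRE FACTS (output of block B). PROOF: by B-Scale reduce to `R = 1`, `D' = D/R`; B-Gap, B-Coer at the frozen point;
B-Pert: `|e1(D')^{1/2} - e1(D)^{1/2}| ≤ Cε(e1(D) + |f|²)^{1/2}`, so for `ε ≤ ε0`: `e1(D) ≤ 4e1(D') + |f|²·Cε²`, etc. -/
def FibStmt (S : Setup d F) (φ : Spl dh dm d) : Prop := ∀ _ : FiniteDimensional ℂ F,
  ∀ (D0 : Fin 9 → Matrix (Fin dm) (Fin dm) ℝ) (Om : Matrix (Fin dm) (Fin dm) ℝ), Frz D0 → IsOm S.κ D0 Om →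
  ∃ c0 C ε0 : ℝ, 0 < c0 ∧ 0 < C ∧ 0 < ε0 ∧ ∀ R : ℝ, 0 < R → ∀ ε : ℝ, 0 ≤ ε → ε ≤ ε0 →
  ∀ D : Fin 9 → Matrix (Fin dm) (Fin dm) ℝ, (∀ i A B, |D i A B - R * D0 i A B| ≤ ε * R) → (D 8).det ≠ 0 ∧
  ∀ f : Wsp dm → F, FT f →
    ((∑ j, ∑ B, nsf (pf j B f)) + R ^ 2 * nsf (fun w => ((‖w‖ : ℝ) : ℂ) • f w) ≤ C * (S.e1 φ D f + R * nsf f)) ∧
    (c0 * R * nsf (fun w => f w - S.PR φ D0 Om R f w) ≤ S.e1 φ D f + C * ε ^ 2 * R * nsf f) ∧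
    ((∀ w, f (-w) = -f w) → c0 * R * nsf f ≤ S.e1 φ D f) ∧
    (∀ β, nsf (fun w => S.q1 φ D β f w - S.q1 φ (fun i => R • D0 i) β f w) ≤ C * ε ^ 2 * (S.e1 φ D f + R * nsf f))

end Vale.Agent.P353.Z
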